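import Mathlib

/-! P174 module A1: the smoothed spectral phase of unitaries in a tracial star algebra. -/

namespace Vale.Agent.P174

open Finset Complex

/-- A positive hermitian trace. -/
structure Trc (A : Type*) [Ring A] [StarRing A] [Algebra ℂ A] where
  τ : A →ₗ[ℂ] ℂ
  comm : ∀ x y, τ (x * y) = τ (y * x)
  star : ∀ x, τ (star x) = (starRingEnd ℂ) (τ x)
  pos : ∀ x, 0 ≤ (τ (Star.star x * x)).re

/-- The smoothed sawtooth function. -/
noncomputable def psi (m : ℕ) (δ : ℝ) : ℝ :=
  -(2 / m) * ∑ j ∈ range m, ∑ n ∈ range j, Real.sin ((n + 1) * δ) / (n + 1)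

namespace Trc

variable {A : Type*} [Ring A] [StarRing A] [Algebra ℂ A] [StarModule ℂ A] (T : Trc A) (m : ℕ)

/-- The smoothed phase. -/
noncomputable def Φ (u : A) : ℝ :=
  -(2 / m) * ∑ j ∈ range m, ∑ n ∈ range j, (T.τ (u ^ (n + 1))).im / (n + 1)

/-- Right multiplication by `u` raises the phase by at most `c`. -/
def Cost (u : A) (c : ℝ) : Prop :=
  u ∈ unitary A ∧ ∀ x ∈ unitary A, T.Φ m (x * u) ≤ T.Φ m x + c

variable {T m}

theorem Cost.mono {u : A} {c c' : ℝ} (h : T.Cost m u c) (hc : c ≤ c') : T.Cost m u c' :=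
  ⟨h.1, fun x hx => (h.2 x hx).trans (by linarith)⟩

theorem cost_one : T.Cost m 1 0 := ⟨one_mem _, fun x _ => by simp⟩

theorem Cost.mul {u v : A} {c c' : ℝ} (h : T.Cost m u c) (h' : T.Cost m v c') :
    T.Cost m (u * v) (c + c') :=
  ⟨mul_mem h.1 h'.1, fun x hx => by
    have := h'.2 _ (mul_mem hx h.1)
    have := h.2 x hx
    rw [← mul_assoc]; linarith⟩

theorem Φ_conj {w : A} (hw : w ∈ unitary A) (u : A) :
    T.Φ m (w * u * Star.star w) = T.Φ m u := by
  have h1 : ∀ n : ℕ, (w * u * Star.star w) ^ n = w * u ^ n * Star.star w := fun n => by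
    induction n with
    | zero => rw [pow_zero, pow_zero, mul_one, hw.2]
    | succ n ih =>
      rw [pow_succ, ih, pow_succ]
      calc w * u ^ n * Star.star w * (w * u * Star.star w)
          = w * u ^ n * (Star.star w * w) * u * Star.star w := by simp only [mul_assoc]
        _ = _ := by rw [hw.1, mul_one, mul_assoc w]
  simp only [Φ, h1, T.comm _ (Star.star w), ← mul_assoc, hw.1, one_mul]

theorem Cost.conj {u w : A} {c : ℝ} (h : T.Cost m u c) (hw : w ∈ unitary A) :
    T.Cost m (w * u * Star.star w) c := by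
  have hw' := Unitary.star_mem hw
  refine ⟨mul_mem (mul_mem hw h.1) hw', fun x hx => ?_⟩
  have h1 := h.2 _ (mul_mem (mul_mem hw' hx) hw)
  have h2 := Φ_conj (T := T) (m := m) hw' x
  rw [star_star] at h2
  have h3 : x * (w * u * Star.star w) = w * (Star.star w * x * w * u) * Star.star w := by
    simp only [← mul_assoc, hw.2, one_mul]
  rwa [h3, Φ_conj hw, ← h2]

theorem Φ_star (u : A) : T.Φ m (Star.star u) = -T.Φ m u := by
  simp only [Φ, ← star_pow, T.star, conj_im, neg_div, sum_neg_distrib, mul_neg]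

theorem Φ_scalar (δ : ℝ) :
    T.Φ m (exp (δ * I) • (1 : A)) = (T.τ 1).re * psi m δ := by
  have h1 : (T.τ 1).im = 0 := by
    have h2 := congrArg Complex.im (T.star 1)
    rw [star_one, conj_im] at h2
    linarith
  have h2 : ∀ n : ℕ, (T.τ ((exp (δ * I) • (1 : A)) ^ (n + 1))).im =
      (T.τ 1).re * Real.sin ((n + 1) * δ) := fun n => by
    rw [smul_pow, one_pow, map_smul, smul_eq_mul, ← exp_nat_mul, ← mul_assoc, mul_im, h1,
      ← ofReal_natCast, ← ofReal_mul, exp_ofReal_mul_I_im, mul_zero, zero_add, mul_comm,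
      Nat.cast_add_one]
  simp only [Φ, psi, h2, mul_div_assoc, ← mul_sum]
  ring

theorem phase_re_star {p : A} (hp : IsStarProjection p) (y : A) :
    (T.τ (p * Star.star y)).re = (T.τ (p * y)).re := by
  rw [T.comm p y, ← conj_re (T.τ (y * p)), ← T.star, star_mul, hp.isSelfAdjoint.star_eq]

theorem phase_pos {p : A} (hp : IsStarProjection p) (y : A) :
    0 ≤ (T.τ (p * (Star.star y * y))).re := by
  have h := T.pos (y * p)
  rwa [star_mul, hp.isSelfAdjoint.star_eq, ← mul_assoc, T.comm, ← mul_assoc, ← mul_assoc,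
    hp.isIdempotentElem.eq, mul_assoc] at h

theorem phase_re_le {p v : A} (hp : IsStarProjection p) (hv : v ∈ unitary A) :
    (T.τ (p * v)).re ≤ (T.τ p).re := by
  have h := phase_pos (T := T) hp (1 - v)
  rw [star_sub, star_one, sub_mul, one_mul, mul_sub (Star.star v), hv.1, mul_one] at h
  simp only [mul_sub, mul_one, map_sub, sub_re, phase_re_star hp] at h
  linarith

theorem phase_sq {p u : A} (hp : IsStarProjection p) (hu : u ∈ unitary A) (m : ℕ) :
    (T.τ (p * (Star.star (∑ j ∈ range m, u ^ j) * ∑ j ∈ range m, u ^ j))).re =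
      m * (T.τ p).re + 2 * ∑ j ∈ range m, ∑ n ∈ range j, (T.τ (p * u ^ (n + 1))).re := by
  induction m with
  | zero => simp
  | succ m ih =>
    have h1 : Star.star (u * ∑ j ∈ range m, u ^ j) * (u * ∑ j ∈ range m, u ^ j) =
        Star.star (∑ j ∈ range m, u ^ j) * ∑ j ∈ range m, u ^ j := by
      rw [star_mul, mul_assoc, ← mul_assoc (Star.star u), hu.1, one_mul]
    have h2 : (T.τ (p * (u * ∑ j ∈ range m, u ^ j))).re =
        ∑ n ∈ range m, (T.τ (p * u ^ (n + 1))).re := by
      simp only [mul_sum, map_sum, re_sum, pow_succ']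
    rw [geom_sum_succ, star_add, star_one, add_mul, mul_add, mul_add, h1, sum_range_succ]
    simp only [mul_add, mul_one, one_mul, map_add, add_re, phase_re_star hp, ih, h2]
    push_cast
    ring

theorem phase_pow (a b : A) (z : ℂ) (n : ℕ) : ∃ D : A,
    (∀ y, HasDerivAt (fun z : ℂ => T.τ (y * (a + z • b) ^ n)) (T.τ (y * D)) z) ∧
      ∀ k, T.τ ((a + z • b) ^ k * D) = n * T.τ (b * (a + z • b) ^ (n - 1 + k)) := by
  induction n with
  | zero => exact ⟨0, fun y => by simpa using hasDerivAt_const z _, fun k => by simp⟩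
  | succ n ih =>
    obtain ⟨D, h1, h2⟩ := ih
    refine ⟨b * (a + z • b) ^ n + (a + z • b) * D, fun y => ?_, fun k => ?_⟩
    · have h3 : ∀ (z : ℂ) (w : A), T.τ (y * ((a + z • b) * w)) =
          T.τ (y * a * w) + z * T.τ (y * b * w) := fun z w => by
        simp only [add_mul, mul_add, smul_mul_assoc, mul_smul_comm, map_add, map_smul, smul_eq_mul,
          mul_assoc]
      simp only [pow_succ', mul_add y, map_add, h3]
      refine ((h1 (y * a)).fun_add ((hasDerivAt_id' z).fun_mul (h1 (y * b)))).congr_deriv ?_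
      rw [mul_assoc y b ((a + z • b) ^ n)]
      ring
    · rw [mul_add, map_add, T.comm, mul_assoc, ← pow_add, ← mul_assoc, ← pow_succ, h2,
        Nat.add_sub_cancel]
      rcases n with _ | n
      · simp
      · rw [Nat.add_sub_cancel, ← add_assoc, add_right_comm n k]
        push_cast
        ring

theorem phase_unitary {p : A} (hp : IsStarProjection p) (t : ℝ) :
    1 + (exp (t * I) - 1) • p ∈ unitary A := by
  have h1 : ∀ c c' : ℂ, c * c' = 1 → (1 + (c - 1) • p) * (1 + (c' - 1) • p) = 1 := fun c c' h => by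
    rw [add_mul, mul_add, mul_add, smul_mul_smul_comm, hp.isIdempotentElem.eq, one_mul, one_mul,
      mul_one, add_assoc, ← add_smul, ← add_smul, add_eq_left]
    exact smul_eq_zero_of_left (by linear_combination h) p
  have h2 : exp (t * I) * Star.star (exp (t * I)) = 1 := by
    rw [star_def, mul_conj', norm_exp_ofReal_mul_I]
    simp
  rw [Unitary.mem_iff, star_add, star_one, star_smul, star_sub, star_one, hp.isSelfAdjoint.star_eq]
  exact ⟨h1 _ _ (by rwa [mul_comm]), h1 _ _ h2⟩

theorem phase_deriv {p x : A} (hp : IsStarProjection p) (hx : x ∈ unitary A) (t : ℝ) :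
    ∃ d, HasDerivAt (fun t : ℝ => T.Φ m (x * (1 + (exp (t * I) - 1) • p))) d t ∧
      -(2 * m * (T.τ p).re) ≤ d ∧ d ≤ (T.τ p).re := by
  have h1 : ∀ c : ℂ, x * (1 + (c - 1) • p) = x - x * p + c • (x * p) := fun c => by
    rw [mul_add, mul_one, mul_smul_comm]
    module
  have hu := mul_mem hx (phase_unitary hp t)
  have h0 : 0 ≤ (T.τ p).re := by simpa using phase_pos (T := T) hp 1
  have h2 : x * (1 + (exp (t * I) - 1) • p) * p = exp (t * I) • (x * p) := by
    rw [h1, add_mul, sub_mul, smul_mul_assoc, mul_assoc, hp.isIdempotentElem.eq, sub_self, zero_add]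
  set u := x * (1 + (exp (t * I) - 1) • p) with hu'
  refine ⟨-(2 / m) * ∑ j ∈ range m, ∑ n ∈ range j, (T.τ (p * u ^ (n + 1))).re, ?_, ?_, ?_⟩
  · refine HasDerivAt.const_mul _ (HasDerivAt.fun_sum fun j _ => HasDerivAt.fun_sum fun n _ => ?_)
    obtain ⟨D, h3, h4⟩ := phase_pow (T := T) (x - x * p) (x * p) (exp (t * I)) (n + 1)
    have h5 : HasDerivAt (fun t : ℝ => exp (t * I)) (exp (t * I) * I) t := by
      simpa using ((hasDerivAt_id (t : ℂ)).mul_const I).cexp.comp_ofReal
    have h6 := (imCLM.hasFDerivAt.comp_hasDerivAt t ((h3 1).comp_of_eq t h5 rfl)).div_const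
      ((n : ℝ) + 1)
    have h7 := h4 0
    rw [pow_zero, ← h1, ← hu', Nat.add_sub_cancel, add_zero] at h7
    have h8 : T.τ (p * u ^ (n + 1)) = exp (t * I) * T.τ (x * p * u ^ n) := by
      rw [pow_succ, ← mul_assoc, T.comm, ← mul_assoc, h2, smul_mul_assoc, map_smul, smul_eq_mul]
    simp only [Function.comp_def, one_mul, ← h1, imCLM_apply] at h6
    refine h6.congr_deriv ?_
    rw [one_mul] at h7
    rw [h7, ← mul_assoc, mul_assoc ((n + 1 : ℕ) : ℂ), mul_comm _ (exp _), ← h8, mul_I_im,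
      ← ofReal_natCast, re_ofReal_mul, Nat.cast_add_one, mul_div_cancel_left₀ _ (by positivity)]
  · rcases Nat.eq_zero_or_pos m with rfl | hm
    · simp
    have h3 : ∑ j ∈ range m, ∑ n ∈ range j, (T.τ (p * u ^ (n + 1))).re ≤ m * (m * (T.τ p).re) := by
      refine (sum_le_card_nsmul _ _ (m * (T.τ p).re) fun j hj => ?_).trans (by simp)
      refine (sum_le_card_nsmul _ _ _ fun n _ => phase_re_le hp (pow_mem hu _)).trans ?_
      rw [card_range, nsmul_eq_mul]
      exact mul_le_mul_of_nonneg_right (Nat.cast_le.2 (mem_range.1 hj).le) h0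
    rw [neg_mul, neg_le_neg_iff, div_mul_eq_mul_div, div_le_iff₀ (by positivity)]
    linarith
  · rcases Nat.eq_zero_or_pos m with rfl | hm
    · simpa using h0
    have h3 := phase_pos (T := T) hp (∑ j ∈ range m, u ^ j)
    rw [phase_sq hp hu] at h3
    rw [← neg_div, div_mul_eq_mul_div, div_le_iff₀ (by positivity)]
    linarith

theorem cost_rot {p : A} (hp : IsStarProjection p) {θ : ℝ} (hθ : 0 ≤ θ) :
    T.Cost m (1 + (exp (θ * I) - 1) • p) (θ * (T.τ p).re) := by
  refine ⟨phase_unitary hp θ, fun x hx => ?_⟩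
  choose d h1 _ h2 using phase_deriv (T := T) (m := m) hp hx
  have h3 := image_sub_le_mul_sub_of_deriv_le (fun t => (h1 t).differentiableAt)
    (fun t => (h1 t).deriv.trans_le (h2 t)) hθ
  simp only [ofReal_zero, zero_mul, exp_zero, sub_self, zero_smul, add_zero, mul_one] at h3
  linarith

theorem cost_rot_neg {p : A} (hp : IsStarProjection p) {θ : ℝ} (hθ : 0 ≤ θ) :
    T.Cost m (1 + (exp (-θ * I) - 1) • p) (2 * m * θ * (T.τ p).re) := by
  rw [← ofReal_neg]
  refine ⟨phase_unitary hp (-θ), fun x hx => ?_⟩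
  choose d h1 h2 _ using phase_deriv (T := T) (m := m) hp hx
  have h3 := mul_sub_le_image_sub_of_le_deriv (fun t => (h1 t).differentiableAt)
    (fun t => (h2 t).trans_eq (h1 t).deriv.symm) (neg_nonpos.2 hθ)
  simp only [ofReal_zero, zero_mul, exp_zero, sub_self, zero_smul, add_zero, mul_one] at h3
  linarith

theorem cost_invol {v : A} (hv : v ∈ unitary A) (h : v * v = 1) :
    T.Cost m v (Real.pi * ((T.τ 1).re - (T.τ v).re) / 2) := by
  have h1 : Star.star v = v := by rw [← mul_one (Star.star v), ← h, ← mul_assoc, hv.1, one_mul]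
  have hp : IsStarProjection ((2⁻¹ : ℂ) • (1 - v)) := by
    refine ⟨?_, ?_⟩
    · rw [IsIdempotentElem, smul_mul_smul_comm, sub_mul, mul_sub, mul_sub, h, one_mul, one_mul,
        mul_one]
      module
    · rw [IsSelfAdjoint, star_smul, star_sub, star_one, h1]
      simp
  have h2 := cost_rot (T := T) (m := m) hp Real.pi_pos.le
  have h3 : 1 + (exp (Real.pi * I) - 1) • (2⁻¹ : ℂ) • (1 - v) = v := by
    rw [exp_pi_mul_I]
    module
  rw [h3] at h2
  refine h2.mono (le_of_eq ?_)
  rw [map_smul, map_sub, smul_eq_mul]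
  simp
  ring

end Trc

theorem phase_fejer (m : ℕ) (t : ℝ) :
    (1 - Real.cos t) * (m + 2 * ∑ j ∈ range m, ∑ n ∈ range j, Real.cos ((n + 1) * t)) =
      1 - Real.cos (m * t) := by
  have h1 : ∀ j : ℕ, (1 - Real.cos t) * (1 + 2 * ∑ n ∈ range j, Real.cos ((n + 1) * t)) =
      Real.cos (j * t) - Real.cos ((j + 1) * t) := fun j => by
    induction j with
    | zero => simp
    | succ j ih =>
      have h2 := Real.cos_add ((j + 1) * t) t
      have h3 := Real.cos_sub ((j + 1) * t) t
      rw [add_one_mul (j : ℝ) t, add_sub_cancel_right, ← add_one_mul (j : ℝ) t] at h3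
      rw [sum_range_succ, Nat.cast_add_one, add_one_mul ((j : ℝ) + 1) t]
      linear_combination ih + h2 + h3
  induction m with
  | zero => simp
  | succ m ih =>
    rw [sum_range_succ, Nat.cast_add_one]
    linear_combination ih + h1 m

theorem exists_psi_le {η : ℝ} (hη : 0 < η) : ∃ (m : ℕ) (δ : ℝ), psi m δ ≤ -Real.pi + η := by
  set δ := min (η / 2) Real.pi with hδ
  have h0 : 0 < δ := lt_min (half_pos hη) Real.pi_pos
  have h1 : δ ≤ Real.pi := min_le_right _ _
  have h2 : δ ≤ η / 2 := min_le_left _ _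
  have h3 : 0 < 1 - Real.cos δ := sub_pos.2 (by
    simpa using Real.cos_lt_cos_of_nonneg_of_le_pi le_rfl h1 h0)
  obtain ⟨m, hm⟩ := exists_nat_gt (4 * Real.pi / η / (1 - Real.cos δ))
  have hm0 : (0 : ℝ) < m := lt_of_le_of_lt (by have := Real.pi_pos; positivity) hm
  have h4 : ∀ t, HasDerivAt (psi m)
      (-(2 / m) * ∑ j ∈ range m, ∑ n ∈ range j, Real.cos ((n + 1) * t)) t := fun t => by
    refine HasDerivAt.const_mul _ (HasDerivAt.fun_sum fun j _ => HasDerivAt.fun_sum fun n _ => ?_)
    have h5 := (((hasDerivAt_id t).const_mul ((n : ℝ) + 1)).sin).div_const ((n : ℝ) + 1)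
    rwa [mul_one, mul_div_cancel_right₀ _ (by positivity)] at h5
  have h5 := (convex_Icc δ Real.pi).mul_sub_le_image_sub_of_le_deriv
    (fun t _ => (h4 t).continuousAt.continuousWithinAt)
    (fun t _ => (h4 t).differentiableAt.differentiableWithinAt)
    (C := 1 - 2 / (m * (1 - Real.cos δ))) (fun t ht => by
      have ht' := interior_subset ht
      have h6 : 1 - Real.cos δ ≤ 1 - Real.cos t :=
        sub_le_sub_left (Real.cos_le_cos_of_nonneg_of_le_pi h0.le ht'.2 ht'.1) 1
      have h7 : m + 2 * ∑ j ∈ range m, ∑ n ∈ range j, Real.cos ((n + 1) * t) ≤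
          2 / (1 - Real.cos δ) := by
        refine le_trans ?_ (div_le_div_of_nonneg_left zero_le_two h3 h6)
        rw [le_div_iff₀' (h3.trans_le h6), phase_fejer]
        linarith [Real.neg_one_le_cos (m * t)]
      rw [(h4 t).deriv, mul_comm (m : ℝ), ← div_div]
      refine le_trans (sub_le_sub_left (div_le_div_of_nonneg_right h7 hm0.le) 1) (le_of_eq ?_)
      rw [add_div, div_self hm0.ne']
      ring) δ ⟨le_rfl, h1⟩ Real.pi ⟨h1, le_rfl⟩ h1
  have h6 : psi m Real.pi = 0 := by
    have h7 : ∀ n : ℕ, Real.sin ((n + 1) * Real.pi) = 0 := fun n => by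
      rw [← Nat.cast_add_one, Real.sin_nat_mul_pi]
    simp [psi, h7]
  have h7 : 2 / (m * (1 - Real.cos δ)) * Real.pi ≤ η / 2 := by
    rw [div_lt_iff₀ h3, div_lt_iff₀ hη] at hm
    rw [div_mul_eq_mul_div, div_le_iff₀ (by positivity)]
    linarith
  have h8 : 0 ≤ 2 / (m * (1 - Real.cos δ)) * δ := by positivity
  refine ⟨m, δ, ?_⟩
  rw [h6] at h5
  linarith

end Vale.Agent.P174
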