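import Vale.Agent.P174.Defs
import Vale.Agent.P174.Phase

/-! P174 module A2: the group algebra with its trace, matrices, monomial matrices. -/

namespace Vale.Agent.P174

open Finset Complex Equiv

universe u

/-- A tracial star algebra containing `G` with the regular character. -/
structure Base (G B : Type*) [Group G] [Ring B] [StarRing B] [Algebra ℂ B] extends Trc B where
  γ : G →* B
  γ_star : ∀ g, Star.star (γ g) = γ g⁻¹
  τ_one : τ 1 = 1
  τ_γ : ∀ g, g ≠ 1 → τ (γ g) = 0

namespace GrpAlgAux

variable {G : Type u} [Group G]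

/-- The involution of the group algebra. -/
noncomputable def st (x : MonoidAlgebra ℂ G) : MonoidAlgebra ℂ G :=
  MonoidAlgebra.mapDomainAddEquiv ℂ (Equiv.inv G)
    (MonoidAlgebra.map (starRingEnd ℂ : ℂ →+* ℂ).toAddMonoidHom x)

theorem st_coeff (x : MonoidAlgebra ℂ G) (g : G) :
    (st x).coeff g = (starRingEnd ℂ) (x.coeff g⁻¹) := by
  simp [st]

theorem st_add (x y : MonoidAlgebra ℂ G) : st (x + y) = st x + st y := by
  ext g; simp [st_coeff]

theorem st_zero : st (0 : MonoidAlgebra ℂ G) = 0 := by
  ext g; simp [st_coeff]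

theorem st_single (g : G) (a : ℂ) :
    st (MonoidAlgebra.single g a) = MonoidAlgebra.single g⁻¹ ((starRingEnd ℂ) a) := by
  simp [st]

theorem st_mul (x y : MonoidAlgebra ℂ G) : st (x * y) = st y * st x := by
  induction x using MonoidAlgebra.induction_linear with
  | zero => simp [st_zero]
  | add a b ha hb => rw [add_mul, st_add, st_add, mul_add, ha, hb]
  | single g a =>
    induction y using MonoidAlgebra.induction_linear with
    | zero => simp [st_zero]
    | add a b ha hb => rw [mul_add, st_add, st_add, add_mul, ha, hb]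
    | single h b => simp [st_single, MonoidAlgebra.single_mul_single, mul_comm]

/-- The star ring structure. -/
@[reducible] noncomputable def starRing (G : Type u) [Group G] : StarRing (MonoidAlgebra ℂ G) where
  star := st
  star_involutive x := by ext g; simp [st_coeff]
  star_mul := st_mul
  star_add := st_add

/-- The trace. -/
noncomputable def tau (G : Type u) [Group G] : MonoidAlgebra ℂ G →ₗ[ℂ] ℂ where
  toFun x := x.coeff 1
  map_add' x y := by simp
  map_smul' a x := by simp

theorem tau_apply (x : MonoidAlgebra ℂ G) : tau G x = x.coeff 1 := rfl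

theorem tau_comm (x y : MonoidAlgebra ℂ G) : tau G (x * y) = tau G (y * x) := by
  rw [tau_apply, tau_apply, MonoidAlgebra.coeff_mul_apply_left,
    MonoidAlgebra.coeff_mul_apply_right]
  simp [mul_comm]

theorem tau_pos (x : MonoidAlgebra ℂ G) : 0 ≤ (tau G (st x * x)).re := by
  rw [tau_apply, MonoidAlgebra.coeff_mul_apply_right, Finsupp.sum, Complex.re_sum]
  refine Finset.sum_nonneg fun g _ => ?_
  rw [st_coeff, one_mul, inv_inv, Complex.conj_mul']
  norm_cast
  positivity

end GrpAlgAux

open GrpAlgAux in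
theorem exists_base (G : Type u) [Group G] : ∃ (B : Type u) (_ : Ring B) (_ : StarRing B)
    (_ : Algebra ℂ B) (_ : StarModule ℂ B), Nonempty (Base G B) := by
  let _ := starRing G
  refine ⟨MonoidAlgebra ℂ G, inferInstance, starRing G, inferInstance, ⟨fun a x => ?_⟩,
    ⟨⟨⟨tau G, tau_comm, fun x => ?_, tau_pos⟩, MonoidAlgebra.of ℂ G, fun g => ?_, ?_,
      fun g hg => ?_⟩⟩⟩
  · show st (a • x) = star a • st x
    ext g
    simp [st_coeff]
  · show tau G (st x) = _
    rw [tau_apply, tau_apply, st_coeff, inv_one]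
  · show st (MonoidAlgebra.single g 1) = MonoidAlgebra.single g⁻¹ 1
    rw [st_single, map_one]
  · exact MonoidAlgebra.coeff_one_one
  · show (MonoidAlgebra.single g (1 : ℂ)).coeff 1 = 0
    rw [MonoidAlgebra.coeff_single, Finsupp.single_eq_of_ne hg.symm]

variable {G B P : Type*} [Group G] [Ring B] [StarRing B] [Algebra ℂ B] [StarModule ℂ B]
  [Fintype P] [DecidableEq P]

/-- The trace on matrices. -/
noncomputable def Trc.mat (T : Trc B) (P : Type*) [Fintype P] [DecidableEq P] :
    Trc (Matrix P P B) where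
  τ := T.τ ∘ₗ Matrix.traceLinearMap P ℂ B
  comm x y := by
    simp only [LinearMap.comp_apply, Matrix.traceLinearMap_apply, Matrix.trace, Matrix.diag_apply,
      Matrix.mul_apply, map_sum]
    rw [Finset.sum_comm]
    exact Finset.sum_congr rfl fun _ _ => Finset.sum_congr rfl fun _ _ => T.comm _ _
  star x := by
    simp only [LinearMap.comp_apply, Matrix.traceLinearMap_apply, Matrix.trace, Matrix.diag_apply,
      Matrix.star_apply, map_sum, T.star]
  pos x := by
    simp only [LinearMap.comp_apply, Matrix.traceLinearMap_apply, Matrix.trace, Matrix.diag_apply,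
      Matrix.mul_apply, Matrix.star_apply, map_sum, Complex.re_sum]
    exact Finset.sum_nonneg fun _ _ => Finset.sum_nonneg fun _ _ => T.pos _

/-- Scalar matrices. -/
noncomputable def sc (B : Type*) [Ring B] [StarRing B] [Algebra ℂ B] [StarModule ℂ B] :
    Matrix P P ℂ →⋆ₐ[ℂ] Matrix P P B where
  toAlgHom := (Algebra.ofId ℂ B).mapMatrix
  map_star' x := by
    ext i j
    show algebraMap ℂ B (star (x j i)) = star (algebraMap ℂ B (x j i))
    rw [Algebra.algebraMap_eq_smul_one, Algebra.algebraMap_eq_smul_one, star_smul, star_one]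

/-- Phases times group elements. -/
noncomputable def Base.gam (T : Base G B) : Circle × G →* B where
  toFun c := (c.1 : ℂ) • T.γ c.2
  map_one' := by simp
  map_mul' a b := by simp [smul_smul, mul_comm]

/-- Monomial matrices. -/
def rep {Γ R : Type*} [Group Γ] [Semiring R] (γ : Γ →* R) : Mon P Γ →* Matrix P P R where
  toFun u := Matrix.of fun q p => if q = u.right p then γ (u.left q) else 0
  map_one' := by
    ext q p
    simp [Matrix.one_apply]
  map_mul' u v := by
    ext q p
    simp only [Matrix.mul_apply, Matrix.of_apply, mul_ite, mul_zero, Finset.sum_ite_eq',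
      Finset.mem_univ, if_true, SemidirectProduct.mul_right, Perm.mul_apply, mon_mul_left]
    split_ifs with h
    · rw [map_mul, h]
      simp
    · simp [h]

/-- The phase character. -/
noncomputable def ph (G : Type*) [Group G] : Circle × G →* ℂ :=
  Circle.coeHom.comp (MonoidHom.fst _ _)

namespace GrpAlgAux

omit [StarModule ℂ B] in
theorem mat_τ (T : Trc B) (x : Matrix P P B) : (T.mat P).τ x = ∑ q, T.τ (x q q) := by
  simp [Trc.mat, Matrix.trace]

theorem rep_apply {Γ R : Type*} [Group Γ] [Semiring R] (γ : Γ →* R) (u : Mon P Γ) (q p : P) :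
    rep γ u q p = if q = u.right p then γ (u.left q) else 0 := rfl

theorem star_rep_gen {Γ R : Type*} [Group Γ] [Semiring R] [StarRing R] (γ : Γ →* R)
    (hγ : ∀ c, star (γ c) = γ c⁻¹) (u : Mon P Γ) : star (rep γ u) = rep γ u⁻¹ := by
  ext q p
  rw [Matrix.star_apply, rep_apply, rep_apply, mon_inv_left, SemidirectProduct.inv_right]
  by_cases h : p = u.right q
  · rw [if_pos h, if_pos (by rw [h]; simp), hγ, h]
  · rw [if_neg h, if_neg (fun h' => h (by rw [h']; simp)), star_zero]

omit [StarModule ℂ B] in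
theorem gam_apply (T : Base G B) (c : Circle × G) : T.gam c = (c.1 : ℂ) • T.γ c.2 := rfl

theorem gam_star (T : Base G B) (c : Circle × G) : star (T.gam c) = T.gam c⁻¹ := by
  rw [gam_apply, gam_apply, star_smul, T.γ_star, Prod.fst_inv, Prod.snd_inv, Circle.coe_inv_eq_conj]
  rfl

theorem gam_mem (T : Base G B) (c : Circle × G) : T.gam c ∈ unitary B := by
  rw [Unitary.mem_iff, gam_star, ← map_mul, ← map_mul, inv_mul_cancel, mul_inv_cancel, map_one]
  exact ⟨rfl, rfl⟩

omit [StarModule ℂ B] in
theorem mat_one (T : Base G B) : ((T.mat P).τ 1).re = Fintype.card P := by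
  rw [mat_τ]
  simp [T.τ_one]

open Classical in
omit [StarModule ℂ B] in
theorem τ_gam (T : Base G B) (c : Circle × G) :
    T.τ (T.gam c) = if c.2 = 1 then (c.1 : ℂ) else 0 := by
  rw [gam_apply, map_smul]
  split_ifs with h
  · rw [h, map_one, T.τ_one, smul_eq_mul, mul_one]
  · rw [T.τ_γ _ h, smul_zero]

omit [StarModule ℂ B] in
theorem Φ_gam_zero (T : Base G B) (m : ℕ) (ω : Circle) (g : G)
    (h : ∀ k : ℕ, g ^ (k + 1) = 1 → ((ω : ℂ) ^ (k + 1)).im = 0) : T.Φ m (T.gam (ω, g)) = 0 := by
  have : ∀ k : ℕ, (T.τ (T.gam (ω, g) ^ (k + 1))).im = 0 := by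
    intro k
    rw [← map_pow, τ_gam]
    split_ifs with h1
    · simpa using h k h1
    · rfl
  simp [Trc.Φ, this]

end GrpAlgAux

open GrpAlgAux

theorem Base.mat_sc (T : Base G B) (x : Matrix P P ℂ) : (T.mat P).τ (sc B x) = x.trace := by
  rw [mat_τ, Matrix.trace]
  refine Finset.sum_congr rfl fun q _ => ?_
  show T.τ (algebraMap ℂ B (x q q)) = x q q
  rw [Algebra.algebraMap_eq_smul_one, map_smul, T.τ_one, smul_eq_mul, mul_one]

theorem Base.star_rep (T : Base G B) (u : Mon P (Circle × G)) :
    Star.star (rep T.gam u) = rep T.gam u⁻¹ := star_rep_gen _ (gam_star T) u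

theorem Base.rep_mem (T : Base G B) (u : Mon P (Circle × G)) :
    rep T.gam u ∈ unitary (Matrix P P B) := by
  rw [Unitary.mem_iff, T.star_rep, ← map_mul, ← map_mul, inv_mul_cancel, mul_inv_cancel, map_one]
  exact ⟨rfl, rfl⟩

theorem star_rep_ph (u : Mon P (Circle × G)) : star (rep (ph G) u) = rep (ph G) u⁻¹ :=
  star_rep_gen _ (fun c => (Circle.coe_inv_eq_conj c.1).symm) u

theorem Base.rep_scal (T : Base G B) {u : Mon P (Circle × G)} (h : ∀ q, (u.left q).2 = 1) :
    rep T.gam u = sc B (rep (ph G) u) := by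
  ext q p
  show rep T.gam u q p = algebraMap ℂ B (rep (ph G) u q p)
  rw [rep_apply, rep_apply]
  split_ifs
  · rw [gam_apply, h, map_one, Algebra.algebraMap_eq_smul_one]
    rfl
  · rw [map_zero]

theorem Base.cost_swap (T : Base G B) (m : ℕ) (a b : P) :
    (T.mat P).Cost m (rep T.gam (pm (swap a b))) Real.pi := by
  have h := Trc.cost_invol (T := T.mat P) (m := m) (T.rep_mem (pm (swap a b)))
    (by rw [← map_mul, ← map_mul, swap_mul_self, map_one, map_one])
  refine h.mono ?_
  have h1 : (Fintype.card P : ℝ) - 2 ≤ ((T.mat P).τ (rep T.gam (pm (swap a b)))).re := by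
    have e : (Fintype.card P : ℝ) - 2
        = ∑ q : P, (1 - (if q = a then (1 : ℝ) else 0) - if q = b then 1 else 0) := by
      simp only [Finset.sum_sub_distrib, Finset.sum_ite_eq', Finset.mem_univ, if_true,
        Finset.sum_const, Finset.card_univ, nsmul_eq_mul, mul_one]
      ring
    rw [e, mat_τ, Complex.re_sum]
    refine Finset.sum_le_sum fun q _ => ?_
    rw [rep_apply, SemidirectProduct.right_inr, SemidirectProduct.left_inr, Pi.one_apply, map_one]
    by_cases hq : q = swap a b q
    · rw [if_pos hq, T.τ_one, Complex.one_re]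
      split_ifs <;> norm_num
    · rw [if_neg hq, map_zero, Complex.zero_re]
      by_cases ha : q = a
      · rw [if_pos ha]
        split_ifs <;> norm_num
      · by_cases hb : q = b
        · rw [if_neg ha, if_pos hb]
          norm_num
        · exact absurd (swap_apply_of_ne_of_ne ha hb).symm hq
  rw [mat_one]
  nlinarith [Real.pi_pos]

theorem Base.cost_tr (T : Base G B) (m : ℕ) {k : ℕ} {u : Mon P (Circle × G)} (h : Tr k u) :
    (T.mat P).Cost m (rep T.gam u) (Real.pi * k) := by
  induction h with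
  | one k =>
    rw [map_one]
    exact Trc.cost_one.mono (by positivity)
  | step w _ _ ih =>
    rw [map_mul, map_mul, map_mul, ← T.star_rep]
    refine (ih.mul ((T.cost_swap m _ _).conj (T.rep_mem w))).mono (le_of_eq ?_)
    push_cast
    ring

/-- Cost of a monomial involution with phase free diagonal and `c` trivial fixed points. -/
theorem Base.cost_invol (T : Base G B) (m : ℕ) {u : Mon P (Circle × G)} (h : u * u = 1)
    (h1 : ∀ q, (u.left q).1 = 1) {c : ℕ}
    (hc : c ≤ Nat.card {q // u.right q = q ∧ (u.left q).2 = 1}) :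
    (T.mat P).Cost m (rep T.gam u) (Real.pi * (Fintype.card P - c) / 2) := by
  classical
  have h0 := Trc.cost_invol (T := T.mat P) (m := m) (T.rep_mem u)
    (by rw [← map_mul, h, map_one])
  refine h0.mono ?_
  have h2 : ((T.mat P).τ (rep T.gam u)).re
      = Nat.card {q // u.right q = q ∧ (u.left q).2 = 1} := by
    rw [Nat.card_eq_fintype_card, Fintype.card_subtype, Finset.card_filter, mat_τ, Complex.re_sum]
    push_cast
    refine Finset.sum_congr rfl fun q _ => ?_
    rw [rep_apply]
    by_cases hq : q = u.right q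
    · rw [if_pos hq, τ_gam, h1]
      by_cases hg : (u.left q).2 = 1
      · rw [if_pos hg, if_pos ⟨hq.symm, hg⟩]
        rfl
      · rw [if_neg hg, if_neg fun h => hg h.2]
        rfl
    · rw [if_neg hq, if_neg fun h => hq h.1.symm, map_zero, Complex.zero_re]
  have h3 : (c : ℝ) ≤ Nat.card {q // u.right q = q ∧ (u.left q).2 = 1} := by exact_mod_cast hc
  rw [mat_one, h2]
  nlinarith [Real.pi_pos]

theorem Base.Φ_dg (T : Base G B) (m : ℕ) (l : P → Circle × G) :
    (T.mat P).Φ m (rep T.gam (dg l)) = ∑ q, T.Φ m (T.gam (l q)) := by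
  have h : ∀ k : ℕ, (T.mat P).τ (rep T.gam (dg l) ^ k) = ∑ q, T.τ (T.gam (l q) ^ k) := by
    intro k
    rw [← map_pow, ← map_pow, mat_τ]
    refine Finset.sum_congr rfl fun q _ => ?_
    rw [rep_apply, SemidirectProduct.right_inl, SemidirectProduct.left_inl, Perm.one_apply,
      if_pos rfl,
      Pi.pow_apply, map_pow]
  simp only [Trc.Φ, h, Complex.im_sum, Finset.sum_div]
  rw [← Finset.mul_sum]
  congr 1
  rw [Finset.sum_comm (s := Finset.univ)]
  exact Finset.sum_congr rfl fun j _ => Finset.sum_comm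

theorem Base.Φ_gam_one (T : Base G B) (m : ℕ) (δ : ℝ) :
    T.Φ m (T.gam (Circle.exp δ, 1)) = psi m δ := by
  rw [gam_apply, map_one, Circle.coe_exp, Trc.Φ_scalar, T.τ_one, Complex.one_re, one_mul]

theorem Base.Φ_gam_le (T : Base G B) (m : ℕ) (ω : Circle) {g : G} (hg : g ≠ 1) :
    T.Φ m (T.gam (ω, g)) ≤ Real.pi / 2 := by
  have hπ := Real.pi_pos
  by_cases hq : orderOf g = 0
  · rw [Φ_gam_zero T m ω g fun k hk => ?_]
    · positivity
    · have := orderOf_dvd_of_pow_eq_one hk
      rw [hq, zero_dvd_iff] at this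
      omega
  have hq2 : 2 ≤ orderOf g := by
    have : orderOf g ≠ 1 := fun h => hg (orderOf_eq_one_iff.1 h)
    omega
  have hq2' : (2 : ℝ) ≤ orderOf g := by exact_mod_cast hq2
  obtain ⟨θ, rfl⟩ := Circle.exp_surjective ω
  set q : ℝ := (orderOf g : ℝ) with hqdef
  set a : ℤ := ⌊θ * q / Real.pi⌋ with ha
  set t : ℝ := a * Real.pi / q with ht
  have h1 : 0 ≤ θ - t := by
    have := Int.floor_le (θ * q / Real.pi)
    rw [← ha, le_div_iff₀ hπ] at this
    rw [sub_nonneg, ht, div_le_iff₀ (by linarith)]
    exact this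
  have h2 : θ - t ≤ Real.pi / 2 := by
    have := (Int.lt_floor_add_one (θ * q / Real.pi)).le
    rw [← ha, div_le_iff₀ hπ] at this
    have h3 : (θ - t) * q ≤ Real.pi := by
      have : t * q = a * Real.pi := by rw [ht]; field_simp
      nlinarith
    nlinarith
  have h0 : T.Φ m (T.gam (Circle.exp t, g)) = 0 := by
    refine Φ_gam_zero T m _ g fun k hk => ?_
    obtain ⟨c, hc⟩ := orderOf_dvd_of_pow_eq_one hk
    have e : ((k + 1 : ℕ) : ℝ) * t = ((a * c : ℤ) : ℝ) * Real.pi := by
      rw [hc, ht]
      push_cast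
      rw [← hqdef]
      field_simp
    rw [← Circle.coe_pow, ← Circle.exp_nsmul, nsmul_eq_mul, e, Circle.coe_exp,
      Complex.exp_ofReal_mul_I_im, Real.sin_int_mul_pi]
  have h4 := (Trc.cost_rot (T := T.toTrc) (m := m) (IsStarProjection.one B) h1).2 _
    (gam_mem T (Circle.exp t, g))
  have e : T.gam (Circle.exp t, g) * (1 + (exp (((θ - t : ℝ) : ℂ) * I) - 1) • (1 : B))
      = T.gam (Circle.exp θ, g) := by
    rw [sub_smul, one_smul, add_sub_cancel, mul_smul_comm, mul_one, gam_apply, gam_apply,
      smul_smul, Circle.coe_exp, Circle.coe_exp, ← Complex.exp_add]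
    congr 2
    push_cast
    ring
  rw [e, h0, T.τ_one, Complex.one_re] at h4
  linarith

end Vale.Agent.P174
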