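import Vale.Agent.P174.Chain1Aux
import Vale.Agent.P174.GrpAlg

/-! P174 module C4: the upper bound for the phase, by gluing faces with scalar unitaries. -/

namespace Vale.Agent.P174

open Matrix Equiv

theorem flip_rep {G : Type*} [Group G] {P X : Type} [Fintype P] [DecidableEq P] [DecidableEq X]
    {ty : P → Option (X × Bool)} {u : Mon P (Circle × G)} (h : u * u = 1)
    (h0 : ∀ q, ty q = none → u.right q = q ∧ u.left q = 1)
    (h1 : ∀ q l b, ty q = some (l, b) → ty (u.right q) = some (l, !b)) :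
    Flip ty (rep (ph G) u) := by
  have hr : ∀ q, u.right (u.right q) = q := fun q =>
    congrArg (fun v : Mon P (Circle × G) => v.right q) h
  refine ⟨by rw [star_rep_ph, inv_eq_of_mul_eq_one_right h], by rw [← map_mul, h, map_one], ?_,
    fun l b => ?_⟩
  · ext q p
    rw [pr, mul_diagonal, GrpAlgAux.rep_apply, diagonal_apply]
    by_cases h2 : ty p = none
    · by_cases h3 : q = p
      · subst h3; simp [h2, h0 q h2]
      · simp [h3, h0 p h2]
    · by_cases h3 : q = p
      · subst h3; simp [h2]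
      · simp [h2, h3]
  · ext q p
    rw [pr, pr, mul_diagonal, diagonal_mul, GrpAlgAux.rep_apply]
    by_cases h3 : q = u.right p
    · have : ty p = some (l, b) ↔ ty q = some (l, !b) :=
        ⟨fun h => h3 ▸ h1 _ _ _ h, fun h => by simpa [h3, hr] using h1 _ _ _ h⟩
      simp [this, mul_comm]
    · simp [h3]

theorem comm_ZS {G B : Type*} [Group G] [Ring B] [StarRing B] [Algebra ℂ B] [StarModule ℂ B]
    (T : Base G B) {J P K : Type} [Fintype P] [DecidableEq P] [Fintype K] {n : ℕ}
    (e : K → Fin n → P) (j : K → J) (u : Mon P (Circle × G)) (ν : Perm K)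
    (h1 : ∀ k, j (ν k) = j k) (h2 : ∀ k f, u.right (e k f) = e (ν k) f) (c : K → Circle × G)
    (h3 : ∀ k f, u.left (e (ν k) f) = c k) (r : J → Matrix (Fin n) (Fin n) ℂ) :
    rep T.gam u * sc B (ZS e j Finset.univ r) = sc B (ZS e j Finset.univ r) * rep T.gam u := by
  have e1 : ∀ k, rep T.gam u * (emb (e k)).map (algebraMap ℂ B) =
      (emb (e (ν k))).map (algebraMap ℂ B) *
        (diagonal fun _ => T.gam (c k) : Matrix (Fin n) (Fin n) B) := fun k => by
    ext q f
    refine Eq.trans ?_ (mul_diagonal _ _ _ _).symm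
    by_cases h : q = e (ν k) f <;>
      simp [mul_apply, emb, apply_ite (algebraMap ℂ B), GrpAlgAux.rep_apply, h2, h3, h]
  have e2 : ∀ k, (emb (e (ν k)))ᴴ.map (algebraMap ℂ B) * rep T.gam u =
      (diagonal fun _ => T.gam (c k) : Matrix (Fin n) (Fin n) B) *
        (emb (e k))ᴴ.map (algebraMap ℂ B) := fun k => by
    ext f q
    refine Eq.trans ?_ (diagonal_mul _ _ _ _).symm
    have : u.right q = e (ν k) f ↔ q = e k f := by rw [← h2, EmbeddingLike.apply_eq_iff_eq]
    by_cases h : q = e k f <;>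
      simp [mul_apply, emb, apply_ite (algebraMap ℂ B), apply_ite (starRingEnd ℂ),
        GrpAlgAux.rep_apply, h2, h3, this, h]
  have e3 : ∀ (x : B) (y : Matrix (Fin n) (Fin n) ℂ), diagonal (fun _ => x) *
      y.map (algebraMap ℂ B) = y.map (algebraMap ℂ B) * diagonal fun _ => x := fun x y => by
    ext f f'
    rw [diagonal_mul, mul_diagonal, map_apply, Algebra.commutes]
  have e4 : ∀ k (y : Matrix (Fin n) (Fin n) ℂ), sc B (emb (e k) * y * (emb (e k))ᴴ) = (emb (e k)).map (algebraMap ℂ B) *
      y.map (algebraMap ℂ B) * (emb (e k))ᴴ.map (algebraMap ℂ B) := fun k y => by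
    rw [← Matrix.map_mul, ← Matrix.map_mul]; rfl
  rw [ZS, map_add, map_one, map_sum, mul_add, add_mul, mul_one, one_mul, Finset.mul_sum,
    Finset.sum_mul, ← Equiv.sum_comp ν fun k => sc B (emb (e k) * (r (j k) - 1) * (emb (e k))ᴴ) *
      rep T.gam u]
  refine congrArg _ (Finset.sum_congr rfl fun k _ => ?_)
  rw [e4, e4, ← Matrix.mul_assoc, ← Matrix.mul_assoc, e1, Matrix.mul_assoc _ _ (rep T.gam u), e2,
    h1]
  simp only [Matrix.mul_assoc]
  refine congrArg _ ?_
  rw [← Matrix.mul_assoc, e3, Matrix.mul_assoc]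

theorem chain1 {G B : Type*} [Group G] [Ring B] [StarRing B] [Algebra ℂ B] [StarModule ℂ B]
    (T : Base G B) {X J P K : Type} [Fintype X] [DecidableEq X] [Fintype J] [DecidableEq J]
    [Fintype P] [DecidableEq P] [Fintype K] [DecidableEq K]
    {w : J → Monoid.Coprod G (FreeGroup X)} {g : G} {n : ℕ} (F : FaceData w g (n + 1) P K)
    (s : J → X) (hs : (Matrix.of fun l j => (expSum (w j)).toAdd (s l)).det ≠ 0)
    {E : Mon P (Circle × G)} (hE : Typed F.lab F.L E) (m : ℕ) {ε : ℝ} (hε : 0 < ε) :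
    (T.mat P).Cost m (rep T.gam (pm (F.p0 :: F.L).formPerm * dg (lam F.lab F.L) * E))
      (Real.pi * (F.L.length + nx (F.L.map F.lab) / 2) + ε) := by
  have hρ : ∀ q, F.ρ (F.ρ q) = q := fun q => congrArg (fun v : Perm P => v q) F.ρρ
  have hr : ∀ q, (F.lab (F.ρ q)).isRight = (F.lab q).isRight := fun q => by
    rw [F.lab_ρ]; cases F.lab q <;> rfl
  obtain ⟨ρx, ax⟩ : ∃ ρx : Perm P, ∀ q, ρx q = if (F.lab q).isRight then F.ρ q else q :=
    ⟨Function.Involutive.toPerm (fun q => if (F.lab q).isRight then F.ρ q else q) fun q => by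
      by_cases h : (F.lab q).isRight <;> simp [h, hr, hρ], fun _ => rfl⟩
  obtain ⟨ρg, ag⟩ : ∃ ρg : Perm P, ∀ q, ρg q = if (F.lab q).isRight then q else F.ρ q :=
    ⟨Function.Involutive.toPerm (fun q => if (F.lab q).isRight then q else F.ρ q) fun q => by
      by_cases h : (F.lab q).isRight <;> simp [h, hr, hρ], fun _ => rfl⟩
  have x0 : ρx * ρx = 1 := Equiv.ext fun q => by
    by_cases h : (F.lab q).isRight <;> simp [ax, h, hr, hρ]
  have g0 : ρg * ρg = 1 := Equiv.ext fun q => by
    by_cases h : (F.lab q).isRight <;> simp [ag, h, hr, hρ]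
  have g1 := inv_eq_of_mul_eq_one_right g0
  have g2 := inv_eq_of_mul_eq_one_right x0
  have hl : ∀ q, lam F.lab F.L q = wt (F.lab q) := fun q => by
    rcases List.mem_cons.1 (F.all q) with rfl | h
    · simp [lam, F.lab_p0, wt, Prod.ext_iff]
    · simp [lam, h]
  have x1 : (pm ρx : Mon P (Circle × G)) * pm ρx = 1 := by
    rw [← map_mul, x0, map_one]
  have fx : Flip (fun q => (F.lab q).getRight?) (rep (ph G) (pm ρx)) := by
    refine flip_rep x1 (fun q h => ⟨?_, rfl⟩) fun q l b h => ?_
    · rcases h' : F.lab q with _ | _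
      · simp [ax, h']
      · simp [h'] at h
    · rw [Sum.getRight?_eq_some_iff] at h ⊢
      simp [ax, h, F.lab_ρ, linv]
  have fy : Flip (fun q => (F.lab q).getRight?) (rep (ph G) E) := by
    refine flip_rep hE.sq (fun q h => ?_) fun q l b h => ?_
    · rcases h' : F.lab q with _ | _
      · exact hE.grp q _ h'
      · simp [h'] at h
    · rw [Sum.getRight?_eq_some_iff] at h ⊢
      refine hE.var q ((List.mem_cons.1 (F.all q)).resolve_left fun h' => ?_) _ _ h
      simp [h', F.lab_p0] at h
  obtain ⟨r, zu, c1⟩ := scalar_part (T.mat P) m (sc B) T.mat_sc (tk := fun k => (F.lk k).getRight?)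
    F.inj (fun k f => by rw [F.lab_e]) F.jK fx fy (fun l j => (expSum (w j)).toAdd l)
    (fun l => funext fun j => by
      rw [F.cnt, Pi.sub_apply, Finset.sum_apply, Finset.sum_apply, Finset.sum_filter,
        Finset.sum_filter, Finset.sum_filter, ← Finset.sum_sub_distrib]
      refine Finset.sum_congr rfl fun k _ => ?_
      rcases F.lk k with _ | ⟨x, _ | _⟩ <;>
        simp [lev, expSum, Pi.single_apply, eq_comm, ← ite_and, and_comm, apply_ite Neg.neg])
    s hs hε
  have c2 := T.cost_tr m F.tr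
  have c3 := T.cost_invol m (u := pm (F.σ * F.ρ)) (by rw [← map_mul, F.σρ, map_one])
    (fun q => rfl) (c := 2 * F.b + 1) (F.fix.trans_eq (Nat.card_congr
      (Equiv.subtypeEquivRight fun q => by simp)))
  have n0 : Fintype.card {q // (F.lab q).isRight} = nx (F.L.map F.lab) := by
    rw [nx, List.countP_map, List.countP_eq_length_filter, ← List.toFinset_card_of_nodup
      (F.nodup.of_cons.filter _), Fintype.card_subtype]
    refine congrArg _ (Finset.ext fun q => ?_)
    rcases List.mem_cons.1 (F.all q) with rfl | h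
    · simp [F.lab_p0]
    · simp [h]
  have c4 := T.cost_invol m (u := pm ρg * dg (lam F.lab F.L))
    (SemidirectProduct.ext (funext fun q => by
      rw [mon_mul_left, mon_mul_left, mon_mul_left]
      rcases h : F.lab q with _ | _ <;> simp [g1, hl, ag, h, hρ, F.lab_ρ, linv, wt])
      (by simpa using g0))
    (fun q => by
      simp only [mon_mul_left, SemidirectProduct.left_inr, SemidirectProduct.left_inl, hl,
        Pi.one_apply, one_mul]
      cases F.lab _ <;> rfl)
    (c := nx (F.L.map F.lab) + 1) (by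
      rw [← n0, ← Fintype.card_option, ← Nat.card_eq_fintype_card]
      refine Nat.card_le_card_of_injective (fun q => q.elim ⟨F.p0, by
        rw [mon_mul_left]
        simp [g1, hl, ag, F.lab_p0, F.ρ_p0, wt]⟩ fun q => ⟨q.1, by
          obtain ⟨x, h⟩ := Sum.isRight_iff.1 q.2
          rw [mon_mul_left]
          simp [g1, hl, ag, wt, h]⟩) ?_
      rintro (_ | ⟨q, h0⟩) (_ | ⟨q', h'⟩) h <;> simp only [Option.elim, Subtype.mk.injEq] at h
      · rfl
      · simp [← h, F.lab_p0] at h'
      · simp [h, F.lab_p0] at h0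
      · simp [h])
  have c5 := (c2.mul ((c3.mul c4).conj (Unitary.map_mem (sc B) zu))).mul c1
  have e1 := comm_ZS T F.e F.jK (pm F.σ * dg (lam F.lab F.L)) F.nxt F.j_nxt
    (fun k f => by simp [F.σ_e]) (fun k => wt (F.lk k))
    (fun k f => by simp [mon_mul_left, ← F.σ_e, hl, F.lab_e]) r
  have e2 : pm (F.σ * F.ρ) * (pm ρg * dg (lam F.lab F.L)) * pm ρx =
      pm F.σ * dg (lam F.lab F.L) := by
    have h1 : dg (lam F.lab F.L) * pm ρx = pm ρx * dg (lam F.lab F.L) :=
      SemidirectProduct.ext (funext fun q => by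
        rw [mon_mul_left, mon_mul_left]
        rcases h : F.lab q with _ | _ <;> simp [g2, hl, ax, h, F.lab_ρ, linv, wt]) (by simp)
    have h2 : F.ρ * (ρg * ρx) = 1 := Equiv.ext fun q => by
      by_cases h : (F.lab q).isRight <;> simp [ag, ax, h, hr, hρ]
    rw [mul_assoc, mul_assoc, h1, ← mul_assoc, ← mul_assoc, ← map_mul, ← map_mul, mul_assoc,
      mul_assoc, h2, mul_one]
  have e3 : star (sc B (ZS F.e F.jK Finset.univ r)) * sc B (ZS F.e F.jK Finset.univ r) = 1 :=
    (Unitary.map_mem (sc B) zu).1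
  have e4 : sc B (ZS F.e F.jK Finset.univ r) * star (sc B (ZS F.e F.jK Finset.univ r)) = 1 :=
    (Unitary.map_mem (sc B) zu).2
  rw [map_mul (sc B), map_mul (sc B), map_mul (sc B), map_star, ← T.rep_scal hE.scal,
    ← T.rep_scal fun _ => rfl, ← map_mul, mul_assoc, mul_assoc, mul_assoc, mul_assoc, mul_assoc,
    ← mul_assoc (star _), e3, one_mul, ← mul_assoc (rep T.gam _) (rep T.gam (pm ρx)), ← map_mul,
    e2, ← mul_assoc (sc B _), ← e1, mul_assoc, ← mul_assoc (sc B _), e4, one_mul, ← map_mul,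
    ← map_mul, ← mul_assoc, ← mul_assoc, ← map_mul, inv_mul_cancel_right] at c5
  refine c5.mono (le_of_eq ?_)
  have n1 : Fintype.card P = F.L.length + 1 := by
    rw [← List.length_cons, ← List.toFinset_card_of_nodup F.nodup, ← Finset.card_univ]
    congr 1
    exact (Finset.eq_univ_of_forall fun q => List.mem_toFinset.2 (F.all q)).symm
  have n2 : 2 * ∑ l, Fintype.card {q // (F.lab q).getRight? = some (l, true)} =
      nx (F.L.map F.lab) := by
    have h1 : ∀ l, Fintype.card {q // (F.lab q).getRight? = some (l, true)} =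
        Fintype.card {q // (F.lab q).getRight? = some (l, false)} := fun l =>
      Fintype.card_congr (F.ρ.subtypeEquiv fun q => by
        rw [F.lab_ρ]; rcases F.lab q with _ | ⟨x, _ | _⟩ <;> simp [linv])
    rw [two_mul, ← n0]
    conv_lhs => enter [2, 2, l]; rw [h1]
    simp only [Fintype.card_subtype, Finset.card_filter]
    rw [Finset.sum_comm, Finset.sum_comm (t := Finset.univ) (s := (Finset.univ : Finset X)),
      ← Finset.sum_add_distrib]
    refine Finset.sum_congr rfl fun q _ => ?_
    rcases F.lab q with _ | ⟨x, _ | _⟩ <;> simp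
  rw [n1, ← n2]
  push_cast
  ring

end Vale.Agent.P174
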