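import Vale.Agent.P174.Phase

/-! P174 module A3: the cost of a scalar unitary and its inverse. -/

namespace Vale.Agent.P174

open Complex Matrix

section PairAux

variable {P : Type*} [Fintype P] [DecidableEq P]

theorem pair_exists_circle (Y : Matrix P P ℂ) :
    ∃ c : ℂ, star c * c = 1 ∧ (c • (1 : Matrix P P ℂ) - Y).det ≠ 0 := by
  have hfin : {c : ℂ | Y.charpoly.IsRoot c}.Finite :=
    Polynomial.finite_setOfPred_isRoot Y.charpoly_monic.ne_zero
  obtain ⟨t, ht, hn⟩ := (Set.Icc_infinite (zero_lt_one' ℝ)).exists_notMem_finite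
    (hfin.image Complex.re)
  refine ⟨⟨t, √(1 - t ^ 2)⟩, ?_, fun h0 => hn ⟨⟨t, √(1 - t ^ 2)⟩, ?_, rfl⟩⟩
  · have h1 : 0 ≤ 1 - t ^ 2 := by nlinarith [ht.1, ht.2]
    have h2 := Real.mul_self_sqrt h1
    apply Complex.ext
    · simp only [star_def, mul_re, conj_re, conj_im, one_re]; nlinarith
    · simp only [star_def, mul_im, conj_re, conj_im, one_im]; ring
  · simp only [Set.mem_ofPred_eq, Polynomial.IsRoot, Matrix.eval_charpoly]
    rw [← h0, Matrix.scalar_apply, Matrix.smul_one_eq_diagonal]

theorem pair_exists_diag {Y : Matrix P P ℂ} (hY : Y ∈ unitary (Matrix P P ℂ)) :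
    ∃ W ∈ unitary (Matrix P P ℂ), ∃ μ : P → ℂ, (∀ a, star (μ a) * μ a = 1) ∧
      Y = W * diagonal μ * star W := by
  obtain ⟨c, hc, hdet⟩ := pair_exists_circle Y
  set K : Matrix P P ℂ := c • (1 : Matrix P P ℂ) - Y with hK
  have hKu : IsUnit K.det := isUnit_iff_ne_zero.2 hdet
  have hY1 : star Y * Y = 1 := hY.1
  set S : Matrix P P ℂ := I • (star c • Y - c • star Y) with hS
  have hSh : S.IsHermitian := by
    change star S = S
    simp only [hS, star_smul, star_sub, star_star, Complex.star_def, conj_I, neg_smul, smul_sub,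
      conj_conj]
    abel
  have hKS : star K * (I • (c • (1 : Matrix P P ℂ) + Y)) = S := by
    simp only [hK, hS, star_sub, star_smul, star_one, mul_smul_comm, sub_mul, mul_add,
      smul_mul_assoc, one_mul, mul_one, hY1, smul_smul, smul_sub]
    rw [mul_comm c (star c), hc]
    simp only [one_smul, smul_add, smul_sub, smul_smul]
    abel
  have hH : (K⁻¹ᴴ * S * K⁻¹).IsHermitian := isHermitian_conjTranspose_mul_mul _ hSh
  set H := K⁻¹ᴴ * S * K⁻¹ with hHd
  have hHK : H * K = I • (c • (1 : Matrix P P ℂ) + Y) := by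
    rw [hHd, mul_assoc, nonsing_inv_mul _ hKu, mul_one, ← hKS, ← mul_assoc]
    change star K⁻¹ * star K * _ = _
    rw [← star_mul, mul_nonsing_inv _ hKu, star_one, one_mul]
  set W : Matrix P P ℂ := (hH.eigenvectorUnitary : Matrix P P ℂ) with hW
  have hWu : W ∈ unitary (Matrix P P ℂ) := hH.eigenvectorUnitary.2
  have hW1 : star W * W = 1 := hWu.1
  have hW2 : W * star W = 1 := hWu.2
  set D : P → ℂ := fun a => (hH.eigenvalues a : ℂ) with hD
  have hsp : H = W * diagonal D * star W := by
    have := hH.spectral_theorem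
    rw [Unitary.conjStarAlgAut_apply] at this
    exact this
  set Z : Matrix P P ℂ := star W * Y * W with hZ
  have hZ1 : diagonal D * (c • (1 : Matrix P P ℂ) - Z) = I • (c • (1 : Matrix P P ℂ) + Z) := by
    have h1 : star W * (H * K) * W = diagonal D * (c • (1 : Matrix P P ℂ) - Z) := by
      rw [hsp, hK, hZ]
      simp only [mul_sub, sub_mul, mul_smul_comm, smul_mul_assoc, mul_one, ← mul_assoc, hW1,
        one_mul]
      rw [mul_assoc (diagonal D) (star W) W, hW1, mul_one]
    rw [← h1, hHK, hZ]
    simp only [mul_add, add_mul, mul_smul_comm, smul_mul_assoc, mul_one, hW1, smul_add]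
  have hne : ∀ a, D a + I ≠ 0 := fun a h0 => by
    have := congrArg Complex.im h0
    simp [hD] at this
  have hZd : Z = diagonal fun a => c * (D a - I) / (D a + I) := by
    ext a b
    have := congrFun (congrFun hZ1 a) b
    simp only [diagonal_mul, Matrix.sub_apply, Matrix.smul_apply, Matrix.add_apply,
      smul_eq_mul] at this
    by_cases hab : a = b
    · subst hab
      rw [diagonal_apply_eq, eq_div_iff (hne a)]
      rw [one_apply_eq] at this
      linear_combination -this
    · rw [diagonal_apply_ne _ hab]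
      rw [one_apply_ne hab] at this
      have h2 : (D a + I) * Z a b = 0 := by linear_combination -this
      exact (mul_eq_zero.1 h2).resolve_left (hne a)
  have hZu : star Z * Z = 1 := by
    have : Z ∈ unitary (Matrix P P ℂ) :=
      mul_mem (mul_mem (Unitary.star_mem hWu) hY) hWu
    exact this.1
  refine ⟨W, hWu, fun a => c * (D a - I) / (D a + I), fun a => ?_, ?_⟩
  swap
  · rw [← hZd, hZ]
    simp only [← mul_assoc, hW2, one_mul]
    rw [mul_assoc, hW2, mul_one]
  · rw [hZd, Matrix.star_eq_conjTranspose, diagonal_conjTranspose, diagonal_mul_diagonal] at hZu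
    have := congrFun (congrFun hZu a) a
    simpa only [diagonal_apply_eq, one_apply_eq, Pi.star_apply] using this

variable {A : Type*} [Ring A] [StarRing A] [Algebra ℂ A] [StarModule ℂ A]

theorem pair_cost_diag (T : Trc A) (m : ℕ) (s : Matrix P P ℂ →⋆ₐ[ℂ] A) (ν : P → ℂ) (c : P → ℝ)
    (h : ∀ a, T.Cost m (1 + (ν a - 1) • s (diagonal (Pi.single a 1))) (c a)) :
    T.Cost m (s (diagonal ν)) (∑ a, c a) := by
  have key : ∀ S : Finset P,
      T.Cost m (s (diagonal fun a => if a ∈ S then ν a else 1)) (∑ a ∈ S, c a) := by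
    intro S
    induction S using Finset.induction_on with
    | empty => simpa using Trc.cost_one
    | insert b S hb ih =>
      have h1 := ih.mul (h b)
      rw [Finset.sum_insert hb, add_comm]
      have h2 : (diagonal fun a => if a ∈ insert b S then ν a else 1) =
          (diagonal fun a => if a ∈ S then ν a else 1) *
            (1 + (ν b - 1) • diagonal (Pi.single b 1)) := by
        rw [← diagonal_one, ← diagonal_smul, diagonal_add, diagonal_mul_diagonal]
        congr 1
        funext a
        by_cases hab : a = b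
        · subst hab; simp [hb]
        · simp [hab]
      rw [h2, map_mul, map_add, map_one, map_smul]
      exact h1
  simpa using key Finset.univ

theorem pair_proj (s : Matrix P P ℂ →⋆ₐ[ℂ] A) (a : P) :
    IsStarProjection (s (diagonal (Pi.single a 1))) := by
  refine IsStarProjection.map ⟨?_, ?_⟩ s
  · rw [IsIdempotentElem, diagonal_mul_diagonal]
    congr 1
    funext b
    by_cases hab : b = a
    · subst hab; simp
    · simp [hab]
  · rw [IsSelfAdjoint, Matrix.star_eq_conjTranspose, diagonal_conjTranspose]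
    congr 1
    funext b
    by_cases hab : b = a
    · subst hab; simp
    · simp [hab]

theorem pair_angle {z : ℂ} (hz : star z * z = 1) :
    ∃ t : ℝ, 0 ≤ t ∧ t ≤ 2 * Real.pi ∧ z = exp (t * I) := by
  have hn : ‖z‖ = 1 := by
    have := congrArg norm hz
    rw [norm_mul, norm_star, norm_one] at this
    nlinarith [norm_nonneg z]
  have h1 : z = exp (z.arg * I) := by
    have := Complex.norm_mul_exp_arg_mul_I z
    rw [hn] at this
    simpa using this.symm
  have h2 := Complex.neg_pi_lt_arg z
  have h3 := Complex.arg_le_pi z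
  have hp := Real.pi_pos
  by_cases h0 : 0 ≤ z.arg
  · exact ⟨z.arg, h0, by linarith, h1⟩
  · refine ⟨z.arg + 2 * Real.pi, by linarith, by linarith [not_le.1 h0], ?_⟩
    push_cast
    rw [add_mul, Complex.exp_add, Complex.exp_two_pi_mul_I, mul_one]
    exact h1

end PairAux

theorem cost_pair {A P : Type*} [Ring A] [StarRing A] [Algebra ℂ A] [StarModule ℂ A] [Fintype P]
    [DecidableEq P] (T : Trc A) (m : ℕ) (s : Matrix P P ℂ →⋆ₐ[ℂ] A)
    (hs : ∀ x, T.τ (s x) = x.trace) {Y : Matrix P P ℂ} (hY : Y ∈ unitary (Matrix P P ℂ))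
    {d n : ℕ} (hd : (Y - 1).rank ≤ d) {ε : ℝ} (hε : ε < Real.pi) (θ : Fin n → ℝ)
    (hθ : Function.Injective θ) (h0 : ∀ k, 0 < θ k) (h1 : ∀ k, θ k ≤ ε)
    (h : ∀ k, (Y - exp (θ k * I) • 1).det = 0) :
    ∃ c c', T.Cost m (s Y) c ∧ T.Cost m (s (star Y)) c' ∧
      c + c' ≤ 2 * Real.pi * (d - n) + n * ((1 + 2 * m) * ε) := by
  classical
  obtain ⟨W, hW, μ, hμ, hYW⟩ := pair_exists_diag hY
  have hW1 : star W * W = 1 := hW.1
  have hW2 : W * star W = 1 := hW.2
  have hWd : IsUnit W.det := by
    have := congrArg det hW2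
    rw [det_mul, det_one] at this
    exact IsUnit.of_mul_eq_one _ this
  have hWd' : IsUnit (star W).det := by
    have := congrArg det hW1
    rw [det_mul, det_one] at this
    exact IsUnit.of_mul_eq_one _ this
  have hsub : ∀ z : ℂ, Y - z • 1 = W * diagonal (fun a => μ a - z) * star W := by
    intro z
    rw [← diagonal_sub, ← Matrix.smul_one_eq_diagonal, mul_sub, sub_mul, ← hYW, mul_smul_comm,
      smul_mul_assoc, mul_one, hW2]
  have hp := Real.pi_pos
  have hex : ∀ k, ∃ a, μ a = exp (θ k * I) := by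
    intro k
    have h2 := h k
    rw [hsub, det_mul, det_mul, det_diagonal] at h2
    have h3 := (mul_eq_zero.1 h2).resolve_right hWd'.ne_zero
    have h4 := (mul_eq_zero.1 h3).resolve_left hWd.ne_zero
    obtain ⟨a, -, ha⟩ := Finset.prod_eq_zero_iff.1 h4
    exact ⟨a, sub_eq_zero.1 ha⟩
  choose α hα using hex
  have hinj0 : ∀ x y : ℝ, 0 ≤ x → x ≤ ε → 0 ≤ y → y ≤ ε → exp (x * I) = exp (y * I) → x = y := by
    intro x y hx hx' hy hy' hxy
    have := Complex.exp_inj_of_neg_pi_lt_of_le_pi (x := x * I) (y := y * I)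
      (by simp; linarith) (by simp; linarith) (by simp; linarith) (by simp; linarith) hxy
    have h5 := congrArg Complex.im this
    simpa using h5
  have hαi : Function.Injective α := by
    intro k k' hk
    apply hθ
    apply hinj0 _ _ (h0 k).le (h1 k) (h0 k').le (h1 k')
    rw [← hα, ← hα, hk]
  have hα1 : ∀ k, μ (α k) ≠ 1 := by
    intro k hk
    have := hinj0 (θ k) 0 (h0 k).le (h1 k) le_rfl ((h0 k).le.trans (h1 k))
      (by rw [← hα, hk]; simp)
    exact (h0 k).ne' this
  have hrank : (Finset.univ.filter fun a => μ a ≠ 1).card ≤ d := by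
    have h2 := hsub 1
    rw [one_smul] at h2
    rw [h2, rank_mul_eq_left_of_isUnit_det _ _ hWd', rank_mul_eq_right_of_isUnit_det _ _ hWd,
      rank_diagonal, Fintype.card_subtype] at hd
    simpa only [sub_ne_zero] using hd
  have htr : ∀ a, (T.τ (s (diagonal (Pi.single a 1)))).re = 1 := by
    intro a
    rw [hs, trace_diagonal]
    simp
  have hstar : ∀ t : ℝ, star (exp (t * I)) = exp (-t * I) := by
    intro t
    rw [Complex.star_def, ← Complex.exp_conj]
    simp
  have hloc : ∀ a, ∃ c c' : ℝ, T.Cost m (1 + (μ a - 1) • s (diagonal (Pi.single a 1))) c ∧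
      T.Cost m (1 + (star (μ a) - 1) • s (diagonal (Pi.single a 1))) c' ∧
      c + c' ≤ (if μ a ≠ 1 then 2 * Real.pi else 0) -
        (if a ∈ Finset.univ.image α then 2 * Real.pi - (1 + 2 * m) * ε else 0) := by
    intro a
    by_cases ha : a ∈ Finset.univ.image α
    · obtain ⟨k, -, rfl⟩ := Finset.mem_image.1 ha
      have c1 := Trc.cost_rot (T := T) (m := m) (pair_proj s (α k)) (h0 k).le
      have c2 := Trc.cost_rot_neg (T := T) (m := m) (pair_proj s (α k)) (h0 k).le
      rw [htr] at c1 c2
      refine ⟨_, _, by rw [hα]; exact c1, by rw [hα, hstar]; exact c2, ?_⟩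
      rw [if_pos (hα1 k), if_pos ha]
      have : (0 : ℝ) ≤ 1 + 2 * m := by positivity
      nlinarith [mul_le_mul_of_nonneg_left (h1 k) this]
    · by_cases hb : μ a = 1
      · refine ⟨0, 0, ?_, ?_, ?_⟩
        · simpa [hb] using Trc.cost_one
        · simpa [hb] using Trc.cost_one
        · rw [if_neg (not_not.2 hb), if_neg ha]; simp
      · obtain ⟨t, ht0, ht1, ht⟩ := pair_angle (hμ a)
        have c1 := Trc.cost_rot (T := T) (m := m) (pair_proj s a) ht0
        have c2 := Trc.cost_rot (T := T) (m := m) (pair_proj s a) (sub_nonneg.2 ht1)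
        rw [htr] at c1 c2
        have he : exp (((2 * Real.pi - t : ℝ) : ℂ) * I) = exp (-t * I) := by
          push_cast
          rw [sub_mul, Complex.exp_sub, Complex.exp_two_pi_mul_I, neg_mul, Complex.exp_neg,
            one_div]
        refine ⟨_, _, by rw [ht]; exact c1, by rw [ht, hstar, ← he]; exact c2, ?_⟩
        rw [if_pos hb, if_neg ha]
        linarith
  choose c c' hc hc' hb using hloc
  have hsW : s W ∈ unitary A := by
    constructor
    · rw [← map_star, ← map_mul, hW1, map_one]
    · rw [← map_star, ← map_mul, hW2, map_one]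
  have C1 := (pair_cost_diag T m s μ c hc).conj hsW
  have C2 := (pair_cost_diag T m s (fun a => star (μ a)) c' hc').conj hsW
  refine ⟨∑ a, c a, ∑ a, c' a, ?_, ?_, ?_⟩
  · rw [hYW, map_mul, map_mul, map_star]; exact C1
  · have : star Y = W * diagonal (fun a => star (μ a)) * star W := by
      rw [hYW, star_mul, star_mul, star_star, ← mul_assoc, Matrix.star_eq_conjTranspose
        (diagonal μ), diagonal_conjTranspose]
      rfl
    rw [this, map_mul, map_mul, map_star]; exact C2
  · rw [← Finset.sum_add_distrib]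
    refine (Finset.sum_le_sum fun a _ => hb a).trans ?_
    rw [Finset.sum_sub_distrib, ← Finset.sum_filter, Finset.sum_ite_mem, Finset.univ_inter,
      Finset.sum_const, Finset.sum_const, Finset.card_image_of_injective _ hαi, Finset.card_univ,
      Fintype.card_fin, nsmul_eq_mul, nsmul_eq_mul]
    have : ((Finset.univ.filter fun a => μ a ≠ 1).card : ℝ) ≤ d := by exact_mod_cast hrank
    nlinarith

end Vale.Agent.P174
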