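import Vale.Agent.P174.LS
import Vale.Agent.P174.Pair

/-! P174: the scalar part of module C4. -/

namespace Vale.Agent.P174

open Matrix

section
variable {R : Type*} [Ring R]

/-- Cutting an element down to a corner. -/
def cut (π y : R) : R := π * y + (1 - π)

theorem cut_mul {π a : R} (h : π * π = π) (ha : a * π = π * a) (b : R) :
    cut π a * cut π b = cut π (a * b) := by
  have h1 : π * a * π = π * a := by rw [mul_assoc, ha, ← mul_assoc, h]
  simp only [cut, mul_add, add_mul, mul_sub, sub_mul, mul_one, one_mul, ← mul_assoc, h, h1]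
  abel

theorem cut_add {π π' y : R} (h : π * π' = 0) (hy : y * π' = π' * y) :
    cut π y * cut π' y = cut (π + π') y := by
  have h1 : π * y * π' = 0 := by rw [mul_assoc, hy, ← mul_assoc, h, zero_mul]
  simp only [cut, mul_add, add_mul, mul_sub, sub_mul, mul_one, one_mul, ← mul_assoc, h, h1,
    zero_mul]
  abel

theorem cut_conj {π π' x : R} (h : x * π' = π * x) (hx : x * x = 1) (y : R) :
    x * cut π' y * x = cut π (x * y * x) := by
  simp only [cut, mul_add, add_mul, mul_sub, sub_mul, mul_one, ← mul_assoc, h, hx]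
  rw [mul_assoc π x x, hx, mul_one]

theorem cut_star [StarRing R] {π y : R} (h : star π = π) (hy : y * π = π * y) :
    star (cut π y) = cut π (star y) := by
  have := congrArg star hy
  rw [star_mul, star_mul, h] at this
  rw [cut, cut, star_add, star_mul, star_sub, star_one, h, this]

theorem cut_mem [StarRing R] {π y : R} (h : star π = π) (h' : π * π = π) (hy : y * π = π * y)
    (hu : y ∈ unitary R) : cut π y ∈ unitary R := by
  have := congrArg star hy
  rw [star_mul, star_mul, h] at this
  constructor <;> rw [cut_star h hy]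
  · rw [cut_mul h' this.symm, hu.1]; simp [cut]
  · rw [cut_mul h' hy, hu.2]; simp [cut]
end

variable {P K J X : Type} [Fintype P] [DecidableEq P] [Fintype K] [DecidableEq K] [Fintype J]
  [DecidableEq J] [Fintype X] [DecidableEq X] {n : ℕ}

/-- The isometry attached to an injection of indices. -/
def emb (e : Fin n → P) : Matrix P (Fin n) ℂ := of fun q f => if q = e f then 1 else 0

/-- The block unitary. -/
noncomputable def ZS (e : K → Fin n → P) (j : K → J) (S : Finset K)
    (r : J → Matrix (Fin n) (Fin n) ℂ) : Matrix P P ℂ :=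
  1 + ∑ k ∈ S, emb (e k) * (r (j k) - 1) * (emb (e k))ᴴ

/-- Type projections. -/
def pr (ty : P → Option (X × Bool)) (t : Option (X × Bool)) : Matrix P P ℂ :=
  diagonal fun q => if ty q = t then 1 else 0

theorem emb_mul {e : K → Fin n → P} (he : ∀ k f k' f', e k f = e k' f' → k = k' ∧ f = f')
    (k k' : K) : (emb (e k))ᴴ * emb (e k') = if k = k' then 1 else 0 := by
  ext f f'
  simp only [mul_apply, emb, conjTranspose_apply, of_apply, apply_ite (star : ℂ → ℂ), star_one,
    star_zero, ite_mul, one_mul, zero_mul, Finset.sum_ite_eq', Finset.mem_univ, if_true]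
  by_cases h : e k f = e k' f'
  · obtain ⟨rfl, rfl⟩ := he _ _ _ _ h
    simp
  · rw [if_neg h]
    split_ifs with h'
    · subst h'
      rw [one_apply_ne fun h' => h (congrArg _ h')]
    · rfl

theorem adm_ZS {e : K → Fin n → P} (he : ∀ k f k' f', e k f = e k' f' → k = k' ∧ f = f')
    (j : K → J) (S : Finset K) : Adm n (∑ k ∈ S, Pi.single (j k) 1) (ZS e j S) := by
  induction S using Finset.induction_on with
  | empty =>
    rw [show ZS e j ∅ = fun _ => 1 from funext fun r => by simp [ZS]]
    exact Adm.const (one_mem _)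
  | insert k S hk ih =>
    have := (Adm.ext (j k) (A := emb (e k)) (by rw [emb_mul he, if_pos rfl])).mul ih
    rw [Finset.sum_insert hk, show ZS e j (insert k S) = _ from funext fun r => ?_]
    · exact this
    have h : emb (e k) * (r (j k) - 1) * (emb (e k))ᴴ *
        ∑ k ∈ S, emb (e k) * (r (j k) - 1) * (emb (e k))ᴴ = 0 := by
      rw [Finset.mul_sum]
      refine Finset.sum_eq_zero fun k' hk' => ?_
      simp only [Matrix.mul_assoc]
      rw [← Matrix.mul_assoc (emb (e k))ᴴ, emb_mul he, if_neg fun h : k = k' => hk (h ▸ hk')]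
      simp
    simp only [ZS, Finset.sum_insert hk, mul_add, add_mul, one_mul, mul_one, h]
    abel

theorem pr_mul (ty : P → Option (X × Bool)) (t t' : Option (X × Bool)) :
    pr ty t * pr ty t' = if t = t' then pr ty t else 0 := by
  rw [pr, pr, diagonal_mul_diagonal]
  split_ifs with h
  · subst h; congr 1; ext q; split_ifs <;> simp
  · rw [← diagonal_zero]; congr 1; ext q; split_ifs with h1 h2 <;> simp_all

theorem pr_star (ty : P → Option (X × Bool)) (t : Option (X × Bool)) :
    star (pr ty t) = pr ty t := by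
  rw [pr, star_eq_conjTranspose, diagonal_conjTranspose]
  congr 1; ext q; simp [apply_ite (starRingEnd ℂ)]

theorem sum_pr (ty : P → Option (X × Bool)) :
    ∑ l, pr ty (some (l, true)) + ∑ l, pr ty (some (l, false)) = 1 - pr ty none := by
  ext q p
  by_cases h : q = p
  · subst h
    rcases h' : ty q with _ | ⟨l, _ | _⟩ <;> simp [pr, Matrix.sum_apply, h']
  · simp [pr, Matrix.sum_apply, h]

theorem pr_emb {ty : P → Option (X × Bool)} {e : Fin n → P} {t : Option (X × Bool)}
    (h : ∀ f, ty (e f) = t) (t' : Option (X × Bool)) :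
    pr ty t' * emb e = if t = t' then emb e else 0 := by
  ext q f
  by_cases h1 : q = e f
  · subst h1
    split_ifs with h2 <;> simp [pr, emb, h, h2]
  · split_ifs <;> simp [pr, emb, h1]

theorem pr_ZS {ty : P → Option (X × Bool)} {e : K → Fin n → P} {tk : K → Option (X × Bool)}
    (h : ∀ k f, ty (e k f) = tk k) (j : K → J) (r : J → Matrix (Fin n) (Fin n) ℂ)
    (t : Option (X × Bool)) :
    ZS e j Finset.univ r * pr ty t = pr ty t * ZS e j Finset.univ r ∧
      cut (pr ty t) (ZS e j Finset.univ r) = ZS e j {k | tk k = t} r := by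
  have h1 := fun k => pr_emb (h k) t
  have h2 : ∀ k, (emb (e k))ᴴ * pr ty t = if tk k = t then (emb (e k))ᴴ else 0 := fun k => by
    have := congrArg conjTranspose (h1 k)
    rw [conjTranspose_mul, show (pr ty t)ᴴ = pr ty t from pr_star ty t] at this
    rw [this]
    split_ifs <;> simp
  have h3 : pr ty t * ZS e j Finset.univ r =
      pr ty t + ∑ k with tk k = t, emb (e k) * (r (j k) - 1) * (emb (e k))ᴴ := by
    rw [ZS, mul_add, mul_one, Finset.mul_sum, Finset.sum_filter]
    refine congrArg _ (Finset.sum_congr rfl fun k _ => ?_)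
    rw [← Matrix.mul_assoc, ← Matrix.mul_assoc, h1]
    split_ifs <;> simp
  refine ⟨?_, by rw [cut, h3, ZS]; abel⟩
  rw [h3, ZS, add_mul, one_mul, Finset.sum_mul, Finset.sum_filter]
  refine congrArg _ (Finset.sum_congr rfl fun k _ => ?_)
  rw [Matrix.mul_assoc, h2]
  split_ifs <;> simp

/-- Self-adjoint involutions exchanging the sign of the types. -/
structure Flip (ty : P → Option (X × Bool)) (x : Matrix P P ℂ) : Prop where
  st : star x = x
  sq : x * x = 1
  none : x * pr ty none = pr ty none
  some : ∀ l b, x * pr ty (some (l, b)) = pr ty (some (l, !b)) * x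

theorem scalar_part {A : Type*} [Ring A] [StarRing A] [Algebra ℂ A] [StarModule ℂ A] (T : Trc A)
    (m : ℕ) (sc : Matrix P P ℂ →⋆ₐ[ℂ] A) (hsc : ∀ x, T.τ (sc x) = x.trace)
    {ty : P → Option (X × Bool)} {e : K → Fin (n + 1) → P} {tk : K → Option (X × Bool)}
    (he : ∀ k f k' f', e k f = e k' f' → k = k' ∧ f = f') (h : ∀ k f, ty (e k f) = tk k)
    (j : K → J) {x y : Matrix P P ℂ} (hx : Flip ty x) (hy : Flip ty y) (a : X → J → ℤ)
    (ha : ∀ l, a l = ∑ k with tk k = some (l, true), Pi.single (j k) 1 -
      ∑ k with tk k = some (l, false), Pi.single (j k) 1)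
    (s : J → X) (hs : (Matrix.of fun l => a (s l)).det ≠ 0) {ε : ℝ} (hε : 0 < ε) :
    ∃ r, ZS e j Finset.univ r ∈ unitary (Matrix P P ℂ) ∧
      T.Cost m (sc (ZS e j Finset.univ r * x * star (ZS e j Finset.univ r) * y))
        (2 * Real.pi * (∑ l, (Fintype.card {q // ty q = some (l, true)} : ℝ) -
          (n + 1) * Fintype.card J) + ε) := by
  have hpi := Real.pi_pos
  have pp : ∀ t, pr ty t * pr ty t = pr ty t := fun t => by rw [pr_mul, if_pos rfl]
  have xu : ∀ {x}, Flip ty x → x ∈ unitary (Matrix P P ℂ) := fun h =>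
    ⟨by rw [h.st, h.sq], by rw [h.st, h.sq]⟩
  have z1 := fun r t => (pr_ZS h j r t).1
  have z2 : ∀ r t, star (ZS e j Finset.univ r) * pr ty t = pr ty t * star (ZS e j Finset.univ r) :=
    fun r t => by simpa only [star_mul, pr_star] using (congrArg star (z1 r t)).symm
  have z3 : ∀ {z : Matrix P P ℂ}, (∀ t, z * pr ty t = pr ty t * z) → ∀ {y}, Flip ty y → ∀ l b,
      x * z * y * pr ty (some (l, b)) = pr ty (some (l, b)) * (x * z * y) := fun hz y hy l b => by
    rw [mul_assoc, hy.some, mul_assoc, ← mul_assoc _ _ y, hz, ← mul_assoc, ← mul_assoc, hx.some,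
      Bool.not_not, mul_assoc, mul_assoc, mul_assoc]
  let Y := fun r => ZS e j Finset.univ r * x * star (ZS e j Finset.univ r) * y
  have y1 : ∀ r l b, Y r * pr ty (some (l, b)) = pr ty (some (l, b)) * Y r := fun r l b => by
    have := z3 (z2 r) hy l b
    simp only [Y, mul_assoc] at this ⊢
    rw [this, ← mul_assoc, z1, mul_assoc]
  have z4 : ∀ l, x * y * pr ty (some (l, true)) = pr ty (some (l, true)) * (x * y) := fun l => by
    simpa using z3 (z := 1) (by simp) hy l true
  have b1 : ∀ l, Adm (n + 1) (a l) fun r => cut (pr ty (some (l, true))) (Y r) := fun l => by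
    have := ((adm_ZS he j {k | tk k = some (l, true)}).mul (((Adm.const (xu hx)).mul
      (adm_ZS he j {k | tk k = some (l, false)}).inv).mul (Adm.const (xu hx)))).mul
      (Adm.const (cut_mem (pr_star _ _) (pp _) (z4 l) (mul_mem (xu hx) (xu hy))))
    rw [add_zero, add_zero, zero_add, ← sub_eq_add_neg, ← ha] at this
    refine cast (congrArg _ (funext fun r => ?_)) this
    rw [← (pr_ZS h j r _).2, ← (pr_ZS h j r _).2, cut_star (pr_star _ _) (z1 _ _),
      cut_conj (hx.some l false) hx.sq, Bool.not_false, cut_mul (pp _) (z1 _ _), cut_mul (pp _)]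
    · simp only [Y, mul_assoc]
      rw [← mul_assoc x x, hx.sq, one_mul]
    · rw [mul_assoc, z3 (z2 r) hx, ← mul_assoc, z1, mul_assoc]
  have hc : (0 : ℝ) < Fintype.card J * ((n + 1) * (1 + 2 * m)) + 1 := by positivity
  obtain ⟨δ, d0, d1, d2⟩ : ∃ δ : ℝ, 0 < δ ∧ δ < Real.pi ∧
      Fintype.card J * ((n + 1) * ((1 + 2 * m) * δ)) ≤ ε := by
    refine ⟨min 1 (ε / (Fintype.card J * ((n + 1) * (1 + 2 * m)) + 1)), by positivity,
      (min_le_left _ _).trans_lt (by linarith [Real.two_le_pi]), ?_⟩
    have h1 := (le_div_iff₀ hc).1 (min_le_right 1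
      (ε / (Fintype.card J * ((n + 1) * (1 + 2 * m)) + 1)))
    have h2 : (0 : ℝ) < min 1 (ε / (Fintype.card J * ((n + 1) * (1 + 2 * m)) + 1)) := by positivity
    nlinarith
  let θ : Fin (n + 1) → ℝ := fun k => δ / (k.val + 1)
  obtain ⟨r, hr, r1⟩ := exists_eigen _ hs _ (fun l => b1 (s l))
    (fun k => Complex.exp (θ k * Complex.I)) fun k => Complex.norm_exp_ofReal_mul_I _
  have zu := (adm_ZS he j Finset.univ).mem hr
  refine ⟨r, zu, ?_⟩
  have hs' : Function.Injective s := fun l l' h => by_contra fun h' =>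
    hs (det_zero_of_row_eq h' (by ext; simp [h]))
  have rk : ∀ l, (cut (pr ty (some (l, true))) (Y r) - 1).rank ≤
      Fintype.card {q // ty q = some (l, true)} := fun l => by
    rw [show cut (pr ty (some (l, true))) (Y r) - 1 = pr ty (some (l, true)) * (Y r - 1) by
      rw [cut]; noncomm_ring]
    refine (rank_mul_le_left _ _).trans (le_of_eq ?_)
    rw [pr, rank_diagonal]
    exact Fintype.card_congr (Equiv.subtypeEquivRight fun q => by simp)
  have c1 : ∀ l, ∃ c c', T.Cost m (sc (cut (pr ty (some (l, true))) (Y r))) c ∧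
      T.Cost m (sc (star (cut (pr ty (some (l, true))) (Y r)))) c' ∧
      c + c' ≤ 2 * Real.pi * Fintype.card {q // ty q = some (l, true)} -
        if l ∈ Finset.univ.image s then (n + 1) * (2 * Real.pi - (1 + 2 * m) * δ) else 0 := by
    intro l
    split_ifs with hl
    · obtain ⟨l, -, rfl⟩ := Finset.mem_image.1 hl
      obtain ⟨c, c', h1, h2, h3⟩ := cost_pair T m sc hsc ((b1 _).mem hr) (rk _) d1 θ
        (fun k k' h => by
          have := (div_left_inj' (by positivity)).1 ((div_eq_div_iff (by positivity)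
            (by positivity)).1 h |> fun h => congrArg (· / δ) h)
          have := mul_left_cancel₀ d0.ne' this
          exact Fin.ext (by exact_mod_cast (add_right_cancel this).symm))
        (fun k => by positivity) (fun k => div_le_self d0.le (by simp)) (r1 l)
      exact ⟨c, c', h1, h2, h3.trans_eq (by push_cast; ring)⟩
    · obtain ⟨c, c', h1, h2, h3⟩ := cost_pair T m sc hsc ((b1 _).mem hr) (rk l) d1
        (fun k : Fin 0 => k.elim0) (fun k => k.elim0) (fun k => k.elim0) (fun k => k.elim0)
        fun k => k.elim0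
      exact ⟨c, c', h1, h2, h3.trans_eq (by simp)⟩
  choose c c' c1 c2 c3 using c1
  have c4 : ∀ S : Finset X, T.Cost m (sc (cut (∑ l ∈ S, pr ty (some (l, true))) (Y r)))
      (∑ l ∈ S, c l) ∧ T.Cost m (sc (star (cut (∑ l ∈ S, pr ty (some (l, true))) (Y r))))
      (∑ l ∈ S, c' l) := fun S => by
    induction S using Finset.induction_on with
    | empty => simpa [cut] using Trc.cost_one
    | insert l S hl ih =>
      simp only [Finset.sum_insert hl]
      rw [← cut_add, star_mul, map_mul, map_mul, add_comm (c' l)]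
      · exact ⟨(c1 l).mul ih.1, ih.2.mul (c2 l)⟩
      · rw [Finset.mul_sum]
        exact Finset.sum_eq_zero fun l' hl' => by
          rw [pr_mul, if_neg fun h => hl (by simp_all)]
      · simp only [Finset.mul_sum, Finset.sum_mul, y1]
  have y2 : star (Y r) = y * Y r * y := by
    simp only [Y, star_mul, star_star, hx.st, hy.st, mul_assoc, hy.sq, mul_one]
  have y3 : ∀ b, Y r * ∑ l, pr ty (some (l, b)) = (∑ l, pr ty (some (l, b))) * Y r := fun b => by
    simp only [Finset.mul_sum, Finset.sum_mul, y1]
  have y4 : cut (∑ l, pr ty (some (l, true))) (Y r) *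
      (y * star (cut (∑ l, pr ty (some (l, true))) (Y r)) * star y) = Y r := by
    have e1 : pr ty none * x = pr ty none := by
      simpa only [star_mul, pr_star, hx.st] using congrArg star hx.none
    have e2 : pr ty none * y = pr ty none := by
      simpa only [star_mul, pr_star, hy.st] using congrArg star hy.none
    rw [cut_star (by simp [star_sum, pr_star]) (y3 _), hy.st,
      cut_conj (π := ∑ l, pr ty (some (l, false)))
        (by simp only [Finset.mul_sum, Finset.sum_mul, hy.some, Bool.not_true]) hy.sq, y2,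
      show y * (y * Y r * y) * y = y * y * Y r * (y * y) by noncomm_ring, hy.sq, one_mul, mul_one,
      cut_add (by simp [Finset.sum_mul_sum, pr_mul]) (y3 _), sum_pr, cut, sub_mul, one_mul,
      show pr ty none * Y r = pr ty none from ?_]
    · abel
    · simp only [Y, ← mul_assoc]
      rw [← z1, mul_assoc _ _ x, e1, mul_assoc _ (pr ty none), ← z2, ← mul_assoc, zu.2, one_mul, e2]
  have c5 := (c4 Finset.univ).1.mul ((c4 Finset.univ).2.conj (w := sc y)
    (Unitary.map_mem sc (xu hy)))
  rw [← map_star, ← map_mul, ← map_mul, ← map_mul, y4] at c5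
  refine c5.mono ?_
  have c6 := Finset.sum_le_sum fun l (_ : l ∈ Finset.univ) => c3 l
  rw [Finset.sum_add_distrib, Finset.sum_sub_distrib, Finset.sum_ite_mem, Finset.univ_inter,
    Finset.sum_const, Finset.card_image_of_injective _ hs', Finset.card_univ, nsmul_eq_mul,
    ← Finset.mul_sum] at c6
  nlinarith

end Vale.Agent.P174
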