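import Vale.Agent.P174.Defs

/-! P174 module C2: the planar structure of the free reduction. -/

namespace Vale.Agent.P174

open Equiv

section
variable {P Γ : Type*} [Group Γ] [DecidableEq P]

theorem Tr.mono {k k' : ℕ} {u : Mon P Γ} (h : Tr k u) (hk : k ≤ k') : Tr k' u := by
  induction h generalizing k' with
  | one k => exact Tr.one _
  | step w _ hab ih =>
    obtain ⟨m, rfl⟩ : ∃ m, k' = m + 1 := ⟨k' - 1, by omega⟩
    exact Tr.step w (ih (by omega)) hab

theorem Tr.mul {k k' : ℕ} {u v : Mon P Γ} (h : Tr k u) (h' : Tr k' v) : Tr (k + k') (u * v) := by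
  induction h' with
  | one k' =>
    rw [mul_one]
    exact h.mono (by omega)
  | step w _ hab ih =>
    rw [← mul_assoc, ← add_assoc]
    exact Tr.step w ih hab

theorem Tr.conj {k : ℕ} {u : Mon P Γ} (h : Tr k u) (w : Mon P Γ) : Tr k (w * u * w⁻¹) := by
  induction h with
  | one k =>
    rw [mul_one, mul_inv_cancel]
    exact Tr.one _
  | @step k u w' a b _ hab ih =>
    have := Tr.step (w * w') ih hab
    rwa [show w * u * w⁻¹ * (w * w' * pm (swap a b) * (w * w')⁻¹) =
      w * (u * (w' * pm (swap a b) * w'⁻¹)) * w⁻¹ by group] at this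

theorem Tr.inv {k : ℕ} {u : Mon P Γ} (h : Tr k u) : Tr k u⁻¹ := by
  induction h with
  | one k =>
    rw [inv_one]
    exact Tr.one _
  | @step k u w a b _ hab ih =>
    have h1 := (Tr.step w (Tr.one 0) hab).mul ih
    have e : (pm (swap a b) : Mon P Γ)⁻¹ = pm (swap a b) := by rw [← map_inv, swap_inv]
    rw [zero_add, add_comm, one_mul] at h1
    rwa [mul_inv_rev, mul_inv_rev, mul_inv_rev, inv_inv, e, ← mul_assoc w]

theorem formPerm_snoc {p a : P} {A : List P} (h : (p :: (A ++ [a])).Nodup) :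
    (p :: (A ++ [a])).formPerm = swap p a * (p :: A).formPerm := by
  induction A generalizing p with
  | nil => simp
  | cons q A ih =>
    have h' := List.nodup_cons.1 h
    have hpa : a ≠ p := fun e => h'.1 (by simp [e])
    have hqa : a ≠ q := fun e => (List.nodup_cons.1 h'.2).1 (by simp [e])
    rw [List.cons_append, List.formPerm_cons_cons, ih h'.2, List.formPerm_cons_cons, ← mul_assoc,
      ← mul_assoc, mul_swap_eq_swap_mul, swap_apply_right, swap_apply_of_ne_of_ne hpa hqa]

theorem formPerm_split (p a : P) (A B : List P) :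
    (p :: (A ++ a :: B)).formPerm = (p :: (A ++ [a])).formPerm * (a :: B).formPerm := by
  induction A generalizing p with
  | nil => simp
  | cons q A ih =>
    rw [List.cons_append, List.cons_append, List.formPerm_cons_cons, List.formPerm_cons_cons, ih,
      mul_assoc]

theorem formPerm_wrap {p a b : P} {A B : List P} (h : (p :: (A ++ a :: (B ++ [b]))).Nodup) :
    (p :: (A ++ a :: (B ++ [b]))).formPerm =
      (p :: (A ++ [a])).formPerm * (b :: B).formPerm * swap a b := by
  have h1 : (a :: (B ++ [b])).Nodup := (List.nodup_cons.1 h).2.of_append_right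
  have ha : a ∉ B := fun e => (List.nodup_cons.1 h1).1 (List.mem_append_left _ e)
  have hb : b ∉ B := fun e =>
    (List.nodup_append.1 (List.nodup_cons.1 h1).2).2.2 b e b (by simp) rfl
  rw [formPerm_split, formPerm_snoc h1, mul_assoc]
  congr 1
  cases B with
  | nil => simp
  | cons c B =>
    have hca : c ≠ a := fun e => ha (by simp [e])
    have hcb : c ≠ b := fun e => hb (by simp [e])
    rw [List.formPerm_cons_cons, List.formPerm_cons_cons, ← mul_assoc, mul_swap_eq_swap_mul,
      swap_apply_left, swap_apply_of_ne_of_ne hca hcb, mul_assoc, mul_assoc,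
      mul_swap_eq_swap_mul (c :: B).formPerm, List.formPerm_apply_of_notMem ha,
      List.formPerm_apply_of_notMem hb]
end

section
variable {P Γ : Type*} [Group Γ]

/-- `u` acts trivially at `q` -/
def Fx (u : Mon P Γ) (q : P) : Prop := u.right q = q ∧ u.left q = 1

theorem Fx.inv_right {u : Mon P Γ} {q : P} (h : Fx u q) : u.right⁻¹ q = q :=
  Perm.inv_eq_iff_eq.2 h.1.symm

theorem Fx.mul {u v : Mon P Γ} {q : P} (h : Fx u q) (h' : Fx v q) : Fx (u * v) q := by
  refine ⟨?_, ?_⟩
  · rw [SemidirectProduct.mul_right, Perm.mul_apply, h'.1, h.1]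
  · rw [mon_mul_left, h.inv_right, h.2, h'.2, one_mul]

theorem Fx.dg {f : P → Γ} {q : P} (h : f q = 1) : Fx (dg f) q := ⟨rfl, h⟩

theorem Fx.pm {s : Perm P} {q : P} (h : s q = q) : Fx (pm s : Mon P Γ) q := ⟨h, rfl⟩

theorem comm_left {u v : Mon P Γ} (h : ∀ q, Fx u q ∨ Fx v q) {q : P} (hq : Fx u q) :
    (u * v).left q = (v * u).left q := by
  rw [mon_mul_left, mon_mul_left, hq.inv_right, hq.2, one_mul]
  rcases h (v.right⁻¹ q) with h1 | h1
  · rw [h1.2, mul_one]
  · have e : v.right⁻¹ q = q := h1.1.symm.trans (v.right.apply_symm_apply q)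
    rw [e, hq.2, mul_one]

theorem comm_of_fx {u v : Mon P Γ} (h : ∀ q, Fx u q ∨ Fx v q) : Commute u v := by
  refine SemidirectProduct.ext (funext fun q => ?_) ?_
  · rcases h q with h1 | h1
    · exact comm_left h h1
    · exact (comm_left (fun q => (h q).symm) h1).symm
  · have : Perm.Disjoint u.right v.right := fun q => (h q).imp (fun h => h.1) fun h => h.1
    exact this.commute

theorem Fx.ne {u : Mon P Γ} {q a : P} (h : Fx u a) (hq : q ≠ a) : u.right q ≠ a :=
  fun e => hq (u.right.injective (e.trans h.1.symm))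

variable [DecidableEq P]

theorem Fx.single {a q : P} (x : Γ) (h : q ≠ a) : Fx (P174.dg (Pi.mulSingle a x) : Mon P Γ) q :=
  Fx.dg (by simp [h])

theorem comm_single {u : Mon P Γ} {a : P} (x : Γ) (h : Fx u a) :
    Commute u (dg (Pi.mulSingle a x)) :=
  comm_of_fx fun q => (eq_or_ne q a).imp (fun e : q = a => by rw [e]; exact h) (Fx.single x)

theorem swap_single (a b : P) (x : Γ) :
    (pm (swap a b) : Mon P Γ) * dg (Pi.mulSingle b x) = dg (Pi.mulSingle a x) * pm (swap a b) := by
  refine SemidirectProduct.ext (funext fun q => ?_) (by simp)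
  rw [mon_mul_left, mon_mul_left]
  simp only [SemidirectProduct.left_inr, SemidirectProduct.left_inl, SemidirectProduct.right_inr,
    Pi.one_apply, one_mul, mul_one, swap_inv, Pi.mulSingle_apply, swap_apply_eq_iff,
    swap_apply_right]
end

section
variable {P G X : Type*} [Group G] [DecidableEq P]

theorem chain2_snoc {p a : P} {A : List P} (hpa : p ≠ a) (ha : a ∉ A) (μ ω z : Circle) (g h : G)
    {V : Mon P (Circle × G)} {k : ℕ} (H : Tr k ((dg (tgt p A μ ω g))⁻¹ * V⁻¹)) :
    Tr (k + 1) ((dg (tgt p (A ++ [a]) μ (ω * (μ * z)⁻¹) (g * h)))⁻¹ *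
      (pm (swap p a) * V * dg (Pi.mulSingle a (z, h⁻¹)))⁻¹) := by
  have e0 : (pm (swap p a) : Mon P (Circle × G))⁻¹ = pm (swap p a) := by rw [← map_inv, swap_inv]
  have e1 : (tgt p (A ++ [a]) μ (ω * (μ * z)⁻¹) (g * h))⁻¹ * (Pi.mulSingle a (z, h⁻¹))⁻¹ =
      Pi.mulSingle a ((μ * z)⁻¹, h) * Pi.mulSingle p ((μ * z)⁻¹, h)⁻¹ * (tgt p A μ ω g)⁻¹ := by
    funext q
    by_cases h1 : q = p
    · subst h1
      simp [tgt, hpa]
    · by_cases h2 : q = a
      · subst h2
        simp [tgt, h1, ha, mul_comm]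
      · simp [tgt, h1, h2]
  have e2 := swap_single (Γ := Circle × G) p a ((μ * z)⁻¹, h)⁻¹
  have e3 : (dg (Pi.mulSingle a ((μ * z)⁻¹, h)⁻¹) : Mon P (Circle × G)) =
      (dg (Pi.mulSingle a ((μ * z)⁻¹, h)))⁻¹ := by rw [Pi.mulSingle_inv, map_inv]
  have h1 := Tr.step (dg (Pi.mulSingle a ((μ * z)⁻¹, h)))
    (H.conj (dg (Pi.mulSingle a ((μ * z)⁻¹, h)) * dg (Pi.mulSingle p ((μ * z)⁻¹, h)⁻¹))) hpa
  rw [← e3, mul_assoc (dg _) (pm _), e2] at h1
  rw [mul_inv_rev (_ * V), mul_inv_rev _ V, e0, ← mul_assoc, ← map_inv, ← map_inv, ← map_mul, e1,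
    map_mul, map_mul, map_inv]
  refine (congrArg (Tr (k + 1)) ?_).mp h1
  group

theorem lam_snoc (lab : P → Letter G X) {A : List P} {a : P} (ha : a ∉ A) :
    lam lab (A ++ [a]) = lam lab A * Pi.mulSingle a (wt (lab a)) := by
  funext q
  by_cases h : q = a
  · subst h
    simp [lam, ha]
  · simp [lam, h]

omit [DecidableEq P] in
theorem Typed.fx {lab : P → Letter G X} {L : List P} {E : Mon P (Circle × G)}
    (h : Typed lab L E) {q : P} (hq : q ∉ L) : Fx E q := h.off q hq

theorem fx_lam (lab : P → Letter G X) {L : List P} {q : P} (hq : q ∉ L) :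
    Fx (dg (lam lab L)) q := Fx.dg (if_neg hq)

omit [DecidableEq P] in
theorem scal_mul {u v : Mon P (Circle × G)} (hu : ∀ q, (u.left q).2 = 1)
    (hv : ∀ q, (v.left q).2 = 1) (q : P) : ((u * v).left q).2 = 1 := by
  rw [mon_mul_left, Prod.snd_mul, hu, hv, one_mul]

theorem scal_single (a : P) (z : Circle) (q : P) :
    ((dg (Pi.mulSingle a ((z, 1) : Circle × G)) : Mon P (Circle × G)).left q).2 = 1 := by
  rw [SemidirectProduct.left_inl, Pi.mulSingle_apply]
  split_ifs <;> rfl

theorem typed_can {lab : P → Letter G X} {A B : List P} {a b : P} {x : X} {β : Bool}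
    {EA EB : Mon P (Circle × G)} (hA : Typed lab A EA) (hB : Typed lab B EB)
    (hAB : ∀ q ∈ A, q ∉ B) (haA : a ∉ A) (haB : a ∉ B) (hbA : b ∉ A) (hbB : b ∉ B)
    (la : lab a = .inr (x, β)) (lb : lab b = .inr (x, !β)) (z : Circle) :
    Typed lab (A ++ a :: (B ++ [b])) (pm (swap a b) * dg (Pi.mulSingle a (z, 1)) *
      dg (Pi.mulSingle b (z, 1)⁻¹) * EA * EB) := by
  have fS : ∀ q, q ≠ a → q ≠ b → Fx (pm (swap a b) * dg (Pi.mulSingle a (z, 1)) *
      dg (Pi.mulSingle b (z, 1)⁻¹) : Mon P (Circle × G)) q := fun q h1 h2 =>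
    ((Fx.pm (swap_apply_of_ne_of_ne h1 h2)).mul (Fx.single _ h1)).mul (Fx.single _ h2)
  have rE : ∀ q, (pm (swap a b) * dg (Pi.mulSingle a (z, 1)) * dg (Pi.mulSingle b (z, 1)⁻¹) * EA *
      EB : Mon P (Circle × G)).right q = swap a b (EA.right (EB.right q)) := fun q => by simp
  refine ⟨?_, ?_, fun q hq => ?_, fun q h hq => ?_, fun q hq y c hl => ?_⟩
  · have s1 := swap_single (Γ := Circle × G) a b (z, 1)⁻¹
    have s2 := swap_single (Γ := Circle × G) b a (z, 1)
    rw [swap_comm b a] at s2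
    have e0 : (pm (swap a b) : Mon P (Circle × G)) * pm (swap a b) = 1 := by
      rw [← map_mul, swap_mul_self, map_one]
    have sq : (pm (swap a b) * dg (Pi.mulSingle a (z, 1)) * dg (Pi.mulSingle b (z, 1)⁻¹) :
        Mon P (Circle × G)) * (pm (swap a b) * dg (Pi.mulSingle a (z, 1)) *
          dg (Pi.mulSingle b (z, 1)⁻¹)) = 1 := by
      nth_rewrite 1 [s2]
      rw [mul_assoc (dg _) (pm _), s1, Pi.mulSingle_inv, Pi.mulSingle_inv, map_inv, map_inv]
      calc _ = dg (Pi.mulSingle b (z, 1)) * (dg (Pi.mulSingle a (z, 1)))⁻¹ *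
            (pm (swap a b) * pm (swap a b)) * dg (Pi.mulSingle a (z, 1)) *
            (dg (Pi.mulSingle b ((z, 1) : Circle × G)))⁻¹ := by group
        _ = 1 := by
          rw [e0]
          group
    generalize (pm (swap a b) * dg (Pi.mulSingle a (z, 1)) * dg (Pi.mulSingle b (z, 1)⁻¹) :
      Mon P (Circle × G)) = S at fS sq ⊢
    have c1 : Commute S EA := comm_of_fx fun q => by
      by_cases h : q ∈ A
      · exact Or.inl (fS q (fun e => haA (e ▸ h)) fun e => hbA (e ▸ h))
      · exact Or.inr (hA.fx h)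
    have c2 : Commute S EB := comm_of_fx fun q => by
      by_cases h : q ∈ B
      · exact Or.inl (fS q (fun e => haB (e ▸ h)) fun e => hbB (e ▸ h))
      · exact Or.inr (hB.fx h)
    have c3 : Commute EA EB := comm_of_fx fun q => by
      by_cases h : q ∈ A
      · exact Or.inr (hB.fx (hAB q h))
      · exact Or.inl (hA.fx h)
    rw [← pow_two, (c2.mul_left c3).mul_pow, c1.mul_pow, pow_two, pow_two, pow_two, sq, hA.sq,
      hB.sq, one_mul, one_mul]
  · exact scal_mul (scal_mul (scal_mul (scal_mul (fun _ => rfl) (scal_single a z))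
      (by simpa using scal_single (G := G) b z⁻¹)) hA.scal) hB.scal
  · simp only [List.mem_append, List.mem_cons, List.not_mem_nil, or_false, not_or] at hq
    exact ((fS q hq.2.1 hq.2.2.2).mul (hA.fx hq.1)).mul (hB.fx hq.2.2.1)
  · have h1 : q ≠ a := fun e => by
      rw [e, la] at hq
      cases hq
    have h2 : q ≠ b := fun e => by
      rw [e, lb] at hq
      cases hq
    exact ((fS q h1 h2).mul (hA.grp q h hq)).mul (hB.grp q h hq)
  · rw [rE]
    simp only [List.mem_append, List.mem_cons, List.not_mem_nil, or_false] at hq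
    rcases hq with hq | rfl | hq | rfl
    · rw [(hB.fx (hAB q hq)).1, swap_apply_of_ne_of_ne ((hA.fx haA).ne fun e => haA (e ▸ hq))
        ((hA.fx hbA).ne fun e => hbA (e ▸ hq))]
      exact hA.var q hq y c hl
    · rw [(hB.fx haB).1, (hA.fx haA).1, swap_apply_left, lb]
      rw [la] at hl
      cases hl
      rfl
    · have h1 : EB.right q ∉ A := fun e =>
        (hB.fx (hAB _ e)).ne (fun e' => hAB _ e (e' ▸ hq)) rfl
      rw [(hA.fx h1).1, swap_apply_of_ne_of_ne ((hB.fx haB).ne fun e => haB (e ▸ hq))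
        ((hB.fx hbB).ne fun e => hbB (e ▸ hq))]
      exact hB.var q hq y c hl
    · rw [(hB.fx hbB).1, (hA.fx hbA).1, swap_apply_right, la]
      rw [lb] at hl
      cases hl
      rw [Bool.not_not]

theorem mon_shuffle {M : Type*} [Group M] {s fA fB t lA lB da db EA EB : M} (tt : t * t = 1)
    (c1 : Commute t lA) (c2 : Commute t lB) (c3 : Commute fB lA) (c4 : Commute (fB * lB) da)
    (c5 : Commute (fB * lB * db) EA) (c6 : Commute EA da) (c7 : Commute EB db) :
    s * fA * fB * t * (lA * lB) * (t * da * db * EA * EB) =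
      s * (fA * lA * EA) * da * (fB * lB * EB * db) := by
  calc s * fA * fB * t * (lA * lB) * (t * da * db * EA * EB)
      = s * fA * fB * (t * (lA * lB)) * t * da * db * EA * EB := by group
    _ = s * fA * (fB * lA) * lB * (t * t) * da * db * EA * EB := by
      rw [(c1.mul_right c2).eq]
      group
    _ = s * fA * lA * (fB * lB * da) * db * EA * EB := by
      rw [tt, c3.eq]
      group
    _ = s * fA * lA * da * (fB * lB * db * EA) * EB := by
      rw [c4.eq]
      group
    _ = s * fA * lA * (da * EA) * (fB * lB) * (db * EB) := by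
      rw [c5.eq]
      group
    _ = _ := by
      rw [← c6.eq, ← c7.eq]
      group
end

theorem chain2 {P G X : Type*} [Group G] [DecidableEq P] (lab : P → Letter G X) (μ : Circle)
    {g : G} {W : List (Letter G X)} (h : Red g W) (p : P) (L : List P) (hL : L.map lab = W)
    (hn : (p :: L).Nodup) :
    ∃ E : Mon P (Circle × G), Typed lab L E ∧ ∃ (ω : Circle) (k : ℕ),
      2 * k + nx W = 2 * L.length ∧
      Tr k ((dg (tgt p L μ ω g))⁻¹ * (pm (p :: L).formPerm * dg (lam lab L) * E)⁻¹) := by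
  induction h generalizing p L with
  | nil =>
    obtain rfl := List.map_eq_nil_iff.1 hL
    refine ⟨1, ⟨one_mul _, fun _ => rfl, fun _ _ => ⟨rfl, rfl⟩, fun _ _ _ => ⟨rfl, rfl⟩,
      fun q hq => absurd hq List.not_mem_nil⟩, 1, 0, rfl, ?_⟩
    have e1 : tgt p [] μ 1 (1 : G) = 1 := by
      funext q
      simp [tgt, Prod.ext_iff]
    have e2 : lam lab [] = 1 := by
      funext q
      simp [lam]
    rw [e1, e2]
    simpa using Tr.one 0
  | @grp g W h _ ih =>
    obtain ⟨A, L2, rfl, hA, h2⟩ := List.map_eq_append_iff.1 hL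
    obtain ⟨a, rfl, la⟩ := List.map_eq_singleton_iff.1 h2
    have n1 : (p :: A).Nodup := hn.sublist (by simp)
    have hpa : p ≠ a := fun e => (List.nodup_cons.1 hn).1 (by simp [e])
    have ha : a ∉ A := fun e =>
      (List.nodup_append.1 (List.nodup_cons.1 hn).2).2.2 a e a (by simp) rfl
    obtain ⟨E, hE, ω, k, hk, H⟩ := ih p A hA n1
    refine ⟨E, ⟨hE.sq, hE.scal, fun q hq => hE.off q fun e => hq (List.mem_append_left _ e),
      hE.grp, fun q hq x b hl => ?_⟩, ω * (μ * 1)⁻¹, k + 1, ?_, ?_⟩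
    · rcases List.mem_append.1 hq with hq | hq
      · exact hE.var q hq x b hl
      · rw [List.mem_singleton.1 hq, la] at hl
        cases hl
    · simp only [nx, List.countP_append, List.length_append, List.length_singleton] at hk ⊢
      simp
      omega
    · have := chain2_snoc hpa ha μ ω 1 g h H
      have c := (comm_single (((1 : Circle), h⁻¹) : Circle × G) (hE.fx ha)).eq
      rw [formPerm_snoc hn, lam_snoc lab ha, la, map_mul, map_mul, wt, mul_assoc _ _ E,
        mul_assoc _ _ E, ← c]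
      simpa only [mul_assoc] using this
  | @can g W W' x β _ _ ihA ihB =>
    obtain ⟨A, L2, rfl, hA, h2⟩ := List.map_eq_append_iff.1 hL
    obtain ⟨a, L3, rfl, la, h3⟩ := List.map_eq_cons_iff.1 h2
    obtain ⟨B, L4, rfl, hB, h4⟩ := List.map_eq_append_iff.1 h3
    obtain ⟨b, rfl, lb⟩ := List.map_eq_singleton_iff.1 h4
    have n0 := hn
    have n1 : (p :: A).Nodup := hn.sublist (by simp)
    have n3 : (p :: (A ++ [a])).Nodup := hn.sublist (by simp)
    simp only [List.nodup_cons, List.nodup_append, List.mem_append, List.mem_cons,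
      List.not_mem_nil, or_false, not_or, List.nodup_nil, and_true, not_false_eq_true,
      true_and, forall_eq] at n0
    obtain ⟨⟨hpA, hpa, hpB, hpb⟩, -, ⟨⟨haB, hab⟩, nB, hbB'⟩, hAx⟩ := n0
    have hbB : b ∉ B := fun e => hbB' b e rfl
    have haA : a ∉ A := fun e => hAx a e a (Or.inl rfl) rfl
    have hbA : b ∉ A := fun e => hAx b e b (Or.inr (Or.inr rfl)) rfl
    have hAB : ∀ q ∈ A, q ∉ B := fun q h1 h2 => hAx q h1 q (Or.inr (Or.inl h2)) rfl
    obtain ⟨EA, tA, ωA, kA, hkA, HA⟩ := ihA p A hA n1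
    obtain ⟨EB, tB, ωB, kB, hkB, HB⟩ := ihB b B hB (List.nodup_cons.2 ⟨hbB, nB⟩)
    refine ⟨_, typed_can tA tB hAB haA haB hbA hbB la lb (μ * ωB⁻¹),
      ωA * (μ * (μ * ωB⁻¹))⁻¹, kB + (kA + 1), ?_, ?_⟩
    · simp only [nx, List.countP_append, List.length_append, List.length_cons, List.countP_cons,
        List.length_nil, List.countP_nil] at hkA hkB ⊢
      simp
      omega
    · have H1 := chain2_snoc hpa haA μ ωA (μ * ωB⁻¹) g 1 HA
      rw [inv_one, mul_one] at H1
      have H2 := (HB.conj (dg (tgt p (A ++ [a]) μ (ωA * (μ * (μ * ωB⁻¹))⁻¹) g))⁻¹).mul H1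
      have e1 : lam lab (A ++ a :: (B ++ [b])) = lam lab A * lam lab B := by
        funext q
        by_cases h1 : q ∈ A
        · simp [lam, h1, hAB q h1]
        · by_cases h2 : q ∈ B
          · simp [lam, h1, h2]
          · by_cases h3 : q = a
            · simp [lam, h3, haA, haB, la, wt]
            · by_cases h4 : q = b
              · simp [lam, h4, hbA, hbB, lb, wt]
              · simp [lam, h1, h2, h3, h4]
      have e2 : tgt p (A ++ a :: (B ++ [b])) μ (ωA * (μ * (μ * ωB⁻¹))⁻¹) g =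
          Pi.mulSingle b (μ * ωB⁻¹, 1) * tgt b B μ ωB 1 *
            tgt p (A ++ [a]) μ (ωA * (μ * (μ * ωB⁻¹))⁻¹) g := by
        funext q
        by_cases h0 : q = p
        · simp [tgt, h0, hpb, hpB]
        · by_cases h4 : q = b
          · subst h4
            simp [tgt, h0, hbA, Ne.symm hab]
          · by_cases h2 : q ∈ B
            · have h1 : q ∉ A := fun e => hAB q e h2
              have h3 : q ≠ a := fun e => haB (e ▸ h2)
              simp [tgt, h0, h1, h2, h3, h4]
            · simp [tgt, h0, h2, h4]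
      have fB : ∀ q, q ≠ b → q ∉ B → Fx (pm (b :: B).formPerm : Mon P (Circle × G)) q :=
        fun q h1 h2 => Fx.pm (List.formPerm_apply_of_notMem (by simp [h1, h2]))
      have fT : ∀ q, q ∈ A ∨ q ∈ B → Fx (pm (swap a b) : Mon P (Circle × G)) q := fun q hq =>
        Fx.pm (swap_apply_of_ne_of_ne (fun e => by simp [e, haA, haB] at hq)
          fun e => by simp [e, hbA, hbB] at hq)
      have e3 := mon_shuffle (s := pm (swap p a)) (fA := pm (p :: A).formPerm)
        (fB := pm (b :: B).formPerm) (t := pm (swap a b)) (lA := dg (lam lab A))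
        (lB := dg (lam lab B)) (da := dg (Pi.mulSingle a (μ * ωB⁻¹, 1)))
        (db := dg (Pi.mulSingle b (μ * ωB⁻¹, 1)⁻¹)) (EA := EA) (EB := EB)
        (by rw [← map_mul, swap_mul_self, map_one])
        (comm_of_fx fun q => (em (q ∈ A)).imp (fun h => fT q (Or.inl h)) (fx_lam lab))
        (comm_of_fx fun q => (em (q ∈ B)).imp (fun h => fT q (Or.inr h)) (fx_lam lab))
        (comm_of_fx fun q => (em (q ∈ A)).imp
          (fun h => fB q (fun e => hbA (e ▸ h)) (hAB q h)) (fx_lam lab))
        (comm_single _ ((fB a hab haB).mul (fx_lam lab haB)))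
        (comm_of_fx fun q => (em (q ∈ A)).imp
          (fun h => ((fB q (fun e => hbA (e ▸ h)) (hAB q h)).mul (fx_lam lab (hAB q h))).mul
            (Fx.single _ fun e => hbA (e ▸ h))) tA.fx)
        (comm_single _ (tA.fx haA)) (comm_single _ (tB.fx hbB))
      rw [formPerm_wrap hn, formPerm_snoc n3, e1, e2, map_mul, map_mul, map_mul, map_mul, map_mul,
        map_mul, e3, Pi.mulSingle_inv, map_inv]
      refine (congrArg (Tr _) ?_).mp H2
      group

end Vale.Agent.P174
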