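import Vale.Agent.P174.DGA

/-! P174 module F2: abstract cycles, homotopy invariance and additivity. -/

namespace Vale.Agent.P174

open Matrix

/-- A differential algebra with two slice maps and an integral satisfying Stokes' theorem. -/
structure Cyc (A Ω : Type*) [CommRing A] [Algebra ℂ A] [Ring Ω] [Algebra A Ω] extends SD A Ω where
  sl : Bool → A →ₐ[ℂ] A
  SL : Bool → Ω →+* Ω
  SL_alg : ∀ b x, SL b (algebraMap A Ω x) = algebraMap A Ω (sl b x)
  SL_d : ∀ b x, SL b (d x) = d (SL b x)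
  sl_sl : ∀ b b' x, sl b (sl b' x) = sl b' x
  J : Ω →+ ℂ
  stokes : ∀ x ∈ toSD.Ev, d x = 0 → J (SL false x) = J (SL true x)
  u : A
  u0 : sl false u = 0
  u1 : sl true u = 1
  uu : IsUnit ((1 - u) ^ 2 + u ^ 2)

namespace Cyc

variable {A Ω : Type*} [CommRing A] [Algebra ℂ A] [Ring Ω] [Algebra A Ω] (T : Cyc A Ω)
  {P : Type*} [Fintype P] [DecidableEq P]

/-- Closed, even, slice invariant forms. -/
structure Z0 (x : Ω) : Prop where
  ev : x ∈ T.toSD.Ev
  closed : T.d x = 0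
  inv : ∀ b, T.SL b x = x

/-- Numerical equivalence of forms. -/
def Eqv (x y : Ω) : Prop := ∀ z, T.Z0 z → T.J (x * z) = T.J (y * z)

/-- Slices of invertible matrices. -/
def slM (b : Bool) : (Matrix P P A)ˣ →* (Matrix P P A)ˣ :=
  mapU (T.sl b).toRingHom

variable {T}

theorem D1_one : T.D1 1 = 0 := by
  have := T.dc 1
  rwa [map_one] at this

theorem D1_zero : T.D1 0 = 0 := by
  rw [SD.D1, map_zero, map_zero]

theorem D1_neg (f : A) : T.D1 (-f) = -T.D1 f := by
  rw [SD.D1, SD.D1, map_neg, map_neg]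

theorem SL_D1 (b : Bool) (f : A) : T.SL b (T.D1 f) = T.D1 (T.sl b f) := by
  rw [SD.D1, SD.D1, T.SL_d, T.SL_alg]

theorem SL_ν {l : Aˣ} (hl : ∀ b, T.sl b l = l) (b : Bool) : T.SL b (T.ν l) = T.ν l := by
  have h : T.sl b (l⁻¹ : Aˣ) = (l⁻¹ : Aˣ) := by
    apply Units.eq_inv_of_mul_eq_one_right
    rw [← hl b, ← map_mul, Units.inv_mul, map_one]
  rw [SD.ν, map_mul, T.SL_alg, SL_D1, h, hl]

theorem SL_om (b : Bool) (i : ℕ) (B : (Matrix P P A)ˣ) :
    T.SL b (T.om i B) = T.om i (T.slM b B) :=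
  T.om_map (T.sl b).toRingHom (T.SL b) (T.SL_alg b) (SL_D1 b) i B

theorem d_slot (l : Aˣ) (i : ℕ) (B : (Matrix P P A)ˣ) : T.d (T.ν l * T.om i B) = 0 := by
  rw [T.leib, T.d_ν, T.d_om, zero_mul, mul_zero, add_zero]

theorem Z0.zero : T.Z0 0 := by
  exact ⟨zero_mem _, map_zero _, fun b => map_zero _⟩

theorem Z0.one : T.Z0 1 := by
  refine ⟨one_mem _, ?_, fun b => map_one _⟩
  have := D1_one (T := T)
  rwa [SD.D1, map_one] at this

theorem Z0.add {x y : Ω} (h : T.Z0 x) (h' : T.Z0 y) : T.Z0 (x + y) := by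
  refine ⟨add_mem h.ev h'.ev, ?_, fun b => ?_⟩
  · rw [map_add, h.closed, h'.closed, add_zero]
  · rw [map_add, h.inv, h'.inv]

theorem Z0.mul {x y : Ω} (h : T.Z0 x) (h' : T.Z0 y) : T.Z0 (x * y) := by
  refine ⟨mul_mem h.ev h'.ev, ?_, fun b => ?_⟩
  · rw [T.leib, h.closed, h'.closed, zero_mul, mul_zero, add_zero]
  · rw [map_mul, h.inv, h'.inv]

theorem Z0.zsmul {x : Ω} (h : T.Z0 x) (a : ℤ) : T.Z0 (a • x) := by
  refine ⟨zsmul_mem h.ev a, ?_, fun b => ?_⟩
  · rw [map_zsmul, h.closed, smul_zero]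
  · rw [map_zsmul, h.inv]

theorem Z0.slot {l : Aˣ} (hl : ∀ b, T.sl b l = l) (i : ℕ) {B : (Matrix P P A)ˣ}
    (hB : ∀ b, T.slM b B = B) : T.Z0 (T.ν l * T.om i B) := by
  refine ⟨T.ν_mul_om_mem l i B, d_slot l i B, fun b => ?_⟩
  rw [map_mul, SL_ν hl, SL_om, hB]

theorem Eqv.refl (x : Ω) : T.Eqv x x := fun _ _ => rfl

theorem Eqv.symm {x y : Ω} (h : T.Eqv x y) : T.Eqv y x := fun z hz => (h z hz).symm

theorem Eqv.trans {x y z : Ω} (h : T.Eqv x y) (h' : T.Eqv y z) : T.Eqv x z :=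
  fun t ht => (h t ht).trans (h' t ht)

theorem Eqv.add {x y x' y' : Ω} (h : T.Eqv x y) (h' : T.Eqv x' y') : T.Eqv (x + x') (y + y') := by
  intro z hz
  rw [add_mul, add_mul, map_add, map_add, h z hz, h' z hz]

theorem Eqv.zsmul {x y : Ω} (h : T.Eqv x y) (a : ℤ) : T.Eqv (a • x) (a • y) := by
  intro z hz
  rw [smul_mul_assoc, smul_mul_assoc, map_zsmul, map_zsmul, h z hz]

theorem z0_prod {K : Type*} (s : Finset K) (x : K → Subring.center Ω)
    (hx : ∀ k ∈ s, T.Z0 (x k)) : T.Z0 (∏ k ∈ s, x k : Subring.center Ω) := by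
  induction s using Finset.cons_induction with
  | empty => exact Z0.one
  | cons a s ha ih =>
    rw [Finset.prod_cons]
    exact (hx a (Finset.mem_cons_self _ _)).mul (ih fun k hk => hx k (Finset.mem_cons_of_mem hk))

theorem eqv_prod {K : Type*} (s : Finset K) (x y : K → Subring.center Ω)
    (hx : ∀ k ∈ s, T.Z0 (x k)) (hy : ∀ k ∈ s, T.Z0 (y k)) (h : ∀ k ∈ s, T.Eqv (x k) (y k)) :
    T.Eqv (∏ k ∈ s, x k : Subring.center Ω) (∏ k ∈ s, y k : Subring.center Ω) := by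
  induction s using Finset.cons_induction with
  | empty => exact Eqv.refl _
  | cons a s ha ih =>
    intro z hz
    have h1 := h a (Finset.mem_cons_self _ _) _
      ((z0_prod s x fun k hk => hx k (Finset.mem_cons_of_mem hk)).mul hz)
    have h2 := ih (fun k hk => hx k (Finset.mem_cons_of_mem hk))
      (fun k hk => hy k (Finset.mem_cons_of_mem hk)) (fun k hk => h k (Finset.mem_cons_of_mem hk)) _
      ((hy a (Finset.mem_cons_self _ _)).mul hz)
    rw [Finset.prod_cons, Finset.prod_cons, mul_comm (y a), Subring.coe_mul, Subring.coe_mul,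
      mul_assoc, mul_assoc, h1, ← h2, ← mul_assoc, ← mul_assoc, ← Subring.coe_mul,
      ← Subring.coe_mul, mul_comm (y a)]

theorem slM_slM (b b' : Bool) (H : (Matrix P P A)ˣ) : T.slM b (T.slM b' H) = T.slM b' H := by
  ext p q
  exact T.sl_sl b b' _

theorem eqv_homotopy {l : Aˣ} (hl : ∀ b, T.sl b l = l) (i : ℕ) (H : (Matrix P P A)ˣ) :
    T.Eqv (T.ν l * T.om i (T.slM false H)) (T.ν l * T.om i (T.slM true H)) := by
  intro z hz
  have h := T.stokes (T.ν l * T.om i H * z) (mul_mem (T.ν_mul_om_mem l i H) hz.ev) (by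
    rw [T.leib, d_slot, hz.closed, zero_mul, mul_zero, add_zero])
  simpa only [map_mul, SL_ν hl, SL_om, hz.inv] using h

theorem om_one (i : ℕ) : T.om i (1 : (Matrix P P A)ˣ) = 0 :=
  T.om_ev (RingHom.id Ω) i 1 fun p q => by
    by_cases h : p = q <;> simp [h, D1_one, D1_zero]

/-- Block diagonal invertible matrices. -/
def blockU (a b : (Matrix P P A)ˣ) : (Matrix (P ⊕ P) (P ⊕ P) A)ˣ where
  val := fromBlocks a.val 0 0 b.val
  inv := fromBlocks (a⁻¹).val 0 0 (b⁻¹).val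
  val_inv := by simp [fromBlocks_multiply]
  inv_val := by simp [fromBlocks_multiply]

theorem rot_mul (s t : A) (w : Aˣ) (h : (w : A) = s ^ 2 + t ^ 2) :
    (fromBlocks (s • 1) (t • 1) (-t • 1) (s • 1) : Matrix (P ⊕ P) (P ⊕ P) A) *
      (((w⁻¹ : Aˣ) : A) • fromBlocks (s • 1) (-t • 1) (t • 1) (s • 1)) = 1 := by
  have e : ((w⁻¹ : Aˣ) : A) * (s * s + t * t) = 1 := by
    rw [← pow_two, ← pow_two, ← h, Units.inv_mul]
  rw [Matrix.mul_smul, fromBlocks_multiply, fromBlocks_smul, ← fromBlocks_one]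
  simp only [Matrix.smul_mul, Matrix.one_mul, smul_smul, ← add_smul]
  rw [e, show s * -t + t * s = 0 by ring, show -t * s + s * t = 0 by ring,
    show -t * -t + s * s = s * s + t * t by ring, e]
  simp

/-- Rotation matrices. -/
def rotU (s t : A) (w : Aˣ) (h : (w : A) = s ^ 2 + t ^ 2) : (Matrix (P ⊕ P) (P ⊕ P) A)ˣ where
  val := fromBlocks (s • 1) (t • 1) (-t • 1) (s • 1)
  inv := ((w⁻¹ : Aˣ) : A) • fromBlocks (s • 1) (-t • 1) (t • 1) (s • 1)
  val_inv := rot_mul s t w h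
  inv_val := mul_eq_one_comm.1 (rot_mul s t w h)

theorem slM_val (b : Bool) (H : (Matrix P P A)ˣ) : (T.slM b H).val = H.val.map (T.sl b) := rfl

theorem slM_blockU (b : Bool) (a a' : (Matrix P P A)ˣ) :
    T.slM b (blockU a a') = blockU (T.slM b a) (T.slM b a') := by
  apply Units.ext
  rw [slM_val]
  ext (p | p) (q | q) <;> simp [blockU, slM_val]

theorem slM_rotU (b : Bool) (s t : A) (w : Aˣ) (h : (w : A) = s ^ 2 + t ^ 2) :
    (T.slM b (rotU (P := P) s t w h)).val =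
      fromBlocks (T.sl b s • 1) (T.sl b t • 1) (-T.sl b t • 1) (T.sl b s • 1) := by
  rw [slM_val]
  ext (p | p) (q | q) <;> by_cases hpq : p = q <;> simp [rotU, hpq]

theorem eqv_mul {l : Aˣ} (hl : ∀ b, T.sl b l = l) (i : ℕ) {a a' : (Matrix P P A)ˣ}
    (ha : ∀ b, T.slM b a = a) (ha' : ∀ b, T.slM b a' = a') :
    T.Eqv (T.ν l * T.om i (a * a')) (T.ν l * T.om i a + T.ν l * T.om i a') := by
  obtain ⟨w, hw⟩ := T.uu
  have h := eqv_homotopy hl i (blockU a 1 * rotU (1 - T.u) T.u w hw * blockU a' 1)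
  have e0 : T.om i (T.slM false (blockU a 1 * rotU (1 - T.u) T.u w hw * blockU a' 1)) =
      T.om i (a * a') := by
    rw [T.om_blocks i (a * a') (1 : (Matrix P P A)ˣ), om_one, add_zero]
    rw [map_mul, map_mul, slM_blockU, slM_blockU, ha, ha', map_one, Units.val_mul, Units.val_mul,
      slM_rotU, map_sub, map_one, T.u0]
    simp [blockU, fromBlocks_multiply]
  have e1 : T.om i (T.slM true (blockU a 1 * rotU (1 - T.u) T.u w hw * blockU a' 1)) =
      T.om i a + T.om i a' := by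
    have e : T.slM true (blockU a 1 * rotU (1 - T.u) T.u w hw * blockU a' 1) =
        rotU 0 1 1 (by simp) * blockU a' a := by
      apply Units.ext
      rw [map_mul, map_mul, slM_blockU, slM_blockU, ha, ha', map_one, Units.val_mul, Units.val_mul,
        slM_rotU, map_sub, map_one, T.u1]
      simp [blockU, rotU, fromBlocks_multiply]
    rw [e, T.om_const_mul, T.om_blocks i a' a _ rfl, add_comm]
    rintro (p | p) (q | q) <;> by_cases hpq : p = q <;>
      simp [rotU, hpq, D1_one, D1_zero, D1_neg]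
  rwa [e0, e1, mul_add] at h

theorem eqv_inv {l : Aˣ} (hl : ∀ b, T.sl b l = l) (i : ℕ) {a : (Matrix P P A)ˣ}
    (ha : ∀ b, T.slM b a = a) :
    T.Eqv (T.ν l * T.om i a⁻¹) (-(T.ν l * T.om i a)) := by
  intro z hz
  have h := eqv_mul hl i ha (a' := a⁻¹) (fun b => by rw [map_inv, ha]) z hz
  rw [mul_inv_cancel, om_one, mul_zero, zero_mul, map_zero, add_mul, map_add] at h
  rw [neg_mul, map_neg]
  exact eq_neg_of_add_eq_zero_right h.symm

end Cyc

end Vale.Agent.P174
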