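import Mathlib

/-! P174 module F1: abstract differential graded algebra and the odd Chern character forms. -/

namespace Vale.Agent.P174

open Matrix

/-- A supercommutative differential algebra over a ring `S` of functions. -/
structure SD (S Ω : Type*) [CommRing S] [Algebra ℂ S] [Ring Ω] [Algebra S Ω] where
  d : Ω →+ Ω
  σ : Ω →ₐ[S] Ω
  σσ : ∀ x, σ (σ x) = x
  leib : ∀ x y, d (x * y) = d x * y + σ x * d y
  dd : ∀ f : S, d (d (algebraMap S Ω f)) = 0
  σd : ∀ f : S, σ (d (algebraMap S Ω f)) = -d (algebraMap S Ω f)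
  comm : ∀ (f : S) (y : Ω), d (algebraMap S Ω f) * y = σ y * d (algebraMap S Ω f)
  dc : ∀ c : ℂ, d (algebraMap S Ω (algebraMap ℂ S c)) = 0

/-- Base change of invertible matrices. -/
def mapU {S S' P : Type*} [CommRing S] [CommRing S'] [Fintype P] [DecidableEq P] (f : S →+* S') :
    (Matrix P P S)ˣ →* (Matrix P P S')ˣ :=
  Units.map (f.mapMatrix : Matrix P P S →+* Matrix P P S').toMonoidHom

namespace SD

variable {S Ω : Type*} [CommRing S] [Algebra ℂ S] [Ring Ω] [Algebra S Ω] (T : SD S Ω)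
  {P Q : Type*} [Fintype P] [DecidableEq P] [Fintype Q] [DecidableEq Q]

/-- Differential of a function. -/
def D1 (f : S) : Ω := T.d (algebraMap S Ω f)

/-- Logarithmic differential of a unit. -/
def ν (l : Sˣ) : Ω := algebraMap S Ω (l⁻¹ : Sˣ) * T.D1 l

/-- The Maurer-Cartan form. -/
def θ (B : (Matrix P P S)ˣ) : Matrix P P Ω :=
  (B⁻¹ : (Matrix P P S)ˣ).val.map (algebraMap S Ω) * B.val.map T.D1

/-- The odd Chern character forms. -/
def om (i : ℕ) (B : (Matrix P P S)ˣ) : Ω := (T.θ B ^ (2 * i + 1)).trace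

/-- The even forms generated by the functions. -/
def Ev : Subring Ω :=
  Subring.closure (Set.range (algebraMap S Ω) ∪ {x | ∃ f g, x = T.D1 f * T.D1 g})

/-- Restriction to a subalgebra of functions. -/
def restrict (A : Subalgebra ℂ S) : SD A Ω where
  d := T.d
  σ := T.σ.restrictScalars A
  σσ := T.σσ
  leib := T.leib
  dd f := T.dd f
  σd f := T.σd f
  comm f := T.comm f
  dc := T.dc

theorem restrict_om (A : Subalgebra ℂ S) (i : ℕ) (B : (Matrix P P A)ˣ) :
    (T.restrict A).om i B = T.om i (mapU A.val.toRingHom B) := by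
  have : (T.restrict A).θ B = T.θ (mapU A.val.toRingHom B) := by
    unfold θ
    rw [← map_inv]
    rfl
  unfold om
  rw [this]

theorem restrict_Ev_le (A : Subalgebra ℂ S) : (T.restrict A).Ev ≤ T.Ev := by
  apply Subring.closure_mono
  rintro x (⟨f, rfl⟩ | ⟨f, g, rfl⟩)
  · exact Or.inl ⟨f, rfl⟩
  · exact Or.inr ⟨f, g, rfl⟩

include T in
theorem eq_zero_of_eq_neg {x : Ω} (h : x = -x) : x = 0 := by
  have h2 : algebraMap S Ω (algebraMap ℂ S (1 / 2)) * 2 = 1 := by
    have : (2 : Ω) = algebraMap S Ω (algebraMap ℂ S 2) := by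
      rw [map_ofNat, map_ofNat]
    rw [this, ← map_mul, ← map_mul]
    norm_num
  have h3 : (2 : Ω) * x = 0 := by
    rw [two_mul]
    nth_rewrite 1 [h]
    exact neg_add_cancel x
  calc x = algebraMap S Ω (algebraMap ℂ S (1 / 2)) * 2 * x := by rw [h2, one_mul]
    _ = 0 := by rw [mul_assoc, h3, mul_zero]

theorem d_one : T.d 1 = 0 := by
  simpa using T.dc 1

theorem D1_one : T.D1 1 = 0 := by
  simp [D1, T.d_one]

theorem D1_zero : T.D1 0 = 0 := by
  simp [D1]

theorem D1_neg (f : S) : T.D1 (-f) = -T.D1 f := by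
  simp [D1]

theorem D1_sub (f g : S) : T.D1 (f - g) = T.D1 f - T.D1 g := by
  simp [D1]

theorem D1_sum {ι : Type*} (s : Finset ι) (f : ι → S) :
    T.D1 (∑ i ∈ s, f i) = ∑ i ∈ s, T.D1 (f i) := by
  simp [D1]

theorem σ_D1 (f : S) : T.σ (T.D1 f) = -T.D1 f := T.σd f

theorem d_D1 (f : S) : T.d (T.D1 f) = 0 := T.dd f

theorem D1_comm (f : S) (y : Ω) : T.D1 f * y = T.σ y * T.D1 f := T.comm f y

theorem D1_add (f g : S) : T.D1 (f + g) = T.D1 f + T.D1 g := by
  simp [D1]

theorem D1_mul (f g : S) :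
    T.D1 (f * g) = algebraMap S Ω g * T.D1 f + algebraMap S Ω f * T.D1 g := by
  unfold D1
  rw [map_mul, T.leib, AlgHom.commutes, Algebra.commutes g]

theorem D1_anti (f g : S) : T.D1 f * T.D1 g = -(T.D1 g * T.D1 f) := by
  rw [T.D1_comm f, T.σ_D1, neg_mul]

theorem D1_sq (f : S) : T.D1 f * T.D1 f = 0 :=
  T.eq_zero_of_eq_neg (T.D1_anti f f)

theorem Ev_le_center : T.Ev ≤ Subring.center Ω := by
  apply Subring.closure_le.2
  rintro x (⟨f, rfl⟩ | ⟨f, g, rfl⟩)
  · exact Subring.mem_center_iff.2 fun y => (Algebra.commutes f y).symm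
  · refine Subring.mem_center_iff.2 fun y => ?_
    rw [mul_assoc (T.D1 f), T.D1_comm g y, ← mul_assoc (T.D1 f), T.D1_comm f (T.σ y), T.σσ,
      mul_assoc]

theorem σ_of_mem_Ev {x : Ω} (h : x ∈ T.Ev) : T.σ x = x := by
  induction h using Subring.closure_induction with
  | mem x hx =>
    rcases hx with ⟨f, rfl⟩ | ⟨f, g, rfl⟩
    · exact T.σ.commutes f
    · rw [map_mul, T.σ_D1, T.σ_D1, neg_mul_neg]
  | zero => exact map_zero _
  | one => exact map_one _
  | add x y _ _ hx hy => rw [map_add, hx, hy]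
  | neg x _ hx => rw [map_neg, hx]
  | mul x y _ _ hx hy => rw [map_mul, hx, hy]

/-- The one-forms generated by the functions. -/
def O1 : Submodule S Ω := Submodule.span S (Set.range T.D1)

theorem D1_mem (f : S) : T.D1 f ∈ T.O1 := Submodule.subset_span ⟨f, rfl⟩

theorem alg_mul_mem (f : S) {x : Ω} (h : x ∈ T.O1) : algebraMap S Ω f * x ∈ T.O1 := by
  rw [← Algebra.smul_def]
  exact T.O1.smul_mem f h

theorem mul_alg_mem (f : S) {x : Ω} (h : x ∈ T.O1) : x * algebraMap S Ω f ∈ T.O1 := by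
  rw [← Algebra.commutes]
  exact T.alg_mul_mem f h

theorem alg_mem_Ev (f : S) : algebraMap S Ω f ∈ T.Ev :=
  Subring.subset_closure (Or.inl ⟨f, rfl⟩)

theorem O1_comm {x : Ω} (h : x ∈ T.O1) (y : Ω) : x * y = T.σ y * x := by
  induction h using Submodule.span_induction with
  | mem x hx =>
    obtain ⟨f, rfl⟩ := hx
    exact T.D1_comm f y
  | zero => simp
  | add a b _ _ ha hb => rw [add_mul, mul_add, ha, hb]
  | smul c a _ ha => rw [smul_mul_assoc, mul_smul_comm, ha]

theorem O1_σ {x : Ω} (h : x ∈ T.O1) : T.σ x = -x := by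
  induction h using Submodule.span_induction with
  | mem x hx =>
    obtain ⟨f, rfl⟩ := hx
    exact T.σ_D1 f
  | zero => simp
  | add a b _ _ ha hb => rw [map_add, ha, hb, neg_add]
  | smul c a _ ha => rw [map_smul, ha, smul_neg]

theorem O1_anti {x y : Ω} (hx : x ∈ T.O1) (hy : y ∈ T.O1) : x * y = -(y * x) := by
  rw [T.O1_comm hx, T.O1_σ hy, neg_mul]

theorem O1_sq {x : Ω} (hx : x ∈ T.O1) : x * x = 0 :=
  T.eq_zero_of_eq_neg (T.O1_anti hx hx)

theorem O1_mul_mem {x y : Ω} (hx : x ∈ T.O1) (hy : y ∈ T.O1) : x * y ∈ T.Ev := by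
  induction hx using Submodule.span_induction with
  | mem x hx =>
    obtain ⟨f, rfl⟩ := hx
    induction hy using Submodule.span_induction with
    | mem y hy =>
      obtain ⟨g, rfl⟩ := hy
      exact Subring.subset_closure (Or.inr ⟨f, g, rfl⟩)
    | zero => simp
    | add a b _ _ ha hb => rw [mul_add]; exact T.Ev.add_mem ha hb
    | smul c a _ ha =>
      rw [mul_smul_comm, Algebra.smul_def]
      exact T.Ev.mul_mem (T.alg_mem_Ev c) ha
  | zero => simp
  | add a b _ _ ha hb => rw [add_mul]; exact T.Ev.add_mem ha hb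
  | smul c a _ ha =>
    rw [smul_mul_assoc, Algebra.smul_def]
    exact T.Ev.mul_mem (T.alg_mem_Ev c) ha

theorem ν_mem (l : Sˣ) : T.ν l ∈ T.O1 := T.alg_mul_mem _ (T.D1_mem _)

theorem θ_mem (B : (Matrix P P S)ˣ) (p q : P) : T.θ B p q ∈ T.O1 := by
  unfold θ
  rw [Matrix.mul_apply]
  exact T.O1.sum_mem fun r _ => T.alg_mul_mem _ (T.D1_mem _)

theorem map_d_mul (X Y : Matrix P P Ω) :
    (X * Y).map T.d = X.map T.d * Y + X.map T.σ * Y.map T.d := by
  ext p q
  simp [Matrix.mul_apply, T.leib, Finset.sum_add_distrib]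

theorem map_σ_mul (X Y : Matrix P P Ω) : (X * Y).map T.σ = X.map T.σ * Y.map T.σ := by
  ext p q
  simp [Matrix.mul_apply]

omit [Fintype P] [DecidableEq P] in
theorem map_σ_alg (X : Matrix P P S) :
    (X.map (algebraMap S Ω)).map T.σ = X.map (algebraMap S Ω) := by
  ext p q
  simp

omit [Fintype P] [DecidableEq P] in
theorem map_d_alg (X : Matrix P P S) : (X.map (algebraMap S Ω)).map T.d = X.map T.D1 := rfl

omit [Algebra ℂ S] in
theorem map_alg_mul (X Y : Matrix P P S) :
    (X * Y).map (algebraMap S Ω) = X.map (algebraMap S Ω) * Y.map (algebraMap S Ω) :=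
  Matrix.map_mul

theorem map_D1_mul (X Y : Matrix P P S) :
    (X * Y).map T.D1 = X.map T.D1 * Y.map (algebraMap S Ω) +
      X.map (algebraMap S Ω) * Y.map T.D1 := by
  rw [← T.map_d_alg, map_alg_mul, T.map_d_mul, T.map_σ_alg, T.map_d_alg, T.map_d_alg]

omit [Fintype P] in
theorem map_D1_one : (1 : Matrix P P S).map T.D1 = 0 := by
  ext p q
  by_cases h : p = q <;> simp [Matrix.one_apply, h, T.D1_one, T.D1_zero]

omit [DecidableEq P] in
theorem trace_O1_mul {X : Matrix P P Ω} (h : ∀ p q, X p q ∈ T.O1) (Y : Matrix P P Ω) :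
    (X * Y).trace = (Y.map T.σ * X).trace := by
  simp only [Matrix.trace, Matrix.diag_apply, Matrix.mul_apply, Matrix.map_apply]
  rw [Finset.sum_comm]
  exact Finset.sum_congr rfl fun p _ => Finset.sum_congr rfl fun q _ => T.O1_comm (h _ _) _

omit [Algebra ℂ S] in
theorem inv_mul_alg (B : (Matrix P P S)ˣ) :
    (B⁻¹ : (Matrix P P S)ˣ).val.map (algebraMap S Ω) * B.val.map (algebraMap S Ω) = 1 := by
  rw [← map_alg_mul, Units.inv_mul, Matrix.map_one _ (map_zero _) (map_one _)]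

omit [Algebra ℂ S] in
theorem mul_inv_alg (B : (Matrix P P S)ˣ) :
    B.val.map (algebraMap S Ω) * (B⁻¹ : (Matrix P P S)ˣ).val.map (algebraMap S Ω) = 1 := by
  rw [← map_alg_mul, Units.mul_inv, Matrix.map_one _ (map_zero _) (map_one _)]

theorem map_σ_θ (B : (Matrix P P S)ˣ) : (T.θ B).map T.σ = -T.θ B := by
  ext p q
  exact T.O1_σ (T.θ_mem B p q)

theorem map_d_θ (B : (Matrix P P S)ˣ) : (T.θ B).map T.d = -(T.θ B * T.θ B) := by
  have h1 := T.map_D1_mul (B⁻¹ : (Matrix P P S)ˣ).val B.val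
  rw [Units.inv_mul, T.map_D1_one] at h1
  have h2 : (B⁻¹ : (Matrix P P S)ˣ).val.map T.D1 =
      -(T.θ B * (B⁻¹ : (Matrix P P S)ˣ).val.map (algebraMap S Ω)) := by
    have h3 : (B⁻¹ : (Matrix P P S)ˣ).val.map T.D1 * B.val.map (algebraMap S Ω) = -T.θ B :=
      eq_neg_of_add_eq_zero_left h1.symm
    rw [← neg_mul, ← h3, mul_assoc, mul_inv_alg, mul_one]
  have h4 : (B.val.map T.D1).map T.d = 0 := by
    ext p q
    exact T.d_D1 _
  conv_lhs => unfold θ
  rw [T.map_d_mul, T.map_d_alg, h4, mul_zero, add_zero, h2, neg_mul, mul_assoc]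
  rfl

theorem θ_even (B : (Matrix P P S)ˣ) (i : ℕ) :
    (T.θ B ^ (2 * i)).map T.d = 0 ∧ (T.θ B ^ (2 * i)).map T.σ = T.θ B ^ (2 * i) ∧
      ∀ p q, (T.θ B ^ (2 * i)) p q ∈ T.Ev := by
  induction i with
  | zero =>
    refine ⟨?_, ?_, fun p q => ?_⟩
    · ext p q
      by_cases h : p = q <;> simp [Matrix.one_apply, h, T.d_one]
    · simp
    · by_cases h : p = q <;> simp [Matrix.one_apply, h]
  | succ i ih =>
    obtain ⟨h1, h2, h3⟩ := ih
    have e : T.θ B ^ (2 * (i + 1)) = T.θ B * T.θ B * T.θ B ^ (2 * i) := by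
      rw [← pow_two, ← pow_add]
      congr 1
      ring
    rw [e]
    refine ⟨?_, ?_, fun p q => ?_⟩
    · rw [T.map_d_mul, h1, T.map_d_mul, T.map_d_θ, T.map_σ_θ]
      simp [mul_assoc]
    · rw [T.map_σ_mul, T.map_σ_mul, h2, T.map_σ_θ, neg_mul_neg]
    · rw [Matrix.mul_apply]
      refine T.Ev.sum_mem fun r _ => T.Ev.mul_mem ?_ (h3 _ _)
      rw [Matrix.mul_apply]
      exact T.Ev.sum_mem fun s _ => T.O1_mul_mem (T.θ_mem _ _ _) (T.θ_mem _ _ _)

theorem d_D1_mul_D1 (f g : S) : T.d (T.D1 f * T.D1 g) = 0 := by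
  rw [T.leib, T.d_D1, T.d_D1, zero_mul, mul_zero, add_zero]

theorem d_ν (l : Sˣ) : T.d (T.ν l) = 0 := by
  have h1 := T.D1_mul (l⁻¹ : Sˣ) l
  rw [Units.inv_mul, T.D1_one] at h1
  have h2 : algebraMap S Ω l * T.D1 (l⁻¹ : Sˣ) = -T.ν l := eq_neg_of_add_eq_zero_left h1.symm
  have h3 : T.D1 (l⁻¹ : Sˣ) = -(algebraMap S Ω (l⁻¹ : Sˣ) * T.ν l) := by
    rw [← mul_neg, ← h2, ← mul_assoc, ← map_mul, Units.inv_mul, map_one, one_mul]
  have h4 : T.d (T.ν l) = T.D1 (l⁻¹ : Sˣ) * T.D1 l := by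
    conv_lhs => unfold ν
    rw [T.leib, T.d_D1, mul_zero, add_zero]
    rfl
  rw [h4, h3]
  unfold ν
  simp [mul_assoc, T.D1_sq]

theorem σ_ν (l : Sˣ) : T.σ (T.ν l) = -T.ν l := T.O1_σ (T.ν_mem l)

theorem ν_mul_ν_mem (l l' : Sˣ) : T.ν l * T.ν l' ∈ T.Ev := T.O1_mul_mem (T.ν_mem l) (T.ν_mem l')

theorem ν_anti (l l' : Sˣ) : T.ν l * T.ν l' = -(T.ν l' * T.ν l) :=
  T.O1_anti (T.ν_mem l) (T.ν_mem l')

theorem ν_sq (l : Sˣ) : T.ν l * T.ν l = 0 := T.O1_sq (T.ν_mem l)

theorem d_om (i : ℕ) (B : (Matrix P P S)ˣ) : T.d (T.om i B) = 0 := by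
  obtain ⟨h1, h2, -⟩ := T.θ_even B i
  have e : T.d (T.om i B) = ((T.θ B ^ (2 * i + 1)).map T.d).trace := by
    simp [om, Matrix.trace]
  rw [e, pow_succ', T.map_d_mul, h1, mul_zero, add_zero, T.map_d_θ, neg_mul, Matrix.trace_neg,
    neg_eq_zero]
  apply T.eq_zero_of_eq_neg
  conv_lhs => rw [mul_assoc, T.trace_O1_mul (T.θ_mem B), T.map_σ_mul, h2, T.map_σ_θ, neg_mul,
    neg_mul, Matrix.trace_neg, mul_assoc, ← pow_succ, pow_succ', ← mul_assoc]

theorem ν_mul_om_mem (l : Sˣ) (i : ℕ) (B : (Matrix P P S)ˣ) : T.ν l * T.om i B ∈ T.Ev := by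
  obtain ⟨-, -, h3⟩ := T.θ_even B i
  unfold om
  rw [pow_succ']
  simp only [Matrix.trace, Matrix.diag_apply, Matrix.mul_apply, Finset.mul_sum, ← mul_assoc]
  exact T.Ev.sum_mem fun p _ => T.Ev.sum_mem fun q _ =>
    T.Ev.mul_mem (T.O1_mul_mem (T.ν_mem l) (T.θ_mem _ _ _)) (h3 _ _)

theorem om_const_mul (i : ℕ) (C B : (Matrix P P S)ˣ) (h : ∀ p q, T.D1 (C.val p q) = 0) :
    T.om i (C * B) = T.om i B := by
  have h0 : C.val.map T.D1 = 0 := by
    ext p q
    exact h p q
  have : T.θ (C * B) = T.θ B := by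
    unfold θ
    rw [_root_.mul_inv_rev, Units.val_mul, Units.val_mul, T.map_D1_mul, h0, zero_mul, zero_add,
      map_alg_mul, mul_assoc, ← mul_assoc (Matrix.map _ _) (Matrix.map C.val _), inv_mul_alg,
      one_mul]
  unfold om
  rw [this]

theorem om_blocks (i : ℕ) (a : (Matrix P P S)ˣ) (b : (Matrix Q Q S)ˣ)
    (B : (Matrix (P ⊕ Q) (P ⊕ Q) S)ˣ) (h : B.val = fromBlocks a.val 0 0 b.val) :
    T.om i B = T.om i a + T.om i b := by
  have h1 : (B⁻¹ : (Matrix (P ⊕ Q) (P ⊕ Q) S)ˣ).val =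
      fromBlocks (a⁻¹ : (Matrix P P S)ˣ).val 0 0 (b⁻¹ : (Matrix Q Q S)ˣ).val := by
    apply Units.inv_eq_of_mul_eq_one_right
    rw [h, fromBlocks_multiply]
    simp
  have h2 : T.θ B = fromBlocks (T.θ a) 0 0 (T.θ b) := by
    unfold θ
    rw [h1, h, fromBlocks_map, fromBlocks_map, fromBlocks_multiply,
      Matrix.map_zero _ (map_zero _), Matrix.map_zero _ (map_zero _),
      Matrix.map_zero _ T.D1_zero, Matrix.map_zero _ T.D1_zero]
    simp
  unfold om
  rw [h2, fromBlocks_diagonal_pow]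
  simp [Matrix.trace]

theorem om_map (f : S →+* S) (F : Ω →+* Ω) (h : ∀ x, F (algebraMap S Ω x) = algebraMap S Ω (f x))
    (h' : ∀ x, F (T.D1 x) = T.D1 (f x)) (i : ℕ) (B : (Matrix P P S)ˣ) :
    F (T.om i B) = T.om i (mapU f B) := by
  have h1 : F.mapMatrix (T.θ B) = T.θ (mapU f B) := by
    unfold θ
    rw [map_mul, ← map_inv]
    congr 1
    · ext p q
      exact h _
    · ext p q
      exact h' _
  unfold om
  rw [← h1, ← map_pow]
  simp [Matrix.trace]

theorem om_ev {Λ : Type*} [Ring Λ] (F : Ω →+* Λ) (i : ℕ) (B : (Matrix P P S)ˣ)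
    (h : ∀ p q, F (T.D1 (B.val p q)) = 0) : F (T.om i B) = 0 := by
  have h0 : F.mapMatrix (B.val.map T.D1) = 0 := by
    ext p q
    exact h p q
  have h1 : F.mapMatrix (T.θ B) = 0 := by
    unfold θ
    rw [map_mul, h0, mul_zero]
  have h2 : F (T.om i B) = (F.mapMatrix (T.θ B ^ (2 * i + 1))).trace := by
    simp [om, Matrix.trace]
  rw [h2, map_pow, h1, pow_succ, mul_zero, Matrix.trace_zero]

omit [DecidableEq P] in
theorem vv_mul {R : Type*} [Ring R] (u x y z : P → R) :
    vecMulVec u x * vecMulVec y z = vecMulVec u (fun q => (∑ p, x p * y p) * z q) := by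
  ext p q
  simp [Matrix.mul_apply, vecMulVec_apply, Finset.sum_mul, Finset.mul_sum, mul_assoc]

theorem p_dp_dp (v w : P → S) (h : w ⬝ᵥ v = 1) :
    (vecMulVec v w).map (algebraMap S Ω) * (vecMulVec v w).map T.D1 * (vecMulVec v w).map T.D1 =
      scalar P (∑ p, T.D1 (w p) * T.D1 (v p)) * (vecMulVec v w).map (algebraMap S Ω) := by
  set V : P → Ω := fun p => algebraMap S Ω (v p) with hV
  set W : P → Ω := fun p => algebraMap S Ω (w p) with hW
  set dV : P → Ω := fun p => T.D1 (v p) with hdV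
  set dW : P → Ω := fun p => T.D1 (w p) with hdW
  have e1 : (vecMulVec v w).map (algebraMap S Ω) = vecMulVec V W := by
    ext p q
    simp [vecMulVec_apply, hV, hW]
  have e2 : (vecMulVec v w).map T.D1 = vecMulVec dV W + vecMulVec V dW := by
    ext p q
    simp only [Matrix.map_apply, vecMulVec_apply, Matrix.add_apply, hV, hW, hdV, hdW, T.D1_mul]
    rw [Algebra.commutes]
  have h1 : ∑ p, W p * V p = 1 := by
    simp only [hV, hW, ← map_mul, ← map_sum]
    rw [show ∑ p, w p * v p = 1 from h, map_one]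
  set η : Ω := ∑ p, W p * dV p with hη
  set F : Ω := ∑ p, dW p * dV p with hF
  have hη1 : η ∈ T.O1 := T.O1.sum_mem fun p _ => T.alg_mul_mem _ (T.D1_mem _)
  have h2 : ∑ p, dW p * V p = -η := by
    have := T.D1_sum Finset.univ fun p => w p * v p
    rw [show ∑ p, w p * v p = 1 from h, T.D1_one] at this
    apply eq_neg_of_add_eq_zero_left
    rw [hη, ← Finset.sum_add_distrib, this]
    refine Finset.sum_congr rfl fun p _ => ?_
    rw [T.D1_mul, Algebra.commutes (v p)]
  have hFc : ∀ y, y * F = F * y := fun y =>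
    Subring.mem_center_iff.1 (T.Ev_le_center (T.Ev.sum_mem fun p _ =>
      T.O1_mul_mem (T.D1_mem _) (T.D1_mem _))) y
  have h3 : ∑ p, η * W p * dV p = 0 := by
    simp only [mul_assoc, ← Finset.mul_sum]
    exact T.O1_sq hη1
  have h4 : ∑ p, η * W p * V p = η := by
    simp only [mul_assoc, ← Finset.mul_sum]
    rw [h1, mul_one]
  rw [e1, e2]
  simp only [mul_add, add_mul, vv_mul, ← hη, ← hF, h1, h2, h3, h4, one_mul]
  ext p q
  simp only [Matrix.add_apply, vecMulVec_apply, scalar_apply, diagonal_mul]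
  rw [← mul_assoc F, ← hFc (V p)]
  noncomm_ring

theorem trace_vv (v w : P → S) (h : w ⬝ᵥ v = 1) :
    ((vecMulVec v w).map (algebraMap S Ω)).trace = 1 := by
  have : ((vecMulVec v w).map (algebraMap S Ω)).trace = algebraMap S Ω (w ⬝ᵥ v) := by
    simp [Matrix.trace, vecMulVec_apply, dotProduct, mul_comm]
  rw [this, h, map_one]

theorem trace_scalar_mul {R : Type*} [Ring R] (c : R) (X : Matrix P P R) :
    (scalar P c * X).trace = c * X.trace := by
  simp [Matrix.trace, Finset.mul_sum]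

theorem sum_D1_eq_trace (v w : P → S) (h : w ⬝ᵥ v = 1) :
    ∑ p, T.D1 (w p) * T.D1 (v p) = ((vecMulVec v w).map (algebraMap S Ω) *
      (vecMulVec v w).map T.D1 * (vecMulVec v w).map T.D1).trace := by
  rw [T.p_dp_dp v w h, trace_scalar_mul, trace_vv v w h, mul_one]

theorem abs_pow {R : Type*} [Ring R] (N p X Y c : R) (hNN : N * N = 0) (hpN : p * N = N * p)
    (hXN : X * N = -(N * X)) (hYN : Y * N = -(N * Y)) (hpp : p * p = p) (hpX : p * X = X)
    (hXp : X * p = 0) (hpY : p * Y = 0) (hYp : Y * p = Y) (hXY : X * Y = c * p)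
    (hc : ∀ y, y * c = c * y) (i : ℕ) :
    (N * p + X + Y) ^ (2 * (i + 1) + 1) =
      c ^ (i + 1) * (N * p + X + Y) + (i + 1) • (c ^ i * (N * (X * Y - Y * X))) := by
  have hXX : X * X = 0 := by
    nth_rewrite 2 [← hpX]
    rw [← mul_assoc, hXp, zero_mul]
  have hYY : Y * Y = 0 := by
    nth_rewrite 1 [← hYp]
    rw [mul_assoc, hpY, mul_zero]
  have a1 : ∀ t, N * (N * t) = 0 := fun t => by rw [← mul_assoc, hNN, zero_mul]
  have a2 : ∀ t, p * (N * t) = N * (p * t) := fun t => by rw [← mul_assoc, hpN, mul_assoc]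
  have a3 : ∀ t, X * (N * t) = -(N * (X * t)) := fun t => by
    rw [← mul_assoc, hXN, neg_mul, mul_assoc]
  have a4 : ∀ t, Y * (N * t) = -(N * (Y * t)) := fun t => by
    rw [← mul_assoc, hYN, neg_mul, mul_assoc]
  have a5 : ∀ t, p * (p * t) = p * t := fun t => by rw [← mul_assoc, hpp]
  have a6 : ∀ t, p * (X * t) = X * t := fun t => by rw [← mul_assoc, hpX]
  have a7 : ∀ t, X * (p * t) = 0 := fun t => by rw [← mul_assoc, hXp, zero_mul]
  have a8 : ∀ t, p * (Y * t) = 0 := fun t => by rw [← mul_assoc, hpY, zero_mul]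
  have a9 : ∀ t, Y * (p * t) = Y * t := fun t => by rw [← mul_assoc, hYp]
  have b1 : ∀ t, X * (Y * t) = c * (p * t) := fun t => by rw [← mul_assoc, hXY, mul_assoc]
  have b2 : ∀ t, X * (X * t) = 0 := fun t => by rw [← mul_assoc, hXX, zero_mul]
  have b3 : ∀ t, Y * (Y * t) = 0 := fun t => by rw [← mul_assoc, hYY, zero_mul]
  have c1 : ∀ t, N * (c * t) = c * (N * t) := fun t => by rw [← mul_assoc, hc, mul_assoc]
  have c2 : ∀ t, p * (c * t) = c * (p * t) := fun t => by rw [← mul_assoc, hc, mul_assoc]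
  have c3 : ∀ t, X * (c * t) = c * (X * t) := fun t => by rw [← mul_assoc, hc, mul_assoc]
  have c4 : ∀ t, Y * (c * t) = c * (Y * t) := fun t => by rw [← mul_assoc, hc, mul_assoc]
  set θ := N * p + X + Y with hθ
  set Z := N * (X * Y - Y * X) with hZ
  have k1 : θ * (θ * θ) = c * θ + Z := by
    simp only [hθ, hZ, mul_add, add_mul, mul_sub, mul_assoc, mul_neg, a1, a2, a3, a4, a5, a6, a7,
      a8, a9, b1, b2, b3, c1, c2, c3, c4, hXX, hYY, hpp, hpX, hXp, hpY, hYp, hXY, mul_zero]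
    abel
  have k2 : θ * (θ * Z) = c * Z := by
    simp only [hθ, hZ, mul_add, add_mul, mul_sub, mul_assoc, mul_neg, a1, a2, a3, a4, a5, a6, a7,
      a8, a9, b1, b2, b3, c1, c2, c3, c4, hXX, hYY, hpp, hpX, hXp, hpY, hYp, hXY, mul_zero]
    abel
  have k3 : ∀ (n : ℕ) t, θ * (c ^ n * t) = c ^ n * (θ * t) := fun n t => by
    rw [← mul_assoc, (Commute.pow_right (hc θ) n).eq, mul_assoc]
  induction i with
  | zero => simp [pow_succ, mul_assoc, k1]
  | succ i ih =>
    have e : θ ^ (2 * (i + 1 + 1) + 1) = θ * (θ * θ ^ (2 * (i + 1) + 1)) := by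
      rw [← pow_succ', ← pow_succ']
      congr 1
    rw [e, ih]
    simp only [mul_add, mul_smul_comm, k3, k1, k2]
    simp only [← mul_assoc, ← pow_succ, add_smul, one_smul]
    abel

theorem om_rank_one (i : ℕ) (v w : P → S) (h : w ⬝ᵥ v = 1) (l : Sˣ) (B : (Matrix P P S)ˣ)
    (hB : B.val = 1 + ((l : S) - 1) • vecMulVec v w) :
    T.om i B = (2 * i + 1) • (T.ν l * (algebraMap S Ω (((l : S) - 1) ^ 2 * (l⁻¹ : Sˣ)) *
      ∑ p, T.D1 (w p) * T.D1 (v p)) ^ i) := by
  set p0 : Matrix P P S := vecMulVec v w with hp0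
  set p : Matrix P P Ω := p0.map (algebraMap S Ω) with hp
  set dp : Matrix P P Ω := p0.map T.D1 with hdp
  set F : Ω := ∑ p, T.D1 (w p) * T.D1 (v p) with hF
  set m : S := (l⁻¹ : Sˣ).val with hm
  have hlm : (l : S) * m = 1 := Units.mul_inv l
  have hp00 : p0 * p0 = p0 := by
    rw [hp0, vv_mul, show ∑ p, w p * v p = 1 from h]
    simp
  have hpp : p * p = p := by rw [hp, ← map_alg_mul, hp00]
  have hd : dp = dp * p + p * dp := by
    conv_lhs => rw [hdp, ← hp00, T.map_D1_mul]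
  have hpdp : p * dp * p = 0 := by
    have : p * dp = p * dp * p + p * dp := by
      conv_lhs => rw [hd, mul_add, ← mul_assoc, ← mul_assoc, hpp]
    simpa using this
  have hF1 : p * dp * dp = scalar P F * p := T.p_dp_dp v w h
  have hFc : ∀ y, y * F = F * y := fun y =>
    Subring.mem_center_iff.1 (T.Ev_le_center (T.Ev.sum_mem fun p _ =>
      T.O1_mul_mem (T.D1_mem _) (T.D1_mem _))) y
  have hinv : (B⁻¹ : (Matrix P P S)ˣ).val = 1 + (m - 1) • p0 := by
    apply Units.inv_eq_of_mul_eq_one_right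
    rw [hB]
    simp only [mul_add, add_mul, one_mul, mul_one, smul_mul_assoc, mul_smul_comm, hp00, smul_smul,
      smul_add, add_assoc, ← add_smul]
    rw [show (l : S) - 1 + (m - 1 + (m - 1) * ((l : S) - 1)) = 0 by linear_combination hlm]
    simp
  have e1 : (B⁻¹ : (Matrix P P S)ˣ).val.map (algebraMap S Ω) = 1 + (m - 1) • p := by
    rw [hinv]
    ext a b
    simp only [Matrix.map_apply, Matrix.add_apply, Matrix.smul_apply, smul_eq_mul, map_add,
      map_mul, hp]
    rw [Algebra.smul_def, Matrix.one_apply, Matrix.one_apply]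
    by_cases hab : a = b <;> simp [hab]
  have e2 : B.val.map T.D1 = scalar P (T.D1 l) * p + ((l : S) - 1) • dp := by
    rw [hB]
    ext a b
    have : T.D1 ((1 : Matrix P P S) a b) = 0 := congrFun (congrFun T.map_D1_one a) b
    simp only [Matrix.map_apply, Matrix.add_apply, Matrix.smul_apply, smul_eq_mul, T.D1_add, this,
      T.D1_mul, T.D1_sub, T.D1_one, scalar_apply, diagonal_mul, hp, hdp,
      zero_add, sub_zero]
    rw [Algebra.commutes, Algebra.smul_def]
  have hsc : ∀ x : Ω, p * scalar P x = scalar P x * p := fun x => by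
    ext a b
    simp [hp, Algebra.commutes]
  have hsd : ∀ x ∈ T.O1, dp * scalar P x = -(scalar P x * dp) := fun x hx => by
    ext a b
    simp only [scalar_apply, diagonal_mul, mul_diagonal, Matrix.neg_apply]
    exact T.O1_anti (T.D1_mem _) hx
  set N : Matrix P P Ω := scalar P (T.ν l) with hN
  set X : Matrix P P Ω := (((l : S) - 1) * m) • (p * dp) with hX
  set Y : Matrix P P Ω := ((l : S) - 1) • (dp * p) with hY
  set c : Ω := algebraMap S Ω (((l : S) - 1) ^ 2 * m) * F with hc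
  have hcc : ∀ y, y * c = c * y := fun y => by
    rw [hc, ← mul_assoc, ← Algebra.commutes, mul_assoc, hFc, mul_assoc]
  have hNm : N = m • scalar P (T.D1 l) := by
    ext a b
    by_cases hab : a = b <;> simp [hN, hab, ν, hm, Algebra.smul_def]
  have hθ : T.θ B = N * p + X + Y := by
    unfold θ
    rw [e1, e2, hNm, hX, hY]
    have hd' : dp * p = dp - p * dp := eq_sub_of_add_eq hd.symm
    rw [hd']
    simp only [mul_add, add_mul, one_mul, smul_mul_assoc, mul_smul_comm, ← mul_assoc, hsc,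
      mul_assoc _ p p, hpp]
    module
  have hpN : p * N = N * p := hsc _
  have hdN : dp * N = -(N * dp) := hsd _ (T.ν_mem l)
  have hXY : X * Y = scalar P c * p := by
    rw [hX, hY, smul_mul_assoc, mul_smul_comm, smul_smul, ← mul_assoc, hF1, mul_assoc _ p p, hpp,
      ← smul_mul_assoc]
    congr 1
    ext a b
    by_cases hab : a = b
    · simp only [hab, Matrix.smul_apply, scalar_apply, diagonal_apply_eq, hc]
      rw [Algebra.smul_def]
      congr 2
      ring
    · simp [hab]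
  have hYO : ∀ a b, Y a b ∈ T.O1 := fun a b => by
    rw [hY, Matrix.smul_apply, Matrix.mul_apply]
    exact T.O1.smul_mem _ (T.O1.sum_mem fun r _ => T.mul_alg_mem _ (T.D1_mem _))
  have hXO : ∀ a b, X a b ∈ T.O1 := fun a b => by
    rw [hX, Matrix.smul_apply, Matrix.mul_apply]
    exact T.O1.smul_mem _ (T.O1.sum_mem fun r _ => T.alg_mul_mem _ (T.D1_mem _))
  have hσp : p.map T.σ = p := T.map_σ_alg p0
  have hpX : p * X = X := by rw [hX, mul_smul_comm, ← mul_assoc, hpp]
  have hXp : X * p = 0 := by rw [hX, smul_mul_assoc, hpdp, smul_zero]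
  have hpY : p * Y = 0 := by rw [hY, mul_smul_comm, ← mul_assoc, hpdp, smul_zero]
  have hYp : Y * p = Y := by rw [hY, smul_mul_assoc, mul_assoc, hpp]
  have tX : X.trace = 0 := by
    have := T.trace_O1_mul hXO p
    rw [hσp, hpX, hXp, Matrix.trace_zero] at this
    exact this.symm
  have tY : Y.trace = 0 := by
    have := T.trace_O1_mul hYO p
    rwa [hσp, hpY, hYp, Matrix.trace_zero] at this
  have tp : p.trace = 1 := trace_vv v w h
  have tθ : (N * p + X + Y).trace = T.ν l := by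
    rw [Matrix.trace_add, Matrix.trace_add, tX, tY, hN, trace_scalar_mul, tp]
    simp
  have tXY : (X * Y).trace = c := by rw [hXY, trace_scalar_mul, tp, mul_one]
  have tYX : (Y * X).trace = -c := by
    have h5 : X.map T.σ = -X := by
      ext a b
      exact T.O1_σ (hXO a b)
    rw [T.trace_O1_mul hYO, h5, neg_mul, Matrix.trace_neg, tXY]
  unfold om
  rw [hθ]
  rcases i with _ | i
  · simp [tθ]
  · rw [abs_pow N p X Y (scalar P c) (by rw [hN, ← map_mul, T.ν_sq, map_zero]) hpN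
      (by rw [hX, smul_mul_assoc, mul_smul_comm, mul_assoc, hdN, mul_neg, ← mul_assoc, hpN,
        mul_assoc, smul_neg])
      (by rw [hY, smul_mul_assoc, mul_smul_comm, mul_assoc, hpN, ← mul_assoc, hdN, neg_mul,
        mul_assoc, smul_neg])
      hpp hpX hXp hpY hYp hXY (fun y => by
        ext a b
        simp [hcc]) i]
    rw [Matrix.trace_add, Matrix.trace_smul, ← map_pow, ← map_pow, trace_scalar_mul,
      trace_scalar_mul, tθ, hN, trace_scalar_mul, Matrix.trace_sub, tXY, tYX,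
      (Commute.pow_right (hcc (T.ν l)) (i + 1)).eq, sub_neg_eq_add, mul_add, hcc (T.ν l),
      mul_add, ← mul_assoc, ← pow_succ]
    module

end SD

/-- Determinant expansion of a product of paired odd elements. -/
theorem prod_alt {R K : Type*} [CommRing R] [Fintype K] [DecidableEq K] (u : K → K → R)
    (h1 : ∀ s s' c c', u s c * u s' c' = -(u s c' * u s' c)) (h2 : ∀ s s' c, u s c * u s' c = 0)
    (M : Matrix K K R) : ∏ s, ∑ c, M s c * u s c = M.det * ∏ s, u s s := by
  have two : ∀ (g : K → R) (s s' : K), s ≠ s' →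
      ∏ x, g x = g s * g s' * ∏ x ∈ (Finset.univ.erase s).erase s', g x := by
    intro g s s' hs
    rw [mul_assoc, Finset.mul_prod_erase _ g (Finset.mem_erase.2 ⟨hs.symm, Finset.mem_univ _⟩),
      Finset.mul_prod_erase _ g (Finset.mem_univ _)]
  have hperm : ∀ σ : Equiv.Perm K,
      ∏ s, u s (σ s) = ((Equiv.Perm.sign σ : ℤ) : R) * ∏ s, u s s := by
    intro σ
    induction σ using Equiv.Perm.swap_induction_on' with
    | one => simp
    | mul_swap σ s s' hs ih =>
      have e : ∏ x, u x ((σ * Equiv.swap s s') x) = -∏ x, u x (σ x) := by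
        rw [two _ s s' hs, two (fun x => u x (σ x)) s s' hs, h1, ← neg_mul]
        have e2 : ∏ x ∈ (Finset.univ.erase s).erase s', u x ((σ * Equiv.swap s s') x) =
            ∏ x ∈ (Finset.univ.erase s).erase s', u x (σ x) := by
          refine Finset.prod_congr rfl fun x hx => ?_
          have hx' : x ≠ s' ∧ x ≠ s := by simpa using hx
          simp [Equiv.swap_apply_of_ne_of_ne hx'.2 hx'.1]
        rw [e2]
        simp
      rw [e, ih]
      simp [Equiv.Perm.sign_swap hs]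
  rw [Finset.prod_univ_sum, Fintype.piFinset_univ, ← Matrix.det_transpose, Matrix.det_apply',
    Finset.sum_mul]
  symm
  refine Finset.sum_bij_ne_zero (fun σ _ _ => (σ : K → K)) (fun _ _ _ => Finset.mem_univ _)
    (fun σ _ _ τ _ _ h => DFunLike.coe_injective h) ?_ ?_
  · intro g _ hg
    have hinj : Function.Injective g := by
      intro s s' hss
      by_contra hs
      apply hg
      rw [Finset.prod_mul_distrib, two (fun x => u x (g x)) s s' hs, hss, h2]
      simp
    let σ := Equiv.ofBijective g (Finite.injective_iff_bijective.1 hinj)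
    refine ⟨σ, Finset.mem_univ _, ?_, rfl⟩
    intro h0
    apply hg
    rw [Finset.prod_mul_distrib, show ∏ x, u x (g x) = ∏ x, u x (σ x) from rfl, hperm, ← h0]
    simp only [Matrix.transpose_apply]
    rw [show ∏ x, M x (g x) = ∏ x, M x (σ x) from rfl]
    ring
  · intro σ _ _
    rw [Finset.prod_mul_distrib, hperm]
    simp only [Matrix.transpose_apply]
    ring

theorem sum_pow_card {R K : Type*} [CommRing R] (s : Finset K) (u : K → R)
    (h : ∀ k, u k * u k = 0) :
    (∑ k ∈ s, u k) ^ s.card = s.card.factorial * ∏ k ∈ s, u k ∧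
      (∑ k ∈ s, u k) ^ (s.card + 1) = 0 := by
  classical
  have key : ∀ (e t : R), e * e = 0 → ∀ m : ℕ,
      (e + t) ^ (m + 1) = t ^ (m + 1) + (m + 1) * e * t ^ m := by
    intro e t he m
    induction m with
    | zero => simp [add_comm]
    | succ m ih =>
      rw [pow_succ, ih]
      push_cast
      linear_combination ((m : R) + 1) * t ^ m * he
  induction s using Finset.induction_on with
  | empty => simp
  | insert k s hk ih =>
    rw [Finset.sum_insert hk, Finset.prod_insert hk, Finset.card_insert_of_notMem hk,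
      key _ _ (h k), key _ _ (h k), pow_succ _ (s.card + 1), ih.2, ih.1, Nat.factorial_succ]
    push_cast
    constructor <;> ring

end Vale.Agent.P174
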