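import Mathlib

/-! P174: combinatorial definitions (words, free reduction, monomial group). -/

namespace Vale.Agent.P174

open Equiv

/-- Letters: group elements and signed unknowns. -/
abbrev Letter (G X : Type*) := G ⊕ X × Bool

section
variable {G X : Type*} [Group G]

/-- Value of a letter in the free product. -/
def lev : Letter G X → Monoid.Coprod G (FreeGroup X)
  | .inl h => Monoid.Coprod.inl h
  | .inr (x, true) => Monoid.Coprod.inr (FreeGroup.of x)
  | .inr (x, false) => (Monoid.Coprod.inr (FreeGroup.of x))⁻¹

/-- Formal inverse of a letter. -/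
def linv : Letter G X → Letter G X
  | .inl h => .inl h⁻¹
  | .inr (x, b) => .inr (x, !b)

/-- Value of a word in the free product. -/
def evalW (W : List (Letter G X)) : Monoid.Coprod G (FreeGroup X) := (W.map lev).prod

/-- Words that freely reduce to an element of `G`. -/
inductive Red : G → List (Letter G X) → Prop
  | nil : Red 1 []
  | grp {g : G} {A : List (Letter G X)} (h : G) : Red g A → Red (g * h) (A ++ [.inl h])
  | can {g : G} {A B : List (Letter G X)} (x : X) (b : Bool) : Red g A → Red 1 B →
      Red g (A ++ .inr (x, b) :: (B ++ [.inr (x, !b)]))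

/-- Number of unknown letters. -/
def nx (W : List (Letter G X)) : ℕ := W.countP Sum.isRight

/-- The exponent sum homomorphism. -/
def expSum [DecidableEq X] : Monoid.Coprod G (FreeGroup X) →* Multiplicative (X → ℤ) :=
  Monoid.Coprod.lift 1 (FreeGroup.lift fun j => Multiplicative.ofAdd (Pi.single j 1))

/-- Weight of a letter. -/
noncomputable def wt : Letter G X → Circle × G
  | .inl h => (1, h⁻¹)
  | .inr _ => 1
end

/-- The monomial group (wreath product). The element `⟨l, s⟩` sends `e p` to `l (s p) • e (s p)`. -/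
abbrev Mon (P Γ : Type*) [Group Γ] := (P → Γ) ⋊[mulAutArrow] Perm P

section
variable {P Γ : Type*} [Group Γ]

/-- Diagonal elements. -/
abbrev dg : (P → Γ) →* Mon P Γ := SemidirectProduct.inl

/-- Permutation elements. -/
abbrev pm : Perm P →* Mon P Γ := SemidirectProduct.inr

theorem mon_mul_left (u v : Mon P Γ) (q : P) :
    (u * v).left q = u.left q * v.left (u.right⁻¹ q) := rfl

theorem mon_inv_left (u : Mon P Γ) (q : P) : u⁻¹.left q = (u.left (u.right q))⁻¹ := rfl

/-- Products of at most `k` conjugates of transpositions. -/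
inductive Tr [DecidableEq P] : ℕ → Mon P Γ → Prop
  | one (k : ℕ) : Tr k 1
  | step {k : ℕ} {u : Mon P Γ} (w : Mon P Γ) {a b : P} : Tr k u → a ≠ b →
      Tr (k + 1) (u * (w * pm (swap a b) * w⁻¹))
end

section
variable {P G X : Type*} [Group G]

/-- `E` is a scalar monomial involution supported on the unknown letters of `L`, matching each
letter with an inverse letter. -/
structure Typed (lab : P → Letter G X) (L : List P) (E : Mon P (Circle × G)) : Prop where
  sq : E * E = 1
  scal : ∀ q, (E.left q).2 = 1
  off : ∀ q, q ∉ L → E.right q = q ∧ E.left q = 1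
  grp : ∀ q h, lab q = .inl h → E.right q = q ∧ E.left q = 1
  var : ∀ q ∈ L, ∀ x b, lab q = .inr (x, b) → lab (E.right q) = .inr (x, !b)

/-- The diagonal of letter weights on `L`. -/
noncomputable def lam [DecidableEq P] (lab : P → Letter G X) (L : List P) : P → Circle × G :=
  fun q => if q ∈ L then wt (lab q) else 1

/-- The target diagonal. -/
noncomputable def tgt [DecidableEq P] (p : P) (L : List P) (μ ω : Circle) (g : G) : P → Circle × G :=
  fun q => if q = p then (ω, g) else if q ∈ L then (μ, 1) else 1
end

/-- The positions of a product of conjugates of relators, `n` positive and `n` negative copies of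
each relator, with the reflection `ρ` and the face permutation `σ`. -/
structure FaceData {G : Type*} [Group G] {X J : Type} [DecidableEq X] [Fintype J] [DecidableEq J]
    (w : J → Monoid.Coprod G (FreeGroup X)) (g : G) (n : ℕ) (P K : Type) [Fintype P]
    [DecidableEq P] [Fintype K] [DecidableEq K] where
  p0 : P
  L : List P
  nodup : (p0 :: L).Nodup
  all : ∀ q, q ∈ p0 :: L
  lab : P → Letter G X
  lab_p0 : lab p0 = .inl 1
  eval : evalW (L.map lab) = Monoid.Coprod.inl g
  ρ : Perm P
  σ : Perm P
  ρρ : ρ * ρ = 1
  lab_ρ : ∀ q, lab (ρ q) = linv (lab q)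
  ρ_p0 : ρ p0 = p0
  b : ℕ
  tr : Tr (2 * (n * Fintype.card J) + b)
    (pm ((p0 :: L).formPerm * σ⁻¹) : Mon P (Circle × G))
  σρ : σ * ρ * (σ * ρ) = 1
  fix : 2 * b + 1 ≤ Nat.card {q // σ (ρ q) = q}
  jK : K → J
  e : K → Fin n → P
  inj : ∀ k f k' f', e k f = e k' f' → k = k' ∧ f = f'
  nxt : Perm K
  j_nxt : ∀ k, jK (nxt k) = jK k
  σ_e : ∀ k f, σ (e k f) = e (nxt k) f
  lk : K → Letter G X
  lab_e : ∀ k f, lab (e k f) = lk k
  cnt : ∀ j x, (expSum (w j)).toAdd x =
    ∑ k with jK k = j, (expSum (lev (lk k))).toAdd x

end Vale.Agent.P174
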