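import Vale.Agent.P174.Chain2

/-! P174 module C3: positions of a product of conjugates of relators. -/

namespace Vale.Agent.P174

open Equiv

namespace Faces

section perm
variable {P : Type*} [DecidableEq P]

theorem formPerm_append (p m : P) (A M : List P) : ∃ z ∈ p :: A,
    (p :: (A ++ m :: M)).formPerm = (p :: A).formPerm * swap z m * (m :: M).formPerm := by
  induction A generalizing p with
  | nil => exact ⟨p, by simp, by simp⟩
  | cons a A ih =>
    obtain ⟨z, hz, h⟩ := ih a
    refine ⟨z, List.mem_cons_of_mem _ hz, ?_⟩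
    rw [List.cons_append, List.formPerm_cons_cons, h, List.formPerm_cons_cons]
    simp only [mul_assoc]

theorem formPerm_map {Q : Type*} [DecidableEq Q] {f : Q → P} (hf : Function.Injective f)
    (l : List Q) (x : Q) : (l.map f).formPerm (f x) = f (l.formPerm x) := by
  induction l with
  | nil => simp
  | cons a l ih =>
    cases l with
    | nil => simp
    | cons b l =>
      simp only [List.map_cons, List.formPerm_cons_cons, Perm.mul_apply] at ih ⊢
      rw [ih, hf.swap_apply]

variable (Γ : Type*) [Group Γ]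

/-- The list `l` is a union of cycles of `σ`, arranged in a planar way, of cost `k`. -/
def Good (σ : Perm P) (k : ℕ) (l : List P) : Prop :=
  ∀ p, (p :: l).Nodup → ∃ s : Perm P, (∀ x ∈ l, s x = σ x) ∧ (∀ x, x ∉ l → s x = x) ∧
    Tr k (pm ((p :: l).formPerm * s⁻¹) : Mon P Γ)

variable {Γ} {σ : Perm P}

theorem good_nil : Good Γ σ 0 [] := fun p _ =>
  ⟨1, by simp, by simp, by simpa using Tr.one 0⟩

theorem Good.face {k : ℕ} {A M : List P} (h : Good Γ σ k A)
    (hM : ∀ x ∈ M, σ x = M.formPerm x) : Good Γ σ (k + 1) (A ++ M) := by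
  intro p hn
  have hn' : ((p :: A) ++ M).Nodup := hn
  obtain ⟨s, h1, h2, h3⟩ := h p (List.Nodup.of_append_left hn')
  have hd : ∀ x ∈ p :: A, x ∉ M := fun x hx hx' =>
    (List.nodup_append.1 hn').2.2 x hx x hx' rfl
  refine ⟨s * M.formPerm, fun x hx => ?_, fun x hx => ?_, ?_⟩
  · rcases List.mem_append.1 hx with hx | hx
    · rw [Perm.mul_apply, List.formPerm_apply_of_notMem (hd x (List.mem_cons_of_mem _ hx)), h1 x hx]
    · rw [Perm.mul_apply, hM x hx]
      exact h2 _ fun hc => hd _ (List.mem_cons_of_mem _ hc) (List.formPerm_apply_mem_of_mem hx)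
  · rw [List.mem_append, not_or] at hx
    rw [Perm.mul_apply, List.formPerm_apply_of_notMem hx.2, h2 x hx.1]
  · cases M with
    | nil => simpa using h3.mono (Nat.le_succ k)
    | cons m M =>
      obtain ⟨z, hz, e⟩ := formPerm_append p m A M
      have hzm : z ≠ m := fun hc => hd z hz (hc ▸ List.mem_cons_self)
      have := h3.step (pm s) hzm
      rw [← map_inv, ← map_mul, ← map_mul, ← map_mul] at this
      have e2 : (p :: (A ++ m :: M)).formPerm * (s * (m :: M).formPerm)⁻¹ =
          (p :: A).formPerm * s⁻¹ * (s * swap z m * s⁻¹) := by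
        rw [e]; group
      rwa [e2]

theorem Good.wrap {k k' : ℕ} {A B : List P} {a b : P} (h : Good Γ σ k A) (h' : Good Γ σ k' B)
    (hab : σ a = b) (hba : σ b = a) : Good Γ σ (k + k' + 1) (A ++ a :: (B ++ [b])) := by
  intro p hn
  have hn0 := hn
  have hn1 : (p :: (A ++ [a])).Nodup := by
    refine hn.sublist ((List.Sublist.append_left ?_ A).cons_cons p)
    exact (List.nil_sublist _).cons_cons a
  simp only [List.nodup_cons, List.nodup_append, List.mem_append, List.mem_cons, not_or,
    List.not_mem_nil, or_false] at hn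
  obtain ⟨⟨hpA, hpa, hpB, hpb⟩, hA, ⟨⟨haB, hab'⟩, hB, -, hBb⟩, hd⟩ := hn
  have hbB : b ∉ B := fun hc => hBb b hc b rfl rfl
  have haA : a ∉ A := fun hc => hd a hc a (Or.inl rfl) rfl
  have hbA : b ∉ A := fun hc => hd b hc b (Or.inr (Or.inr rfl)) rfl
  have hAB : ∀ x ∈ A, x ∉ B := fun x hx hc => hd x hx x (Or.inr (Or.inl hc)) rfl
  obtain ⟨s, h1, h2, h3⟩ := h p (List.nodup_cons.2 ⟨hpA, hA⟩)
  obtain ⟨t, g1, g2, g3⟩ := h' b (List.nodup_cons.2 ⟨hbB, hB⟩)
  have htB : ∀ x ∈ B, t x ∈ B := fun x hx => by
    by_contra hc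
    exact hc ((t.injective (g2 _ hc)).symm ▸ hx)
  refine ⟨s * t * swap a b, fun x hx => ?_, fun x hx => ?_, ?_⟩
  · simp only [List.mem_append, List.mem_cons, List.not_mem_nil, or_false] at hx
    simp only [Perm.mul_apply]
    rcases hx with hx | rfl | hx | rfl
    · rw [swap_apply_of_ne_of_ne (ne_of_mem_of_not_mem hx haA) (ne_of_mem_of_not_mem hx hbA),
        g2 x (hAB x hx), h1 x hx]
    · rw [swap_apply_left, g2 b hbB, h2 b hbA, hab]
    · rw [swap_apply_of_ne_of_ne (ne_of_mem_of_not_mem hx haB) (ne_of_mem_of_not_mem hx hbB),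
        h2 _ (fun hc => hAB _ hc (htB x hx)), g1 x hx]
    · rw [swap_apply_right, g2 a haB, h2 a haA, hba]
  · simp only [List.mem_append, List.mem_cons, List.not_mem_nil, or_false, not_or] at hx
    simp only [Perm.mul_apply]
    rw [swap_apply_of_ne_of_ne hx.2.1 hx.2.2.2, g2 x hx.2.2.1, h2 x hx.1]
  · have t1 : Tr 1 (pm (swap p a) : Mon P Γ) := by
      simpa using (Tr.one (P := P) (Γ := Γ) 0).step 1 hpa
    have := (t1.mul h3).mul (g3.conj (pm s))
    rw [← map_inv, ← map_mul, ← map_mul, ← map_mul, ← map_mul] at this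
    have e2 : (p :: (A ++ a :: (B ++ [b]))).formPerm * (s * t * swap a b)⁻¹ =
        swap p a * ((p :: A).formPerm * s⁻¹) * (s * ((b :: B).formPerm * t⁻¹) * s⁻¹) := by
      rw [formPerm_wrap hn0, formPerm_snoc hn1]; group
    rw [e2]
    exact this.mono (by omega)

theorem Good.block {ι : Type*} (f f' : ι → P) (hf : ∀ i, σ (f i) = f' i)
    (hf' : ∀ i, σ (f' i) = f i) {M : List P} (hM : ∀ x ∈ M, σ x = M.formPerm x) (l : List ι)
    {k : ℕ} {A : List P} (h : Good Γ σ k A) :
    Good Γ σ (k + (1 + l.length)) (A ++ (l.map f ++ M ++ l.reverse.map f')) := by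
  induction l generalizing k A with
  | nil => simpa using h.face hM
  | cons i l ih =>
    have := h.wrap (ih good_nil) (hf i) (hf' i)
    simpa [add_assoc] using this

theorem Good.flatMap {ι : Type*} (F : ι → List P) (c : ℕ)
    (hF : ∀ i k A, Good Γ σ k A → Good Γ σ (k + c) (A ++ F i)) (o : List ι) {k : ℕ} {A : List P}
    (h : Good Γ σ k A) : Good Γ σ (k + o.length * c) (A ++ o.flatMap F) := by
  induction o generalizing k A with
  | nil => simpa using h
  | cons i o ih =>
    have := ih (hF i k A h)
    have e : k + (i :: o).length * c = k + c + o.length * c := by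
      rw [List.length_cons]; ring
    rw [e, List.flatMap_cons, ← List.append_assoc]
    exact this

end perm

section words
variable {G X : Type*} [Group G]

theorem evalW_append (A B : List (Letter G X)) : evalW (A ++ B) = evalW A * evalW B := by
  simp [evalW]

theorem lev_linv (x : Letter G X) : lev (linv x) = (lev x)⁻¹ := by
  rcases x with h | ⟨x, _ | _⟩ <;> simp [lev, linv]

theorem linv_linv (x : Letter G X) : linv (linv x) = x := by
  rcases x with h | ⟨x, b⟩ <;> simp [linv]

theorem evalW_rev {ι : Type*} (u : ι → Letter G X) (l : List ι) :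
    evalW (l.reverse.map fun i => linv (u i)) = (evalW (l.map u))⁻¹ := by
  induction l with
  | nil => simp [evalW]
  | cons i l ih =>
    rw [List.reverse_cons, List.map_append, evalW_append, ih]
    simp [evalW, lev_linv]

theorem evalW_flatMap {ι : Type*} (F : ι → List (Letter G X)) (o : List ι) :
    evalW (o.flatMap F) = (o.map fun i => evalW (F i)).prod := by
  induction o with
  | nil => simp [evalW]
  | cons i o ih => rw [List.flatMap_cons, evalW_append, ih, List.map_cons, List.prod_cons]

theorem exists_word (x : Monoid.Coprod G (FreeGroup X)) : ∃ W, evalW W = x := by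
  have hm : ∀ x y : Monoid.Coprod G (FreeGroup X), (∃ W, evalW W = x) → (∃ W, evalW W = y) →
      ∃ W, evalW W = x * y := by
    rintro _ _ ⟨A, rfl⟩ ⟨B, rfl⟩
    exact ⟨_, evalW_append A B⟩
  induction x using Monoid.Coprod.induction_on with
  | inl h => exact ⟨[.inl h], by simp [evalW, lev]⟩
  | mul x y hx hy => exact hm x y hx hy
  | inr y =>
    induction y using FreeGroup.induction_on with
    | C1 => exact ⟨[], by simp [evalW]⟩
    | of x => exact ⟨[.inr (x, true)], by simp [evalW, lev]⟩
    | inv_of x _ => exact ⟨[.inr (x, false)], by simp [evalW, lev]⟩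
    | mul x y hx hy => rw [map_mul]; exact hm _ _ hx hy

theorem exists_words {ι : Type*} [Fintype ι] (F : ι → Monoid.Coprod G (FreeGroup X)) :
    ∃ (M : ℕ) (u : ι → Fin M → Letter G X), ∀ a, evalW ((List.finRange M).map (u a)) = F a := by
  choose W hW using fun a => exists_word (F a)
  have key : ∀ (M : ℕ) a, (W a).length ≤ M →
      ∃ u : Fin M → Letter G X, evalW ((List.finRange M).map u) = F a := by
    intro M a h
    obtain ⟨d, rfl⟩ := Nat.exists_eq_add_of_le h
    have h1 : evalW (W a ++ List.replicate d (.inl 1)) = F a := by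
      rw [evalW_append, hW]; simp [evalW, lev]
    have h2 : (W a ++ List.replicate d (.inl 1 : Letter G X)).length = (W a).length + d := by simp
    generalize W a ++ List.replicate d (.inl 1) = V at h1 h2
    rw [← h2]
    exact ⟨V.get, by rw [List.map_get_finRange, h1]⟩
  refine ⟨Finset.univ.sup fun a => (W a).length, ?_⟩
  choose u hu using fun a => key (Finset.univ.sup fun a => (W a).length) a
    (Finset.le_sup (f := fun a => (W a).length) (Finset.mem_univ a))
  exact ⟨u, hu⟩

end words

section lists
variable {H J : Type*} [Group H]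

/-- A conjugate of a relator or of its inverse. -/
def val (w : J → H) (t : H × J × Bool) : H :=
  t.1 * (if t.2.2 then w t.2.1 else (w t.2.1)⁻¹) * t.1⁻¹

theorem exists_list (w : J → H) {x : H} (hx : x ∈ Subgroup.normalClosure (Set.range w)) :
    ∃ l : List (H × J × Bool), (l.map (val w)).prod = x := by
  induction hx using Subgroup.closure_induction'' with
  | mem x hx =>
    obtain ⟨_, ⟨j, rfl⟩, h⟩ := Group.mem_conjugatesOfSet_iff.1 hx
    obtain ⟨c, rfl⟩ := isConj_iff.1 h
    exact ⟨[(c, j, true)], by simp [val]⟩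
  | inv_mem x hx =>
    obtain ⟨_, ⟨j, rfl⟩, h⟩ := Group.mem_conjugatesOfSet_iff.1 hx
    obtain ⟨c, rfl⟩ := isConj_iff.1 h
    exact ⟨[(c, j, false)], by simp [val, mul_assoc]⟩
  | one => exact ⟨[], rfl⟩
  | mul x y _ _ hx hy =>
    obtain ⟨A, rfl⟩ := hx
    obtain ⟨B, rfl⟩ := hy
    exact ⟨A ++ B, by simp⟩

variable [DecidableEq J] [Fintype J]

theorem exists_pad (w : J → H) (d : J → ℕ) : ∃ l : List (H × J × Bool),
    (l.map (val w)).prod = 1 ∧ ∀ j b, (l.map Prod.snd).count (j, b) = d j := by
  let S : AddSubmonoid (J → ℕ) :=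
    { carrier := {d | ∃ l : List (H × J × Bool),
        (l.map (val w)).prod = 1 ∧ ∀ j b, (l.map Prod.snd).count (j, b) = d j}
      zero_mem' := ⟨[], rfl, fun _ _ => rfl⟩
      add_mem' := by
        rintro a b ⟨A, h1, h2⟩ ⟨B, g1, g2⟩
        refine ⟨A ++ B, by simp [h1, g1], fun j c => ?_⟩
        rw [List.map_append, List.count_append, h2, g2]; rfl }
  have h : ∀ j, Pi.single j 1 ∈ S := fun j =>
    ⟨[(1, j, true), (1, j, false)], by simp [val], fun i b => by
      by_cases hi : i = j
      · subst hi; cases b <;> simp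
      · have hi' : j ≠ i := fun hc => hi hc.symm
        simp [hi, hi']⟩
  have e : d = ∑ j, d j • Pi.single j 1 := by
    funext i; simp [Finset.sum_apply, Pi.single_apply]
  change d ∈ S
  rw [e]
  exact sum_mem fun j _ => nsmul_mem (h j) _

theorem sum_count {V : Type*} [AddCommGroup V] (r : J → V) (τ : List (J × Bool)) :
    (τ.map fun t => if t.2 then r t.1 else -r t.1).sum =
      ∑ j, ((τ.count (j, true) : ℤ) - τ.count (j, false)) • r j := by
  induction τ with
  | nil => simp
  | cons t τ ih =>
    obtain ⟨i, b⟩ := t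
    rw [List.map_cons, List.sum_cons, ih]
    have : (if b then r i else -r i) = ∑ j, (if i = j then (if b then 1 else -1 : ℤ) else 0) • r j := by
      cases b <;> simp
    rw [this, ← Finset.sum_add_distrib]
    refine Finset.sum_congr rfl fun j _ => ?_
    rw [← add_smul]
    congr 1
    by_cases hij : i = j
    · subst hij; cases b <;> simp <;> ring
    · simp [hij]

theorem exists_enum {β γ : Type*} [DecidableEq β] [BEq β] [LawfulBEq β] [Nonempty γ] (N : ℕ) (l : List (γ × β))
    (hl : ∀ t, (l.map Prod.snd).count t ≤ N) :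
    ∃ (o : List (β × Fin N)) (c : β × Fin N → γ), o.map (fun a => (c a, a.1)) = l ∧ o.Nodup ∧
      ∀ t i, (t, i) ∈ o ↔ i.val < (l.map Prod.snd).count t := by
  induction l with
  | nil => exact ⟨[], fun _ => Classical.arbitrary γ, rfl, List.nodup_nil, by simp⟩
  | cons a l ih =>
    obtain ⟨x, t⟩ := a
    obtain ⟨o, c, h1, h2, h3⟩ := ih fun s => by
      have := hl s
      rw [List.map_cons, List.count_cons] at this
      omega
    have hlt : (l.map Prod.snd).count t < N := by
      have := hl t
      rw [List.map_cons, List.count_cons_self] at this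
      omega
    have hn : (t, (⟨_, hlt⟩ : Fin N)) ∉ o := by rw [h3]; simp
    refine ⟨(t, ⟨_, hlt⟩) :: o, Function.update c (t, ⟨_, hlt⟩) x, ?_,
      List.nodup_cons.2 ⟨hn, h2⟩, fun s i => ?_⟩
    · rw [List.map_cons, Function.update_self]
      refine congrArg _ (Eq.trans (List.map_congr_left fun a ha => ?_) h1)
      rw [Function.update_of_ne (ne_of_mem_of_not_mem ha hn)]
    · rw [List.mem_cons, h3, List.map_cons, List.count_cons]
      by_cases hs : t = s
      · subst hs
        simp only [Prod.mk.injEq, true_and, Fin.ext_iff, beq_self_eq_true, if_true]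
        omega
      · have hs' : s ≠ t := fun hc => hs hc.symm
        simp [hs, hs']

end lists

theorem exists_ord {G : Type*} [Group G] {X J : Type} [DecidableEq X] [Fintype J]
    [DecidableEq J] (w : J → Monoid.Coprod G (FreeGroup X))
    (hw : LinearIndependent ℤ fun j => (expSum (w j)).toAdd) (g : G)
    (hg : Monoid.Coprod.inl g ∈ Subgroup.normalClosure (Set.range w)) :
    ∃ (n : ℕ) (o : List ((J × Bool) × Fin (n + 1)))
      (c : (J × Bool) × Fin (n + 1) → Monoid.Coprod G (FreeGroup X)),
      o.Nodup ∧ (∀ a, a ∈ o) ∧ (o.map fun a => val w (c a, a.1)).prod = Monoid.Coprod.inl g := by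
  obtain ⟨l, hl⟩ := exists_list w hg
  have hbal : ∀ j, (l.map Prod.snd).count (j, true) = (l.map Prod.snd).count (j, false) := by
    have h1 : ∀ l : List (Monoid.Coprod G (FreeGroup X) × J × Bool),
        (expSum (l.map (val w)).prod).toAdd = ((l.map Prod.snd).map fun t =>
          if t.2 then (expSum (w t.1)).toAdd else -(expSum (w t.1)).toAdd).sum := by
      intro l
      induction l with
      | nil => simp
      | cons t l ih =>
        simp only [List.map_cons, List.prod_cons, List.sum_cons, map_mul, toAdd_mul, ih]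
        congr 1
        obtain ⟨c, j, b⟩ := t
        cases b <;> simp [val]
    have h2 := h1 l
    rw [hl, sum_count fun j => (expSum (w j)).toAdd] at h2
    have h3 : (expSum (Monoid.Coprod.inl g : Monoid.Coprod G (FreeGroup X))).toAdd = 0 := by
      simp [expSum]
    intro j
    have := Fintype.linearIndependent_iff.1 hw _ (h2.symm.trans h3) j
    omega
  obtain ⟨l', h1, h2⟩ := exists_pad w fun j => l.length + 1 - (l.map Prod.snd).count (j, true)
  have hc : ∀ t, ((l ++ l').map Prod.snd).count t = l.length + 1 := by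
    rintro ⟨j, b⟩
    have h3 : (l.map Prod.snd).count (j, true) ≤ l.length :=
      List.count_le_length.trans (by simp)
    rw [List.map_append, List.count_append, h2]
    have h4 := hbal j
    cases b <;> omega
  obtain ⟨o, c, g1, g2, g3⟩ := exists_enum (l.length + 1) (l ++ l') fun t => (hc t).le
  refine ⟨l.length, o, c, g2, fun a => (g3 a.1 a.2).2 (by rw [hc]; exact a.2.2), ?_⟩
  have : (o.map fun a => val w (c a, a.1)) = (l ++ l').map (val w) := by
    rw [← g1, List.map_map]; rfl
  rw [this, List.map_append, List.prod_append, hl, h1, mul_one]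

section pos
variable {J : Type} {N M : ℕ}

/-- Positions. -/
abbrev Pos (J : Type) (N M : ℕ) : Type := Option (((J × Bool) × Fin N) × Fin M × Option Bool)

/-- The face map. -/
def sg (τ : Perm (Fin M)) : Pos J N M → Pos J N M
  | none => none
  | some (φ, i, none) => some (φ, (if φ.1.2 then τ else τ⁻¹) i, none)
  | some (φ, i, some b) => some (φ, i, some !b)

theorem sg_inv (τ : Perm (Fin M)) (q : Pos J N M) : sg τ⁻¹ (sg τ q) = q := by
  rcases q with _ | ⟨⟨⟨j, _ | _⟩, f⟩, i, _ | b⟩ <;> simp [sg]

/-- The face permutation. -/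
def sig (τ : Perm (Fin M)) : Perm (Pos J N M) :=
  ⟨sg τ, sg τ⁻¹, sg_inv τ, fun q => by simpa using sg_inv τ⁻¹ q⟩

/-- The reflection map. -/
def rh : Pos J N M → Pos J N M
  | none => none
  | some (φ, i, none) => some (((φ.1.1, !φ.1.2), φ.2), i, none)
  | some (φ, i, some b) => some (φ, i, some !b)

theorem rh_rh (q : Pos J N M) : rh (rh q) = q := by
  rcases q with _ | ⟨⟨⟨j, c⟩, f⟩, i, _ | b⟩ <;> simp [rh]

/-- The reflection. -/
def rho : Perm (Pos J N M) := ⟨rh, rh, rh_rh, rh_rh⟩

/-- The labels. -/
def lb {G X : Type*} [Group G] (u : J → Fin M → Letter G X)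
    (c : (J × Bool) × Fin N → Fin M → Letter G X) : Pos J N M → Letter G X
  | none => .inl 1
  | some (φ, i, none) => if φ.1.2 then u φ.1.1 i else linv (u φ.1.1 i)
  | some (φ, i, some b) => if b then linv (c φ i) else c φ i

/-- The order in which a face is read. -/
def ordr (M : ℕ) (b : Bool) : List (Fin M) :=
  if b then List.finRange M else (List.finRange M).reverse

/-- The positions of one conjugate. -/
def blk (φ : (J × Bool) × Fin N) : List (Pos J N M) :=
  (List.finRange M).map (fun i => some (φ, i, some false)) ++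
    (ordr M φ.1.2).map (fun i => some (φ, i, none)) ++
      (List.finRange M).reverse.map fun i => some (φ, i, some true)

theorem mem_ordr (b : Bool) (i : Fin M) : i ∈ ordr M b := by
  cases b <;> simp [ordr]

theorem nodup_ordr (b : Bool) : (ordr M b).Nodup := by
  cases b <;> simp [ordr, List.nodup_finRange]

theorem mem_blk {φ : (J × Bool) × Fin N} {q : Pos J N M} :
    q ∈ blk φ ↔ ∃ y, q = some (φ, y) := by
  constructor
  · simp only [blk, List.mem_append, List.mem_map]
    rintro ((⟨i, -, rfl⟩ | ⟨i, -, rfl⟩) | ⟨i, -, rfl⟩) <;> exact ⟨_, rfl⟩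
  · rintro ⟨⟨i, _ | _ | _⟩, rfl⟩ <;> simp [blk, mem_ordr]

theorem nodup_blk (φ : (J × Bool) × Fin N) : (blk φ : List (Pos J N M)).Nodup := by
  have h : ∀ (l : List (Fin M)) (x : Option Bool), l.Nodup →
      (l.map fun i => (some (φ, i, x) : Pos J N M)).Nodup := fun l x hl =>
    hl.map fun i j hij => by simpa using hij
  simp only [blk, List.nodup_append]
  refine ⟨⟨h _ _ (List.nodup_finRange M), h _ _ (nodup_ordr _), ?_⟩,
    h _ _ (List.nodup_reverse.2 (List.nodup_finRange M)), ?_⟩
  · simp only [List.mem_map]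
    rintro _ ⟨i, -, rfl⟩ _ ⟨j, -, rfl⟩
    simp
  · simp only [List.mem_append, List.mem_map]
    rintro _ (⟨i, -, rfl⟩ | ⟨i, -, rfl⟩) _ ⟨j, -, rfl⟩ <;> simp

end pos

end Faces

open Faces

theorem exists_faceData {G : Type*} [Group G] {X J : Type} [DecidableEq X] [Fintype J]
    [DecidableEq J] (w : J → Monoid.Coprod G (FreeGroup X))
    (hw : LinearIndependent ℤ fun j => (expSum (w j)).toAdd) (g : G)
    (hg : Monoid.Coprod.inl g ∈ Subgroup.normalClosure (Set.range w)) :
    ∃ (n : ℕ) (P K : Type) (_ : Fintype P) (_ : DecidableEq P) (_ : Fintype K)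
      (_ : DecidableEq K), Nonempty (FaceData w g (n + 1) P K) := by
  obtain ⟨n, o, c, ho, hall, hprod⟩ := exists_ord w hw g hg
  obtain ⟨M, U, hU⟩ := exists_words (Sum.elim w c)
  let u : J → Fin M → Letter G X := fun j => U (.inl j)
  let d : (J × Bool) × Fin (n + 1) → Fin M → Letter G X := fun φ => U (.inr φ)
  have hu : ∀ j, evalW ((List.finRange M).map (u j)) = w j := fun j => hU (.inl j)
  have hd : ∀ φ, evalW ((List.finRange M).map (d φ)) = c φ := fun φ => hU (.inr φ)
  let τ : Perm (Fin M) := (List.finRange M).formPerm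
  have hlen : o.length = 2 * ((n + 1) * Fintype.card J) := by
    rw [← List.toFinset_card_of_nodup ho, Finset.eq_univ_iff_forall.2 fun a =>
      List.mem_toFinset.2 (hall a), Finset.card_univ]
    simp only [Fintype.card_prod, Fintype.card_bool, Fintype.card_fin]
    ring
  have hnd : (none :: o.flatMap blk : List (Pos J (n + 1) M)).Nodup := by
    refine List.nodup_cons.2 ⟨?_, List.nodup_flatMap.2 ⟨fun φ _ => nodup_blk φ, ?_⟩⟩
    · simp [mem_blk]
    · refine List.Pairwise.imp (fun {a b} hab q h1 h2 => hab ?_) ho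
      obtain ⟨y, rfl⟩ := mem_blk.1 h1
      obtain ⟨z, hz⟩ := mem_blk.1 h2
      exact (Prod.mk.inj (Option.some.inj hz)).1
  have hmem : ∀ q : Pos J (n + 1) M, q ∈ none :: o.flatMap blk := by
    rintro (_ | ⟨φ, y⟩)
    · exact List.mem_cons_self
    · exact List.mem_cons_of_mem _ (List.mem_flatMap.2 ⟨φ, hall φ, mem_blk.2 ⟨y, rfl⟩⟩)
  refine ⟨n, Pos J (n + 1) M, J × Fin M, inferInstance, inferInstance, inferInstance,
    inferInstance, ⟨?_⟩⟩
  refine
    { p0 := none
      L := o.flatMap blk
      nodup := hnd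
      all := hmem
      lab := lb u d
      lab_p0 := rfl
      eval := ?_
      ρ := rho
      σ := sig τ
      ρρ := Equiv.ext rh_rh
      lab_ρ := ?_
      ρ_p0 := rfl
      b := o.length * M
      tr := ?_
      σρ := ?_
      fix := ?_
      jK := Prod.fst
      e := fun k f => some (((k.1, true), f), k.2, none)
      inj := ?_
      nxt := Equiv.prodCongrRight fun _ => τ
      j_nxt := fun _ => rfl
      σ_e := fun _ _ => rfl
      lk := fun k => u k.1 k.2
      lab_e := fun _ _ => rfl
      cnt := ?_ }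
  · rw [List.map_flatMap, evalW_flatMap, ← hprod]
    congr 1
    refine List.map_congr_left fun φ _ => ?_
    have h1 : evalW ((ordr M φ.1.2).map fun i => lb u d (some (φ, i, none))) =
        if φ.1.2 then w φ.1.1 else (w φ.1.1)⁻¹ := by
      obtain ⟨⟨j, _ | _⟩, f⟩ := φ
      · rw [← hu, ← evalW_rev]; rfl
      · rw [← hu]; rfl
    rw [blk, List.map_append, List.map_append, evalW_append, evalW_append, List.map_map,
      List.map_map, List.map_map, val, ← h1, ← hd, ← evalW_rev]
    rfl
  · rintro (_ | ⟨⟨⟨j, _ | _⟩, f⟩, i, _ | _ | _⟩) <;>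
      simp [rho, rh, lb, linv_linv]
    simp [linv]
  · have hG : Good (Circle × G) (sig τ : Perm (Pos J (n + 1) M))
        (0 + o.length * (1 + (List.finRange M).length)) ([] ++ o.flatMap blk) := by
      refine Good.flatMap blk _ (fun φ k A h => ?_) o good_nil
      refine Good.block (fun i => some (φ, i, some false)) (fun i => some (φ, i, some true))
        (fun _ => rfl) (fun _ => rfl) (fun x hx => ?_) _ h
      obtain ⟨i, -, rfl⟩ := List.mem_map.1 hx
      rw [formPerm_map (f := fun i => (some (φ, i, none) : Pos J (n + 1) M))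
        fun i j hij => by simpa using hij]
      obtain ⟨⟨j, _ | _⟩, f⟩ := φ
      · simp [ordr, List.formPerm_reverse, sig, sg, τ]
      · simp [ordr, sig, sg, τ]
    obtain ⟨s, h1, h2, h3⟩ := hG none hnd
    have hs : s = sig τ := by
      ext1 q
      rcases List.mem_cons.1 (hmem q) with rfl | hq
      · exact h2 _ (List.nodup_cons.1 hnd).1
      · exact h1 q hq
    rw [hs] at h3
    refine h3.mono (le_of_eq ?_)
    rw [← hlen, List.length_finRange]; ring
  · ext1 q
    rcases q with _ | ⟨⟨⟨j, _ | _⟩, f⟩, i, _ | b⟩ <;> simp [sig, sg, rho, rh]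
  · let F : Option (((J × Bool) × Fin (n + 1)) × Fin M × Bool) →
        {q : Pos J (n + 1) M // sig τ (rho q) = q} := fun q =>
      match q with
      | none => ⟨none, rfl⟩
      | some (φ, i, b) => ⟨some (φ, i, some b), by simp [sig, sg, rho, rh]⟩
    have hF : Function.Injective F := by
      rintro (_ | ⟨φ, i, b⟩) (_ | ⟨φ', i', b'⟩) h <;> have h' := congrArg Subtype.val h
      · rfl
      · cases h'
      · cases h'
      · cases h'; rfl
    refine le_trans (le_of_eq ?_) (Nat.card_le_card_of_injective F hF)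
    rw [hlen, Nat.card_eq_fintype_card]
    simp only [Fintype.card_option, Fintype.card_prod, Fintype.card_bool, Fintype.card_fin]
    ring
  · rintro ⟨j, i⟩ f ⟨j', i'⟩ f' h
    cases h
    exact ⟨rfl, rfl⟩
  · intro j x
    rw [← hu, Finset.sum_filter, Fintype.sum_prod_type]
    simp only [Finset.sum_ite_irrel, Finset.sum_const_zero, Finset.sum_ite_eq', Finset.mem_univ,
      if_true]
    rw [evalW, List.map_map, ← List.ofFn_eq_map, map_list_prod, List.map_ofFn, List.prod_ofFn,
      toAdd_prod, Finset.sum_apply]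
    rfl

end Vale.Agent.P174
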