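import Vale.Agent.P174.Cob

/-! P174 module F3: smooth differential forms on `ℝ^(D+1)` and Stokes' theorem on the unit box. -/

namespace Vale.Agent.P174

open scoped ContDiff TensorProduct
open MeasureTheory

/-- Smooth complex functions. -/
def Sm (D : ℕ) : Subalgebra ℂ ((Fin (D + 1) → ℝ) → ℂ) where
  carrier := {f | ContDiff ℝ ∞ f}
  mul_mem' {f g} (h : ContDiff ℝ ∞ f) (h' : ContDiff ℝ ∞ g) := h.mul h'
  add_mem' {f g} (h : ContDiff ℝ ∞ f) (h' : ContDiff ℝ ∞ g) := h.add h'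
  algebraMap_mem' c := (contDiff_const : ContDiff ℝ ∞ fun _ => c)

/-- Constant forms. -/
abbrev Lam (D : ℕ) := ExteriorAlgebra ℂ (Fin (D + 1) → ℂ)

/-- Smooth forms. -/
def Om (D : ℕ) := Sm D ⊗[ℂ] Lam D

noncomputable instance (D : ℕ) : Ring (Om D) := inferInstanceAs (Ring (Sm D ⊗[ℂ] Lam D))

noncomputable instance (D : ℕ) : Algebra (Sm D) (Om D) :=
  inferInstanceAs (Algebra (Sm D) (Sm D ⊗[ℂ] Lam D))

variable {D : ℕ}

noncomputable instance fmAddCommGroup : AddCommGroup (Sm D ⊗[ℂ] Lam D) :=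
  TensorProduct.addCommGroup

theorem Sm.smooth (f : Sm D) : ContDiff ℝ ∞ f.1 := f.2

theorem Sm.diff (f : Sm D) (x : Fin (D + 1) → ℝ) : DifferentiableAt ℝ f.1 x :=
  (Sm.smooth f).differentiable (by simp) x

/-- Coordinate derivative. -/
noncomputable def pd (a : Fin (D + 1)) (f : Sm D) : Sm D :=
  ⟨fun x => fderiv ℝ f.1 x (Pi.single a 1),
    (((Sm.smooth f).fderiv_right (m := ∞) (by simp)).clm_apply contDiff_const :
      ContDiff ℝ ∞ fun x => fderiv ℝ f.1 x (Pi.single a 1))⟩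

/-- Coordinate function. -/
def coord (a : Fin (D + 1)) : Sm D := ⟨fun x => (x a : ℂ),
  (Complex.ofRealCLM.contDiff.comp (contDiff_apply ℝ ℝ a) :
    ContDiff ℝ ∞ fun x : Fin (D + 1) → ℝ => (x a : ℂ))⟩

theorem fm_line (f : Sm D) (x v : Fin (D + 1) → ℝ) :
    HasDerivAt (fun t : ℝ => f.1 (x + t • v)) (fderiv ℝ f.1 x v) 0 :=
  (Sm.diff f x).hasFDerivAt.hasLineDerivAt v

theorem fm_fderiv_eq {f : Sm D} {x v : Fin (D + 1) → ℝ} {c : ℂ}
    (h : HasDerivAt (fun t : ℝ => f.1 (x + t • v)) c 0) : fderiv ℝ f.1 x v = c :=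
  (fm_line f x v).unique h

theorem pd_add (a : Fin (D + 1)) (f g : Sm D) : pd a (f + g) = pd a f + pd a g :=
  Subtype.ext <| funext fun x => fm_fderiv_eq ((fm_line f x _).add (fm_line g x _))

theorem pd_smul (a : Fin (D + 1)) (c : ℂ) (f : Sm D) : pd a (c • f) = c • pd a f :=
  Subtype.ext <| funext fun x => fm_fderiv_eq ((fm_line f x _).const_smul c)

theorem pd_mul (a : Fin (D + 1)) (f g : Sm D) : pd a (f * g) = pd a f * g + f * pd a g :=
  Subtype.ext <| funext fun x => fm_fderiv_eq <| by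
    have h := (fm_line f x (Pi.single a 1)).mul (fm_line g x (Pi.single a 1))
    rw [zero_smul, add_zero] at h
    exact h

theorem pd_const (a : Fin (D + 1)) (c : ℂ) : pd a (algebraMap ℂ (Sm D) c) = 0 :=
  Subtype.ext <| funext fun _ => fm_fderiv_eq (hasDerivAt_const (0 : ℝ) c)

theorem pd_coord (a b : Fin (D + 1)) : pd a (coord b) = if b = a then 1 else 0 := by
  refine Subtype.ext <| funext fun x => fm_fderiv_eq ?_
  have h := (((hasDerivAt_id (0 : ℝ)).mul_const ((Pi.single a 1 : Fin (D + 1) → ℝ) b)).const_add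
    (x b)).ofReal_comp
  have e : ((if b = a then 1 else 0 : Sm D) : (Fin (D + 1) → ℝ) → ℂ) x =
      ((1 * (Pi.single a 1 : Fin (D + 1) → ℝ) b : ℝ) : ℂ) := by
    rw [Pi.single_apply]
    split_ifs <;> simp
  rw [e]
  exact h

theorem pd_comm (a b : Fin (D + 1)) (f : Sm D) : pd a (pd b f) = pd b (pd a f) := by
  have h1 : ∀ (x : Fin (D + 1) → ℝ) (a b : Fin (D + 1)), (pd a (pd b f)).1 x =
      fderiv ℝ (fderiv ℝ f.1) x (Pi.single a 1) (Pi.single b 1) := fun x a b => by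
    have h2 : DifferentiableAt ℝ (fderiv ℝ f.1) x :=
      ((Sm.smooth f).fderiv_right (m := ∞) (by simp)).differentiable (by simp) x
    change fderiv ℝ (fun x => fderiv ℝ f.1 x (Pi.single b 1)) x (Pi.single a 1) = _
    rw [fderiv_clm_apply h2 (differentiableAt_const _)]
    simp
  refine Subtype.ext <| funext fun x => ?_
  rw [h1, h1]
  refine (Sm.smooth f).contDiffAt.isSymmSndFDerivAt ?_ _ _
  rw [minSmoothness_of_isRCLikeNormedField]
  exact ENat.LEInfty.out

/-- The coordinate derivative as a linear map. -/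
noncomputable def pdL (a : Fin (D + 1)) : Sm D →ₗ[ℂ] Sm D where
  toFun := pd a
  map_add' := pd_add a
  map_smul' := pd_smul a

/-- The constant one-forms. -/
noncomputable def eps (a : Fin (D + 1)) : Lam D := ExteriorAlgebra.ι ℂ (Pi.single a 1)

/-- The grading involution. -/
noncomputable def lamInv : Lam D →ₐ[ℂ] Lam D := ExteriorAlgebra.map (-LinearMap.id)

theorem lamInv_ι (v : Fin (D + 1) → ℂ) :
    lamInv (ExteriorAlgebra.ι ℂ v) = -ExteriorAlgebra.ι ℂ v := by
  simp [lamInv]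

theorem lamInv_lamInv (y : Lam D) : lamInv (lamInv y) = y := by
  induction y using ExteriorAlgebra.induction with
  | algebraMap r => simp
  | ι v => rw [lamInv_ι, map_neg, lamInv_ι, neg_neg]
  | mul a b ha hb => rw [map_mul, map_mul, ha, hb]
  | add a b ha hb => rw [map_add, map_add, ha, hb]

theorem fm_anti (v w : Fin (D + 1) → ℂ) : ExteriorAlgebra.ι ℂ v * ExteriorAlgebra.ι ℂ w =
    -(ExteriorAlgebra.ι ℂ w * ExteriorAlgebra.ι ℂ v) :=
  eq_neg_of_add_eq_zero_left (ExteriorAlgebra.ι_add_mul_swap v w)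

theorem fm_ι_mul (v : Fin (D + 1) → ℂ) (y : Lam D) :
    ExteriorAlgebra.ι ℂ v * y = lamInv y * ExteriorAlgebra.ι ℂ v := by
  induction y using ExteriorAlgebra.induction with
  | algebraMap r => rw [AlgHom.commutes, Algebra.commutes]
  | ι w => rw [lamInv_ι, neg_mul, fm_anti]
  | mul a b ha hb => rw [← mul_assoc, ha, mul_assoc, hb, map_mul, mul_assoc]
  | add a b ha hb => rw [mul_add, ha, hb, map_add, add_mul]

/-- The exterior derivative. -/
noncomputable def dL (D : ℕ) : Sm D ⊗[ℂ] Lam D →ₗ[ℂ] Sm D ⊗[ℂ] Lam D :=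
  ∑ a, TensorProduct.map (pdL a) (LinearMap.mulLeft ℂ (eps a))

theorem dL_tmul (f : Sm D) (y : Lam D) : dL D (f ⊗ₜ y) = ∑ a, pd a f ⊗ₜ[ℂ] (eps a * y) := by
  rw [dL, LinearMap.sum_apply]
  rfl

/-- The grading involution of forms. -/
noncomputable def sigL (D : ℕ) : Sm D ⊗[ℂ] Lam D →ₐ[Sm D] Sm D ⊗[ℂ] Lam D :=
  Algebra.TensorProduct.map (AlgHom.id _ _) lamInv

theorem sigL_tmul (f : Sm D) (y : Lam D) : sigL D (f ⊗ₜ y) = f ⊗ₜ lamInv y := rfl

theorem dL_alg (f : Sm D) :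
    dL D (algebraMap (Sm D) _ f) = ∑ a, pd a f ⊗ₜ[ℂ] eps a := by
  rw [Algebra.TensorProduct.algebraMap_apply, Algebra.algebraMap_self, RingHom.id_apply, dL_tmul]
  simp only [mul_one]

theorem sigL_sigL (x : Sm D ⊗[ℂ] Lam D) : sigL D (sigL D x) = x := by
  induction x using TensorProduct.induction_on with
  | zero => simp
  | tmul f y => rw [sigL_tmul, sigL_tmul, lamInv_lamInv]
  | add x y hx hy => rw [map_add, map_add, hx, hy]

theorem dL_mul (x y : Sm D ⊗[ℂ] Lam D) : dL D (x * y) = dL D x * y + sigL D x * dL D y := by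
  induction x using TensorProduct.induction_on with
  | zero => simp
  | add x x' hx hx' => rw [add_mul, map_add, hx, hx', map_add, map_add, add_mul, add_mul]; abel
  | tmul f y' =>
    induction y using TensorProduct.induction_on with
    | zero => simp
    | add y y'' hy hy' => rw [mul_add, map_add, hy, hy', map_add, mul_add, mul_add]; abel
    | tmul g z =>
      rw [Algebra.TensorProduct.tmul_mul_tmul, dL_tmul, dL_tmul, dL_tmul, sigL_tmul,
        Finset.sum_mul, Finset.mul_sum, ← Finset.sum_add_distrib]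
      refine Finset.sum_congr rfl fun a _ => ?_
      rw [pd_mul, TensorProduct.add_tmul, Algebra.TensorProduct.tmul_mul_tmul,
        Algebra.TensorProduct.tmul_mul_tmul, mul_assoc, ← mul_assoc (lamInv y'), eps, ← fm_ι_mul,
        mul_assoc]

theorem dL_dL (f : Sm D) : dL D (dL D (algebraMap (Sm D) _ f)) = 0 := by
  rw [dL_alg, map_sum]
  simp only [dL_tmul]
  have h : ∑ a, ∑ b, pd b (pd a f) ⊗ₜ[ℂ] (eps b * eps a) =
      -∑ a, ∑ b, pd b (pd a f) ⊗ₜ[ℂ] (eps b * eps a) := by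
    conv_lhs => rw [Finset.sum_comm]
    rw [← Finset.sum_neg_distrib]
    refine Finset.sum_congr rfl fun a _ => ?_
    rw [← Finset.sum_neg_distrib]
    refine Finset.sum_congr rfl fun b _ => ?_
    rw [pd_comm, eps, eps, fm_anti, TensorProduct.tmul_neg]
  have h2 : (2 : ℂ) • ∑ a, ∑ b, pd b (pd a f) ⊗ₜ[ℂ] (eps b * eps a) = 0 := by
    rw [two_smul]
    exact add_eq_zero_iff_eq_neg.2 h
  exact (smul_eq_zero.1 h2).resolve_left two_ne_zero

theorem sigL_dL (f : Sm D) :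
    sigL D (dL D (algebraMap (Sm D) _ f)) = -dL D (algebraMap (Sm D) _ f) := by
  rw [dL_alg, map_sum, ← Finset.sum_neg_distrib]
  refine Finset.sum_congr rfl fun a _ => ?_
  rw [sigL_tmul, eps, lamInv_ι, TensorProduct.tmul_neg]

theorem dL_comm (f : Sm D) (y : Sm D ⊗[ℂ] Lam D) :
    dL D (algebraMap (Sm D) _ f) * y = sigL D y * dL D (algebraMap (Sm D) _ f) := by
  rw [dL_alg]
  induction y using TensorProduct.induction_on with
  | zero => simp
  | add y y' hy hy' => rw [mul_add, hy, hy', map_add, add_mul]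
  | tmul g z =>
    rw [sigL_tmul, Finset.sum_mul, Finset.mul_sum]
    refine Finset.sum_congr rfl fun a _ => ?_
    rw [Algebra.TensorProduct.tmul_mul_tmul, Algebra.TensorProduct.tmul_mul_tmul, eps, fm_ι_mul,
      mul_comm g]

/-- The de Rham algebra. -/
noncomputable def sd (D : ℕ) : SD (Sm D) (Om D) where
  d := (dL D).toAddMonoidHom
  σ := sigL D
  σσ := sigL_sigL
  leib := dL_mul
  dd := dL_dL
  σd := sigL_dL
  comm := dL_comm
  dc c := (dL_alg _).trans (Finset.sum_eq_zero fun a _ => by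
    rw [pd_const, TensorProduct.zero_tmul])

/-- Evaluation at a point, on the tensor product. -/
noncomputable def evL (x : Fin (D + 1) → ℝ) : Sm D ⊗[ℂ] Lam D →ₐ[ℂ] Lam D :=
  Algebra.TensorProduct.lift
    ((Algebra.ofId ℂ (Lam D)).comp ((Pi.evalAlgHom ℂ (fun _ => ℂ) x).comp (Sm D).val))
    (AlgHom.id ℂ _) fun f y => Algebra.commutes (f.1 x) y

theorem evL_tmul (x : Fin (D + 1) → ℝ) (f : Sm D) (y : Lam D) :
    evL x (f ⊗ₜ y) = f.1 x • y :=
  (Algebra.TensorProduct.lift_tmul _ _ _ f y).trans (Algebra.smul_def (f.1 x) y).symm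

/-- Evaluation at a point. -/
noncomputable def ev (x : Fin (D + 1) → ℝ) : Om D →+* Lam D := (evL x).toRingHom

/-- The top degree coefficient. -/
noncomputable def topL (D : ℕ) : Lam D →ₗ[ℂ] ℂ :=
  ExteriorAlgebra.liftAlternating
    (Pi.single (D + 1) (Pi.basisFun ℂ (Fin (D + 1))).det :
      ∀ i, (Fin (D + 1) → ℂ) [⋀^Fin i]→ₗ[ℂ] ℂ)

theorem topL_top (v : Fin (D + 1) → Fin (D + 1) → ℂ) :
    topL D (ExteriorAlgebra.ιMulti ℂ (D + 1) v) = (Pi.basisFun ℂ (Fin (D + 1))).det v := by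
  rw [topL, ExteriorAlgebra.liftAlternating_apply_ιMulti, Pi.single_eq_same]

theorem topL_ne {i : ℕ} (hi : i ≠ D + 1) (v : Fin i → Fin (D + 1) → ℂ) :
    topL D (ExteriorAlgebra.ιMulti ℂ i v) = 0 := by
  rw [topL, ExteriorAlgebra.liftAlternating_apply_ιMulti, Pi.single_eq_of_ne hi]
  rfl

theorem topL_map (Q : (Fin (D + 1) → ℂ) →ₗ[ℂ] Fin (D + 1) → ℂ) (y : Lam D) :
    topL D (ExteriorAlgebra.map Q y) = LinearMap.det Q * topL D y := by
  have h : topL D ∘ₗ (ExteriorAlgebra.map Q).toLinearMap = LinearMap.det Q • topL D := by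
    refine ExteriorAlgebra.lhom_ext fun i => AlternatingMap.ext fun v => ?_
    change topL D (ExteriorAlgebra.map Q (ExteriorAlgebra.ιMulti ℂ i v)) =
      LinearMap.det Q * topL D (ExteriorAlgebra.ιMulti ℂ i v)
    rw [ExteriorAlgebra.map_apply_ιMulti]
    by_cases hi : i = D + 1
    · subst hi
      rw [topL_top, topL_top, Module.Basis.det_comp]
    · rw [topL_ne hi, topL_ne hi, mul_zero]
  exact LinearMap.congr_fun h y

/-- The smooth function obtained by applying a linear form to the values of a form. -/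
noncomputable def coef (l : Lam D →ₗ[ℂ] ℂ) : Sm D ⊗[ℂ] Lam D →ₗ[ℂ] Sm D :=
  (TensorProduct.rid ℂ (Sm D)).toLinearMap ∘ₗ TensorProduct.map LinearMap.id l

theorem coef_tmul (l : Lam D →ₗ[ℂ] ℂ) (f : Sm D) (y : Lam D) : coef l (f ⊗ₜ y) = l y • f := rfl

theorem coef_apply (l : Lam D →ₗ[ℂ] ℂ) (α : Sm D ⊗[ℂ] Lam D) (x : Fin (D + 1) → ℝ) :
    (coef l α).1 x = l (evL x α) := by
  induction α using TensorProduct.induction_on with
  | zero => simp
  | add y y' hy hy' => rw [map_add, map_add, map_add, ← hy, ← hy']; rfl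
  | tmul g z => rw [coef_tmul, evL_tmul, map_smul, smul_eq_mul, mul_comm]; rfl

/-- The coefficient of the face `a`. -/
noncomputable def faceL (a : Fin (D + 1)) : Lam D →ₗ[ℂ] ℂ :=
  topL D ∘ₗ LinearMap.mulLeft ℂ (eps a)

theorem fm_integrable (f : Sm D) (i : Fin (D + 1)) (c : ℝ) :
    IntegrableOn (fun x : Fin D → ℝ => f.1 (Fin.insertNth i c x)) (Set.Icc 0 1) :=
  ((Sm.smooth f).continuous.comp
    (Continuous.finInsertNth i continuous_const continuous_id)).continuousOn.integrableOn_Icc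

/-- Integration over the face `x 0 = 0` of the unit box. -/
noncomputable def Jf (D : ℕ) : Om D →+ ℂ :=
  AddMonoidHom.mk' (fun α => ∫ x in Set.Icc (0 : Fin D → ℝ) 1,
    (coef (faceL 0) α).1 (Fin.insertNth 0 0 x)) fun α β => by
      rw [← integral_add (fm_integrable _ 0 0) (fm_integrable _ 0 0)]
      exact congrArg (fun f : Sm D => ∫ x in Set.Icc (0 : Fin D → ℝ) 1,
        f.1 (Fin.insertNth 0 0 x)) ((coef (faceL 0)).map_add α β)

theorem Jf_def (α : Sm D ⊗[ℂ] Lam D) : Jf D α = ∫ x in Set.Icc (0 : Fin D → ℝ) 1,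
    (coef (faceL 0) α).1 (Fin.insertNth 0 0 x) := rfl

theorem D1_def (f : Sm D) : (sd D).D1 f = (∑ a, pd a f ⊗ₜ[ℂ] eps a : Sm D ⊗[ℂ] Lam D) :=
  dL_alg f

theorem D1_coord (a : Fin (D + 1)) :
    (sd D).D1 (coord a) = ((1 : Sm D) ⊗ₜ[ℂ] eps a : Sm D ⊗[ℂ] Lam D) := by
  rw [D1_def, Finset.sum_eq_single a]
  · rw [pd_coord, if_pos rfl]
  · intro b _ hb
    rw [pd_coord, if_neg hb.symm, TensorProduct.zero_tmul]
  · simp

theorem fm_alg_mul (f : Sm D) (y : Lam D) :
    algebraMap (Sm D) (Sm D ⊗[ℂ] Lam D) f * (1 : Sm D) ⊗ₜ[ℂ] y = f ⊗ₜ[ℂ] y := by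
  rw [Algebra.TensorProduct.algebraMap_apply, Algebra.algebraMap_self, RingHom.id_apply,
    Algebra.TensorProduct.tmul_mul_tmul, mul_one, one_mul]

theorem D1_eq (f : Sm D) :
    (sd D).D1 f = ∑ a, algebraMap _ (Om D) (pd a f) * (sd D).D1 (coord a) := by
  rw [D1_def]
  refine Finset.sum_congr rfl fun a _ => ?_
  rw [D1_coord]
  exact (fm_alg_mul _ _).symm

theorem ev_alg (x : Fin (D + 1) → ℝ) (f : Sm D) :
    ev x (algebraMap _ (Om D) f) = algebraMap ℂ (Lam D) (f.1 x) :=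
  (evL_tmul x f 1).trans (Algebra.algebraMap_eq_smul_one _).symm

theorem ev_D1 (x : Fin (D + 1) → ℝ) (f : Sm D) :
    ev x ((sd D).D1 f) = ExteriorAlgebra.ι ℂ fun a => (pd a f).1 x := by
  rw [D1_def]
  refine (map_sum (evL x) _ _).trans ?_
  conv_rhs => rw [pi_eq_sum_univ' fun a => (pd a f).1 x]
  rw [map_sum]
  refine Finset.sum_congr rfl fun a _ => ?_
  rw [evL_tmul, map_smul, eps]

theorem Jf_eq_zero {α : Om D} (h : ∀ x, ev x α = 0) : Jf D α = 0 := by
  have h1 : ∀ x, (coef (faceL 0) α).1 x = 0 := fun x =>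
    (coef_apply _ α x).trans ((congrArg (faceL 0) (h x)).trans (map_zero _))
  refine (Jf_def α).trans ?_
  simp [h1]

theorem topL_perm {n : ℕ} (hn : n = D + 1) (s : Fin n → Fin (D + 1)) (hs : Function.Injective s) :
    topL D ((List.ofFn s).map eps).prod ≠ 0 := by
  subst hn
  let e : Equiv.Perm (Fin (D + 1)) := Equiv.ofBijective s (Finite.injective_iff_bijective.1 hs)
  have h : ((List.ofFn s).map eps).prod =
      ExteriorAlgebra.ιMulti ℂ (D + 1) (Pi.basisFun ℂ (Fin (D + 1)) ∘ e) := by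
    rw [ExteriorAlgebra.ιMulti_apply, List.map_ofFn]
    congr 2
    funext i
    simp [eps, e]
  rw [h, topL_top, AlternatingMap.map_perm, Module.Basis.det_self]
  rcases Int.units_eq_one_or (Equiv.Perm.sign e) with h | h <;> simp [h]

theorem Jf_top (l : List (Fin (D + 1))) (hl : (0 :: l).Nodup) (h : ∀ a, a ∈ 0 :: l) :
    ∃ c : ℂ, c ≠ 0 ∧ ∀ f : Sm D,
      Jf D (algebraMap _ (Om D) f * (l.map fun a => (sd D).D1 (coord a)).prod) =
        c * ∫ x in Set.Icc (0 : Fin D → ℝ) 1, f.1 (Fin.cons 0 x) := by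
  have h1 : (0 :: l).length = D + 1 := by
    rw [← List.toFinset_card_of_nodup hl, Finset.eq_univ_iff_forall.2 fun a =>
      List.mem_toFinset.2 (h a), Finset.card_univ, Fintype.card_fin]
  have h2 := topL_perm h1 (0 :: l).get (List.nodup_iff_injective_get.1 hl)
  rw [List.ofFn_get] at h2
  have h3 : ∀ l : List (Fin (D + 1)), (l.map fun a => (sd D).D1 (coord a)).prod =
      ((1 : Sm D) ⊗ₜ[ℂ] (l.map eps).prod : Sm D ⊗[ℂ] Lam D) := by
    intro l
    induction l with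
    | nil => rfl
    | cons a l ih =>
      rw [List.map_cons, List.prod_cons, ih, D1_coord, List.map_cons, List.prod_cons]
      exact (Algebra.TensorProduct.tmul_mul_tmul _ _ _ _).trans (by rw [mul_one])
  refine ⟨_, h2, fun f => ?_⟩
  rw [h3]
  refine (congrArg (Jf D) (fm_alg_mul f _)).trans ((Jf_def _).trans ?_)
  rw [coef_tmul, ← integral_const_mul]
  simp only [Fin.insertNth_zero']
  rfl

variable {Y : Type*}

/-- Smooth functions of `x 0` and `π (tail x)`. -/
def AdmF (π : (Fin D → ℝ) → Y) : Subalgebra ℂ (Sm D) where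
  carrier := {f | ∀ x y, x 0 = y 0 → π (Fin.tail x) = π (Fin.tail y) → f.1 x = f.1 y}
  mul_mem' {f g} hf hg x y h h' :=
    (congrArg₂ (· * ·) (hf x y h h') (hg x y h h') : f.1 x * g.1 x = f.1 y * g.1 y)
  add_mem' {f g} hf hg x y h h' :=
    (congrArg₂ (· + ·) (hf x y h h') (hg x y h h') : f.1 x + g.1 x = f.1 y + g.1 y)
  algebraMap_mem' _ _ _ _ _ := rfl

/-- Every coordinate is periodic, or both of its faces are degenerate. -/
def Good (π : (Fin D → ℝ) → Y) : Prop :=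
  ∀ a : Fin D, (∀ x, π (x + Pi.single a 1) = π x) ∨ ∀ c : ℝ, c = 0 ∨ c = 1 →
    ∃ v : Fin D → ℝ, v ≠ 0 ∧ v a = 0 ∧ ∀ x, x a = c → ∀ t : ℝ, π (x + t • v) = π x

theorem isUnit_admF {π : (Fin D → ℝ) → Y} {f : AdmF π} (h : ∀ x, f.1.1 x ≠ 0) : IsUnit f := by
  refine IsUnit.of_mul_eq_one ⟨⟨fun x => (f.1.1 x)⁻¹, ((Sm.smooth f.1).inv h :
    ContDiff ℝ ∞ fun x => (f.1.1 x)⁻¹)⟩, fun x y h1 h2 => congrArg (·⁻¹) (f.2 x y h1 h2)⟩ ?_
  exact Subtype.ext (Subtype.ext (funext fun x => mul_inv_cancel₀ (h x)))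

/-- Freezing the coordinate `x 0`. -/
noncomputable def upd (c : ℝ) : Sm D →ₐ[ℂ] Sm D where
  toFun f := ⟨fun x => f.1 (Function.update x 0 c), ((Sm.smooth f).comp
    (contDiff_pi.2 fun i => by
      by_cases hi : i = 0
      · subst hi
        simpa using contDiff_const
      · simpa [Function.update_of_ne hi] using contDiff_apply ℝ ℝ i) :
    ContDiff ℝ ∞ fun x => f.1 (Function.update x 0 c))⟩
  map_one' := rfl
  map_mul' _ _ := rfl
  map_zero' := rfl
  map_add' _ _ := rfl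
  commutes' _ := rfl

theorem pd_upd_zero (c : ℝ) (f : Sm D) : pd 0 (upd c f) = 0 := by
  refine Subtype.ext <| funext fun x => fm_fderiv_eq ?_
  have h : ∀ t : ℝ, Function.update (x + t • (Pi.single 0 1 : Fin (D + 1) → ℝ)) 0 c =
      Function.update x 0 c := fun t => by
    funext i
    by_cases hi : i = 0
    · simp [hi]
    · simp [hi]
  change HasDerivAt (fun t : ℝ => f.1 (Function.update (x + t • Pi.single 0 1) 0 c)) 0 0
  simp only [h]
  exact hasDerivAt_const _ _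

theorem pd_upd_ne (c : ℝ) (f : Sm D) {a : Fin (D + 1)} (ha : a ≠ 0) :
    pd a (upd c f) = upd c (pd a f) := by
  refine Subtype.ext <| funext fun x => fm_fderiv_eq ?_
  have h : ∀ t : ℝ, Function.update (x + t • (Pi.single a 1 : Fin (D + 1) → ℝ)) 0 c =
      Function.update x 0 c + t • (Pi.single a 1 : Fin (D + 1) → ℝ) := fun t => by
    funext i
    by_cases hi : i = 0
    · simp [hi, ha.symm]
    · simp [hi]
  change HasDerivAt (fun t : ℝ => f.1 (Function.update (x + t • Pi.single a 1) 0 c)) _ 0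
  simp only [h]
  exact fm_line f _ _

/-- The projection `ξ ↦ ξ - l(ξ) η`. -/
noncomputable def prj (l : (Fin (D + 1) → ℂ) →ₗ[ℂ] ℂ) (η : Fin (D + 1) → ℂ) :
    (Fin (D + 1) → ℂ) →ₗ[ℂ] Fin (D + 1) → ℂ := LinearMap.id - l.smulRight η

theorem prj_apply (l : (Fin (D + 1) → ℂ) →ₗ[ℂ] ℂ) (η ξ : Fin (D + 1) → ℂ) :
    prj l η ξ = ξ - l ξ • η := rfl

/-- The projection which kills `eps 0`. -/
noncomputable def lamP (D : ℕ) : Lam D →ₐ[ℂ] Lam D :=
  ExteriorAlgebra.map (prj (LinearMap.proj 0) (Pi.single 0 1))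

theorem lamP_zero : lamP D (eps 0) = 0 := by
  simp [lamP, eps, prj_apply]

theorem lamP_ne {a : Fin (D + 1)} (ha : a ≠ 0) : lamP D (eps a) = eps a := by
  simp [lamP, eps, prj_apply, ha.symm]

theorem eps_mul_lamP (y : Lam D) : eps 0 * lamP D y = eps 0 * y := by
  induction y using ExteriorAlgebra.induction with
  | algebraMap r => rw [AlgHom.commutes]
  | ι w =>
    rw [lamP, ExteriorAlgebra.map_apply_ι, prj_apply, map_sub, map_smul, mul_sub, mul_smul_comm,
      eps, ExteriorAlgebra.ι_sq_zero, smul_zero, sub_zero]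
  | mul a b ha hb =>
    rw [map_mul, ← mul_assoc, ha, ← mul_assoc]
    rw [eps] at hb ⊢
    rw [fm_ι_mul _ a, mul_assoc, hb, mul_assoc]
  | add a b ha hb => rw [map_add, mul_add, ha, hb, mul_add]

/-- The slices of a form. -/
noncomputable def slL (c : ℝ) : Sm D ⊗[ℂ] Lam D →ₐ[ℂ] Sm D ⊗[ℂ] Lam D :=
  Algebra.TensorProduct.map (upd c) (lamP D)

theorem slL_tmul (c : ℝ) (f : Sm D) (y : Lam D) : slL c (f ⊗ₜ y) = upd c f ⊗ₜ lamP D y := rfl

theorem slL_dL (c : ℝ) (α : Sm D ⊗[ℂ] Lam D) : slL c (dL D α) = dL D (slL c α) := by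
  induction α using TensorProduct.induction_on with
  | zero => simp
  | add y y' hy hy' => rw [map_add, map_add, hy, hy', map_add, map_add]
  | tmul f y =>
    rw [slL_tmul, dL_tmul, dL_tmul, map_sum]
    refine Finset.sum_congr rfl fun a _ => ?_
    rw [slL_tmul, map_mul]
    by_cases ha : a = 0
    · rw [ha, lamP_zero, pd_upd_zero, zero_mul, TensorProduct.tmul_zero, TensorProduct.zero_tmul]
    · rw [lamP_ne ha, pd_upd_ne c f ha]

theorem coef_slL (c : ℝ) (α : Sm D ⊗[ℂ] Lam D) :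
    coef (faceL 0) (slL c α) = upd c (coef (faceL 0) α) := by
  induction α using TensorProduct.induction_on with
  | zero => simp
  | add y y' hy hy' => rw [map_add, map_add, hy, hy', map_add, map_add]
  | tmul f y =>
    rw [slL_tmul, coef_tmul, coef_tmul, map_smul]
    exact congrArg (fun z => topL D z • upd c f) (eps_mul_lamP y)

theorem Jf_slL (c : ℝ) (α : Sm D ⊗[ℂ] Lam D) : Jf D (slL c α) =
    ∫ x in Set.Icc (0 : Fin D → ℝ) 1, (coef (faceL 0) α).1 (Fin.insertNth 0 c x) := by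
  rw [Jf_def, coef_slL]
  simp only [Fin.insertNth_zero']
  refine congrArg _ (funext fun x => ?_)
  exact congrArg (coef (faceL 0) α).1 (Fin.update_cons_zero _ _ _)

theorem coef_dL (α : Sm D ⊗[ℂ] Lam D) :
    coef (topL D) (dL D α) = ∑ a, pd a (coef (faceL a) α) := by
  induction α using TensorProduct.induction_on with
  | zero =>
    rw [map_zero, map_zero]
    refine (Finset.sum_eq_zero fun a _ => ?_).symm
    rw [map_zero]
    exact (pdL a).map_zero
  | add y y' hy hy' => simp only [map_add, hy, hy', pd_add, Finset.sum_add_distrib]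
  | tmul f y =>
    rw [dL_tmul, map_sum]
    refine Finset.sum_congr rfl fun a _ => ?_
    rw [coef_tmul, coef_tmul, pd_smul]
    rfl

theorem fm_divergence (F : Fin (D + 1) → Sm D) (h : ∑ a, pd a (F a) = 0) :
    ∑ a, ((∫ x in Set.Icc (0 : Fin D → ℝ) 1, (F a).1 (Fin.insertNth a 1 x)) -
      ∫ x in Set.Icc (0 : Fin D → ℝ) 1, (F a).1 (Fin.insertNth a 0 x)) = 0 := by
  have h1 : (fun x => ∑ a, fderiv ℝ (F a).1 x (Pi.single a 1)) = fun _ => 0 := by
    funext x
    have h2 := congrArg ((Pi.evalAlgHom ℂ (fun _ => ℂ) x).comp (Sm D).val) h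
    rw [map_sum, map_zero] at h2
    exact h2
  have h3 := integral_divergence_of_hasFDerivAt_off_countable' (0 : Fin (D + 1) → ℝ) 1 zero_le_one
    (fun a => (F a).1) (fun a x => fderiv ℝ (F a).1 x) ∅ Set.countable_empty
    (fun a => (Sm.smooth (F a)).continuous.continuousOn)
    (fun x _ a => (Sm.diff (F a) x).hasFDerivAt) (by rw [h1]; exact integrable_zero _ _ _)
  rw [h1, integral_zero] at h3
  exact h3.symm

theorem fm_ev_ext {π : (Fin D → ℝ) → Y} {F G : Om D →+* Lam D}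
    (h1 : ∀ f : AdmF π, F (algebraMap (Sm D) (Om D) f.1) = G (algebraMap (Sm D) (Om D) f.1))
    (h2 : ∀ f : AdmF π, F ((sd D).D1 f.1) = G ((sd D).D1 f.1)) {α : Om D}
    (hα : α ∈ ((sd D).restrict (AdmF π)).Ev) : F α = G α := by
  refine RingHom.eqOn_set_closure ?_ hα
  rintro _ (⟨f, rfl⟩ | ⟨f, g, rfl⟩)
  · exact h1 f
  · change F ((sd D).D1 f.1 * (sd D).D1 g.1) = G ((sd D).D1 f.1 * (sd D).D1 g.1)
    rw [map_mul, map_mul, h2, h2]

theorem fm_periodic {π : (Fin D → ℝ) → Y} {a : Fin D} (h : ∀ x, π (x + Pi.single a 1) = π x)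
    {α : Om D} (hα : α ∈ ((sd D).restrict (AdmF π)).Ev) (x : Fin (D + 1) → ℝ) :
    ev (x + Pi.single a.succ 1) α = ev x α := by
  have h1 : ∀ (f : AdmF π) (x : Fin (D + 1) → ℝ), f.1.1 (x + Pi.single a.succ 1) = f.1.1 x := by
    intro f x
    refine f.2 _ _ (by simp) ?_
    rw [← h (Fin.tail x)]
    congr 1
    funext i
    simp [Fin.tail, Pi.single_apply]
  refine fm_ev_ext (fun f => ?_) (fun f => ?_) hα
  · rw [ev_alg, ev_alg, h1]
  · rw [ev_D1, ev_D1]
    congr 1
    funext b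
    refine fm_fderiv_eq ?_
    have h2 : ∀ t : ℝ, f.1.1 (x + Pi.single a.succ 1 + t • Pi.single b 1) =
        f.1.1 (x + t • Pi.single b 1) := fun t => by rw [add_right_comm, h1]
    simp only [h2]
    exact fm_line f.1 x _

theorem fm_degenerate {π : (Fin D → ℝ) → Y} {a : Fin D} {v : Fin D → ℝ} (hv : v ≠ 0)
    (hva : v a = 0) {x : Fin (D + 1) → ℝ} (h : ∀ t : ℝ, π (Fin.tail x + t • v) = π (Fin.tail x))
    {α : Om D} (hα : α ∈ ((sd D).restrict (AdmF π)).Ev) : faceL a.succ (ev x α) = 0 := by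
  obtain ⟨j, hj⟩ := Function.ne_iff.1 hv
  have hj' : ((v j : ℝ) : ℂ) ≠ 0 := Complex.ofReal_ne_zero.2 hj
  let w : Fin (D + 1) → ℝ := Fin.cons 0 v
  let l : (Fin (D + 1) → ℂ) →ₗ[ℂ] ℂ := ∑ b, (w b : ℂ) • LinearMap.proj b
  have hl : ∀ ξ, l ξ = ∑ b, (w b : ℂ) * ξ b := fun ξ => by simp [l]
  have hl1 : ∀ (b : Fin D) (c : ℂ), l (Pi.single b.succ c) = v b * c := fun b c => by
    rw [hl, Finset.sum_eq_single b.succ]
    · simp [w]
    · intro b' _ hb
      simp [hb]
    · simp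
  let Q := prj l (Pi.single j.succ (v j : ℂ)⁻¹)
  have hQ : LinearMap.det Q = 0 := by
    refine LinearMap.det_eq_zero_iff_ker_ne_bot.2 fun hk => ?_
    have h1 : (Pi.single j.succ (v j : ℂ)⁻¹ : Fin (D + 1) → ℂ) ∈ LinearMap.ker Q := by
      rw [LinearMap.mem_ker, prj_apply, hl1, mul_inv_cancel₀ hj', one_smul, sub_self]
    rw [hk, Submodule.mem_bot] at h1
    simpa [hj'] using congrFun h1 j.succ
  have h2 : ExteriorAlgebra.map Q (ev x α) = ev x α := by
    refine fm_ev_ext (F := (ExteriorAlgebra.map Q).toRingHom.comp (ev x)) (fun f => ?_)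
      (fun f => ?_) hα
    · rw [RingHom.comp_apply, ev_alg]
      exact (ExteriorAlgebra.map Q).commutes _
    · change ExteriorAlgebra.map Q (ev x ((sd D).D1 f.1)) = ev x ((sd D).D1 f.1)
      have h3 : fderiv ℝ f.1.1 x w = 0 := by
        refine fm_fderiv_eq ?_
        have h4 : ∀ t : ℝ, f.1.1 (x + t • w) = f.1.1 x := fun t =>
          f.2 _ _ (by simp [w]) (by rw [← h t]; rfl)
        simp only [h4]
        exact hasDerivAt_const _ _
      have h5 : l (fun b => (pd b f.1).1 x) = 0 := by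
        rw [hl, ← h3]
        conv_rhs => rw [pi_eq_sum_univ' w]
        rw [map_sum]
        refine Finset.sum_congr rfl fun b _ => ?_
        rw [map_smul, Complex.real_smul]
        rfl
      rw [ev_D1, ExteriorAlgebra.map_apply_ι, prj_apply, h5, zero_smul, sub_zero]
  have h6 : ExteriorAlgebra.map Q (eps a.succ) = eps a.succ := by
    rw [eps, ExteriorAlgebra.map_apply_ι, prj_apply, hl1, hva]
    simp
  change topL D (eps a.succ * ev x α) = 0
  rw [← h2, ← h6, ← map_mul, topL_map, hQ, zero_mul]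

theorem fm_stokes {π : (Fin D → ℝ) → Y} (h : Good π) {α : Om D}
    (hα : α ∈ ((sd D).restrict (AdmF π)).Ev) (hd : dL D α = 0) :
    Jf D (slL 0 α) = Jf D (slL 1 α) := by
  have h1 := fm_divergence (fun a => coef (faceL a) α)
    ((coef_dL α).symm.trans ((congrArg (coef (topL D)) hd).trans (map_zero _)))
  rw [Fin.sum_univ_succ, Finset.sum_eq_zero, add_zero, sub_eq_zero] at h1
  · exact (Jf_slL 0 α).trans (h1.symm.trans (Jf_slL 1 α).symm)
  intro a _
  rw [sub_eq_zero]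
  refine congrArg _ (funext fun x => ?_)
  refine (coef_apply _ α _).trans (Eq.trans ?_ (coef_apply _ α _).symm)
  rcases h a with h | h
  · refine congrArg _ (Eq.trans (congrArg (fun z => ev z α) ?_) (fm_periodic h hα _))
    refine Fin.insertNth_eq_iff.2 ⟨by simp, funext fun i => ?_⟩
    simp [Fin.removeNth]
  · have h2 : ∀ c : ℝ, c = 0 ∨ c = 1 → faceL a.succ (ev (Fin.insertNth a.succ c x) α) = 0 := by
      intro c hc
      obtain ⟨v, hv, hva, h3⟩ := h c hc
      exact fm_degenerate hv hva (h3 _ (by simp [Fin.tail])) hα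
    exact (h2 1 (Or.inr rfl)).trans (h2 0 (Or.inl rfl)).symm

theorem exists_cyc {π : (Fin D → ℝ) → Y} (h : Good π) : ∃ T : Cyc (AdmF π) (Om D),
    T.toSD = (sd D).restrict (AdmF π) ∧ T.J = Jf D ∧
    (∀ b f x, (T.sl b f).1.1 x = f.1.1 (Function.update x 0 (if b then 1 else 0))) ∧
    ∀ x, ∃ t : ℝ, 0 ≤ t ∧ t ≤ 1 ∧ T.u.1.1 x = t := by
  have hm : ∀ (c : ℝ) (f : AdmF π), ((upd c).comp (AdmF π).val) f ∈ AdmF π :=
    fun c f x y _ h2 => f.2 _ _ (by simp) (by rwa [Fin.tail_update_zero, Fin.tail_update_zero])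
  let u : AdmF π := ⟨⟨fun x => (Real.smoothTransition (x 0) : ℂ),
    (Complex.ofRealCLM.contDiff.comp
      (Real.smoothTransition.contDiff.comp (contDiff_apply ℝ ℝ 0)) :
      ContDiff ℝ ∞ fun x : Fin (D + 1) → ℝ => (Real.smoothTransition (x 0) : ℂ))⟩,
    fun x y h1 _ => congrArg (fun t : ℝ => (Real.smoothTransition t : ℂ)) h1⟩
  refine ⟨⟨(sd D).restrict (AdmF π),
    fun b => ((upd (if b then 1 else 0)).comp (AdmF π).val).codRestrict _ (hm _),
    fun b => (slL (if b then 1 else 0)).toRingHom, fun b f => ?_, fun b α => slL_dL _ α,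
    fun b b' f => ?_, Jf D, fun α hα hd => fm_stokes h hα hd, u, ?_, ?_, ?_⟩, rfl, rfl,
    fun _ _ _ => rfl, fun x => ⟨_, Real.smoothTransition.nonneg (x 0),
      Real.smoothTransition.le_one (x 0), rfl⟩⟩
  · exact (slL_tmul _ f.1 1).trans (congrArg _ (map_one (lamP D)))
  · exact Subtype.ext (Subtype.ext (funext fun x =>
      congrArg f.1.1 (Function.update_idem _ _ x)))
  · refine Subtype.ext (Subtype.ext (funext fun x => ?_))
    change (Real.smoothTransition (Function.update x 0 0 0) : ℂ) = 0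
    simp
  · refine Subtype.ext (Subtype.ext (funext fun x => ?_))
    change (Real.smoothTransition (Function.update x 0 1 0) : ℂ) = 1
    simp
  · refine isUnit_admF fun x => ?_
    change ((1 : ℂ) - Real.smoothTransition (x 0)) ^ 2 + (Real.smoothTransition (x 0) : ℂ) ^ 2 ≠ 0
    have h1 : (1 - Real.smoothTransition (x 0)) ^ 2 + Real.smoothTransition (x 0) ^ 2 ≠ 0 := by
      nlinarith [sq_nonneg (1 - 2 * Real.smoothTransition (x 0))]
    exact_mod_cast h1

theorem exists_cutoff {π : (Fin D → ℝ) → Y} {K : Type*} [Fintype K] (q : K → AdmF π)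
    (hq : ∀ x, ∃ k, (q k).1.1 x ≠ 0) : ∃ χ : K → AdmF π,
    (∀ k x y, (∀ k, (q k).1.1 x = (q k).1.1 y) → (χ k).1.1 x = (χ k).1.1 y) ∧
    (∀ k x, ∃ t : ℝ, 0 ≤ t ∧ t ≤ 1 ∧ (χ k).1.1 x = t) ∧
    (∀ k x, (q k).1.1 x = 0 → (χ k).1.1 x = 0) ∧ ∀ x, ∃ k, (χ k).1.1 x = 1 := by
  obtain ⟨g, hgd⟩ : ∃ g : K → (K → ℂ) → ℂ, ∀ k z, g k z =
      (Real.smoothTransition (Fintype.card K * ‖z k‖ ^ 2 / ∑ j, ‖z j‖ ^ 2) : ℝ) :=
    ⟨_, fun _ _ => rfl⟩
  have hpos : ∀ x, 0 < ∑ j, ‖(q j).1.1 x‖ ^ 2 := fun x => by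
    obtain ⟨k, hk⟩ := hq x
    exact Finset.sum_pos' (fun _ _ => by positivity) ⟨k, Finset.mem_univ _, by positivity⟩
  have hs : ∀ k, ContDiff ℝ ∞ fun x => ‖(q k).1.1 x‖ ^ 2 := fun k =>
    (Sm.smooth (q k).1).norm_sq ℂ
  have hg : ∀ k, ContDiff ℝ ∞ fun x => g k fun j => (q j).1.1 x := fun k => by
    simp only [hgd]
    exact Complex.ofRealCLM.contDiff.comp (Real.smoothTransition.contDiff.comp
      ((contDiff_const.mul (hs k)).div (ContDiff.sum fun j _ => hs j) fun x => (hpos x).ne'))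
  refine ⟨fun k => ⟨⟨fun x => g k fun j => (q j).1.1 x, hg k⟩, fun x y h1 h2 =>
    congrArg (g k) (funext fun j => (q j).2 x y h1 h2)⟩,
    fun k x y h => congrArg (g k) (funext h), fun k x => ⟨_, Real.smoothTransition.nonneg _,
      Real.smoothTransition.le_one _, hgd k _⟩, fun k x h => ?_, fun x => ?_⟩
  · change g k (fun j => (q j).1.1 x) = 0
    simp [hgd, h]
  · obtain ⟨k₀, -⟩ := hq x
    obtain ⟨k, -, hk⟩ := Finset.exists_max_image Finset.univ (fun j => ‖(q j).1.1 x‖ ^ 2)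
      ⟨k₀, Finset.mem_univ _⟩
    refine ⟨k, ?_⟩
    change g k (fun j => (q j).1.1 x) = 1
    rw [hgd, Real.smoothTransition.one_of_one_le, Complex.ofReal_one]
    rw [one_le_div (hpos x)]
    simpa using Finset.sum_le_card_nsmul _ _ _ hk

end Vale.Agent.P174
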