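import Vale.Agent.P174.Cob

/-! P174: algebraic lemmas for module F5. -/

namespace Vale.Agent.P174

open Matrix Kronecker

section
variable {S P Q : Type*} [CommRing S] [Fintype P] [DecidableEq P] [Fintype Q] [DecidableEq Q]

theorem rot_mul (l l' : S) {q : Matrix P P S} (hq : q * q = q) :
    (1 + (l - 1) • q) * (1 + (l' - 1) • q) = 1 + (l * l' - 1) • q := by
  simp only [mul_add, add_mul, one_mul, mul_one, smul_mul_assoc, mul_smul_comm, hq]
  module

/-- The unit `1 + (l - 1) q`. -/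
def rotU (l : Sˣ) (q : Matrix P P S) (hq : q * q = q) : (Matrix P P S)ˣ where
  val := 1 + ((l : S) - 1) • q
  inv := 1 + (((l⁻¹ : Sˣ) : S) - 1) • q
  val_inv := by rw [rot_mul _ _ hq]; simp
  inv_val := by rw [rot_mul _ _ hq]; simp

/-- Extension by the identity along a split embedding. -/
def extH (M : Matrix P Q S) (N : Matrix Q P S) (h : N * M = 1) : Matrix Q Q S →* Matrix P P S where
  toFun x := 1 + M * (x - 1) * N
  map_one' := by simp
  map_mul' x y := by
    have : M * (x - 1) * N * (M * (y - 1) * N) = M * ((x - 1) * (y - 1)) * N := by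
      simp only [Matrix.mul_assoc]
      rw [← Matrix.mul_assoc N, h, Matrix.one_mul]
    rw [mul_add, add_mul, add_mul, this, show x * y - 1 = (x - 1) + ((y - 1) + (x - 1) * (y - 1)) by
      noncomm_ring]
    simp only [Matrix.mul_add, Matrix.add_mul, one_mul, mul_one, add_assoc]

theorem mapU_val {S' : Type*} [CommRing S'] (f : S →+* S') (B : (Matrix P P S)ˣ) :
    (mapU f B).val = B.val.map f := rfl

theorem SD.sum_D1_const {Ω : Type*} [Algebra ℂ S] [Ring Ω] [Algebra S Ω] (T : SD S Ω)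
    (M : Matrix P Q ℂ) (N : Matrix Q P ℂ) (h : N * M = 1) (v w : Q → S) :
    ∑ p, T.D1 ((w ᵥ* N.map (algebraMap ℂ S)) p) * T.D1 ((M.map (algebraMap ℂ S) *ᵥ v) p) =
      ∑ a, T.D1 (w a) * T.D1 (v a) := by
  have e : ∀ (c : ℂ) (f : S), T.D1 (algebraMap ℂ S c * f) = algebraMap ℂ S c • T.D1 f := by
    intro c f
    rw [T.D1_mul, show T.D1 (algebraMap ℂ S c) = 0 from T.dc c, mul_zero, zero_add,
      Algebra.smul_def]
  have e' : ∀ (f : Q → S), T.D1 (∑ a, f a) = ∑ a, T.D1 (f a) := fun f => by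
    simp only [SD.D1, map_sum]
  simp only [vecMul, mulVec, dotProduct, map_apply, e', mul_comm (w _), e, Finset.sum_mul_sum,
    smul_mul_smul_comm]
  rw [Finset.sum_comm]
  refine Finset.sum_congr rfl fun a _ => ?_
  rw [Finset.sum_comm, Finset.sum_congr rfl (g := fun b => algebraMap ℂ S ((N * M) a b) •
    (T.D1 (w a) * T.D1 (v b))) fun b _ => by simp [mul_apply, Finset.sum_smul]]
  simp [h, one_apply, apply_ite (algebraMap ℂ S)]

theorem tau_det {J : Type*} [Fintype J] [DecidableEq J] {n : ℕ} (a : Matrix J J ℤ) (κ : Fin n → ℤ)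
    (y : Fin n × J → S) (τ : S) (h : ∀ c, τ * y c ^ (c.1.val + 1) = 0) :
    τ * (Matrix.of fun s c : Fin n × J => ((κ s.1 * a s.2 c.2 : ℤ) : S) * y c ^ s.1.val).det =
      ((∏ i, κ i) ^ Fintype.card J * a.det ^ n : ℤ) • (τ * ∏ c, y c ^ c.1.val) := by
  have e : (Matrix.of fun s c : Fin n × J => ((κ s.1 * a s.2 c.2 : ℤ) : S) * y c ^ s.1.val) =
      (diagonal κ ⊗ₖ a).map (Int.cast : ℤ → S) *
        blockDiagonal fun j => Matrix.of fun i k : Fin n => y (k, j) ^ i.val := by
    ext s c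
    simp [mul_apply, Fintype.sum_prod_type, blockDiagonal_apply, diagonal_apply,
      apply_ite (Int.cast : ℤ → S)]
  let I : Ideal S := LinearMap.ker (LinearMap.mulLeft S τ)
  have e2 : Ideal.Quotient.mk I (∏ j, (Matrix.of fun i k : Fin n => y (k, j) ^ i.val).det) =
      Ideal.Quotient.mk I (∏ c, y c ^ c.1.val) := by
    rw [map_prod, map_prod, Fintype.prod_prod_type_right]
    refine Finset.prod_congr rfl fun j _ => ?_
    rw [RingHom.map_det, det_of_isUpperTriangular]
    · rfl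
    · intro i k hik
      obtain ⟨t, ht⟩ := Nat.exists_eq_add_of_le (show k.val + 1 ≤ i.val from hik)
      refine Ideal.Quotient.eq_zero_iff_mem.2 (show τ * y (k, j) ^ i.val = 0 from ?_)
      rw [ht, pow_add, ← mul_assoc, h (k, j), zero_mul]
  have e3 : τ * (_ - _) = 0 := Ideal.Quotient.eq.1 e2
  rw [mul_sub, sub_eq_zero] at e3
  rw [e, det_mul, ← Int.cast_det, det_kronecker, det_diagonal, det_blockDiagonal, mul_left_comm,
    e3, zsmul_eq_mul, Fintype.card_fin]

open ComplexOrder in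
theorem det_ne_zero_of_unitary {B : Matrix P P ℂ} (hB : B ∈ unitary (Matrix P P ℂ)) {μ : ℂ}
    (hμ : ‖μ‖ = 1) {t : ℝ} (h : (B - μ • 1).det = 0 → t = 0) :
    ((1 - t : ℂ) • B - (t * μ) • 1).det ≠ 0 := by
  intro h2
  obtain ⟨ξ, h3, h4⟩ := exists_mulVec_eq_zero_iff.2 h2
  rw [sub_mulVec, smul_mulVec, smul_mulVec, one_mulVec, sub_eq_zero] at h4
  have h5 : star (B *ᵥ ξ) ⬝ᵥ (B *ᵥ ξ) = star ξ ⬝ᵥ ξ := by
    rw [star_mulVec, dotProduct_mulVec, vecMul_vecMul, show Bᴴ * B = 1 from hB.1, vecMul_one]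
  have h6 : μ * star μ = 1 := by
    rw [Complex.star_def, Complex.mul_conj, Complex.normSq_eq_norm_sq, hμ]; simp
  have h7 := congrArg (fun z => star z ⬝ᵥ z) h4
  simp only [star_smul, smul_dotProduct, dotProduct_smul, h5, smul_eq_mul,
    ← mul_assoc] at h7
  have h8 := mul_right_cancel₀ (mt dotProduct_star_self_eq_zero.1 h3) h7
  have h9 : (t : ℂ) = 1 / 2 := by
    simp only [star_sub, star_one, star_mul', Complex.star_def, Complex.conj_ofReal] at h8 h6
    linear_combination -h8 / 2 - (t : ℂ) ^ 2 / 2 * h6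
  have h10 : t = 0 := h (exists_mulVec_eq_zero_iff.1 ⟨ξ, h3, by
    rw [sub_mulVec, smul_mulVec, one_mulVec, sub_eq_zero]
    rw [h9, mul_smul, show (1 - 1 / 2 : ℂ) = 1 / 2 by norm_num] at h4
    exact smul_right_injective _ (by norm_num) h4⟩)
  rw [h10] at h9
  norm_num at h9

theorem Cyc.eqv_list {Ω : Type*} [Algebra ℂ S] [Ring Ω] [Algebra S Ω] {T : Cyc S Ω} {l : Sˣ}
    (hl : ∀ b, T.sl b l = l) (i : ℕ) (L : List (Matrix P P S)ˣ) (h : ∀ a ∈ L, ∀ b, T.slM b a = a) :
    (∀ b, T.slM b L.prod = L.prod) ∧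
      T.Eqv (T.ν l * T.om i L.prod) (L.map fun a => T.ν l * T.om i a).sum := by
  induction L with
  | nil =>
    refine ⟨fun b => map_one _, ?_⟩
    have : T.om i (1 : (Matrix P P S)ˣ) = 0 := T.om_ev (RingHom.id _) i 1 fun p q => by
      have h0 := T.dc 0
      have h1 := T.dc 1
      rw [map_zero] at h0
      rw [map_one] at h1
      by_cases h : p = q <;> simp [one_apply, h, SD.D1, -map_one, -map_zero, h0, h1]
    simp [this, Cyc.Eqv.refl]
  | cons a L ih =>
    obtain ⟨h1, h2⟩ := ih fun a ha => h a (List.mem_cons_of_mem _ ha)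
    have h3 := h a List.mem_cons_self
    exact ⟨fun b => by rw [List.prod_cons, map_mul, h1, h3],
      (Cyc.eqv_mul hl i h3 h1).trans ((Cyc.Eqv.refl _).add h2)⟩
end

end Vale.Agent.P174
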