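import Vale.Agent.P174.Param
import Vale.Agent.P174.LSAux

/-! P174 module F5: the finite dimensional existence theorem. -/

namespace Vale.Agent.P174

open Matrix

/-- Words in amplified unitary unknowns, with their exponent sums. -/
inductive Adm {J P : Type} [DecidableEq J] [Fintype P] [DecidableEq P] (n : ℕ) :
    (J → ℤ) → ((J → Matrix (Fin n) (Fin n) ℂ) → Matrix P P ℂ) → Prop
  | const {C : Matrix P P ℂ} : C ∈ unitary (Matrix P P ℂ) → Adm n 0 fun _ => C
  | ext (j : J) {A : Matrix P (Fin n) ℂ} : Aᴴ * A = 1 →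
      Adm n (Pi.single j 1) fun r => 1 + A * (r j - 1) * Aᴴ
  | mul {a a' B B'} : Adm n a B → Adm n a' B' → Adm n (a + a') fun r => B r * B' r
  | inv {a B} : Adm n a B → Adm n (-a) fun r => star (B r)

theorem Adm.mem {J P : Type} [DecidableEq J] [Fintype P] [DecidableEq P] {n : ℕ} {a : J → ℤ}
    {B : (J → Matrix (Fin n) (Fin n) ℂ) → Matrix P P ℂ} (h : Adm n a B)
    {r : J → Matrix (Fin n) (Fin n) ℂ} (hr : ∀ j, r j ∈ unitary (Matrix (Fin n) (Fin n) ℂ)) :
    B r ∈ unitary (Matrix P P ℂ) := by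
  induction h with
  | const h => exact h
  | @ext j A h =>
    have e : star (extH A Aᴴ h (r j)) = extH A Aᴴ h (star (r j)) := by
      simp [extH, star_eq_conjTranspose, Matrix.mul_assoc]
    change extH A Aᴴ h (r j) ∈ _
    constructor <;> rw [e, ← map_mul]
    · rw [(hr j).1, map_one]
    · rw [(hr j).2, map_one]
  | mul _ _ h h' => exact mul_mem h h'
  | inv _ h => exact Unitary.star_mem h

section
variable {A Ω Λ Pt : Type} [CommRing A] [Algebra ℂ A] [Ring Ω] [Algebra A Ω] [Ring Λ]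
  {T : Cyc A Ω} {J P : Type} [Fintype J] [DecidableEq J] [Fintype P] [DecidableEq P] {n : ℕ}

theorem Cyc.slM_ext (M : Matrix P (Fin n) ℂ) (N : Matrix (Fin n) P ℂ) (h) {b : Bool}
    {x : (Matrix (Fin n) (Fin n) A)ˣ} (hx : T.slM b x = x) :
    T.slM b (Units.map (extH (M.map (algebraMap ℂ A)) (N.map (algebraMap ℂ A)) h) x) =
      Units.map (extH (M.map (algebraMap ℂ A)) (N.map (algebraMap ℂ A)) h) x := by
  have hc : ∀ (f : A →ₐ[ℂ] A) {m k : Type} (M : Matrix m k ℂ),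
      (M.map (algebraMap ℂ A)).map f = M.map (algebraMap ℂ A) := fun f _ _ M => by
    ext; simp
  have : x.val.map (T.sl b) = x := congrArg Units.val hx
  refine Units.ext ?_
  change (1 + M.map (algebraMap ℂ A) * (x.val - 1) * N.map (algebraMap ℂ A)).map (T.sl b) =
    1 + M.map (algebraMap ℂ A) * (x.val - 1) * N.map (algebraMap ℂ A)
  rw [Matrix.map_add _ (map_add _), Matrix.map_mul, Matrix.map_mul,
    Matrix.map_sub _ (map_sub _), hc, hc, this, Matrix.map_one _ (map_zero _) (map_one _),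
    Matrix.map_one _ (map_zero _) (map_one _)]

theorem Adm.lift (e : Pt → A →ₐ[ℂ] ℂ) (r : J → (Matrix (Fin n) (Fin n) A)ˣ)
    (hr : ∀ x j, (r j).val.map (e x) ∈ unitary (Matrix (Fin n) (Fin n) ℂ))
    (hr' : ∀ j b, T.slM b (r j) = r j) {η : Aˣ} (hη : ∀ b, T.sl b η = η) (i : ℕ) (β : J → Ω)
    (hβ : ∀ j (M : Matrix P (Fin n) ℂ) (N : Matrix (Fin n) P ℂ) h, N * M = 1 → T.Eqv (T.ν η *
      T.om i (Units.map (extH (M.map (algebraMap ℂ A)) (N.map (algebraMap ℂ A)) h) (r j))) (β j))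
    {a : J → ℤ} {B : (J → Matrix (Fin n) (Fin n) ℂ) → Matrix P P ℂ} (h : Adm n a B) :
    ∃ H : (Matrix P P A)ˣ, (∀ b, T.slM b H = H) ∧
      (∀ x, H.val.map (e x) = B fun j => (r j).val.map (e x)) ∧
      T.Eqv (T.ν η * T.om i H) (∑ j, a j • β j) := by
  have hc : ∀ (f : A →ₐ[ℂ] A) {m k : Type} (M : Matrix m k ℂ),
      (M.map (algebraMap ℂ A)).map f = M.map (algebraMap ℂ A) := fun f _ _ M => by
    ext; simp
  have hc' : ∀ x {m k : Type} (M : Matrix m k ℂ), (M.map (algebraMap ℂ A)).map (e x) = M :=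
    fun f _ _ M => by ext; simp
  induction h with
  | @const C h =>
    refine ⟨mapU (algebraMap ℂ A) (Unitary.toUnits ⟨C, h⟩), fun b => Units.ext (hc _ _),
      fun x => hc' x _, ?_⟩
    have := T.om_ev (RingHom.id _) i (mapU (algebraMap ℂ A) (Unitary.toUnits ⟨C, h⟩))
      fun p q => T.dc _
    rw [RingHom.id_apply] at this
    simp [this, Cyc.Eqv.refl]
  | @ext j M h =>
    have h' : Mᴴ.map (algebraMap ℂ A) * M.map (algebraMap ℂ A) = 1 := by
      rw [← Matrix.map_mul, h, Matrix.map_one _ (map_zero _) (map_one _)]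
    refine ⟨Units.map (extH _ _ h') (r j), fun b => Cyc.slM_ext _ _ _ (hr' j b), fun x => ?_, ?_⟩
    · change (1 + M.map (algebraMap ℂ A) * ((r j).val - 1) * Mᴴ.map (algebraMap ℂ A)).map (e x) = _
      rw [Matrix.map_add _ (map_add _), Matrix.map_mul, Matrix.map_mul,
        Matrix.map_sub _ (map_sub _), hc', hc', Matrix.map_one _ (map_zero _) (map_one _),
        Matrix.map_one _ (map_zero _) (map_one _)]
    · simpa [Pi.single_apply] using hβ j M Mᴴ h' h
  | mul _ _ h h' =>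
    obtain ⟨H, h1, h2, h3⟩ := h
    obtain ⟨H', h1', h2', h3'⟩ := h'
    refine ⟨H * H', fun b => by rw [map_mul, h1, h1'], fun x => by
      rw [Units.val_mul, Matrix.map_mul, h2, h2'], (Cyc.eqv_mul hη i h1 h1').trans ?_⟩
    simpa [add_smul, Finset.sum_add_distrib] using h3.add h3'
  | inv h0 h =>
    obtain ⟨H, h1, h2, h3⟩ := h
    refine ⟨H⁻¹, fun b => by rw [map_inv, h1], fun x => ?_, (Cyc.eqv_inv hη i h1).trans ?_⟩
    · refine left_inv_eq_right_inv (a := H.val.map (e x)) ?_ (h2 x ▸ (h0.mem (hr x)).2)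
      rw [← Matrix.map_mul, Units.inv_mul, Matrix.map_one _ (map_zero _) (map_one _)]
    · simpa using h3.zsmul (-1)

theorem Cyc.kill (e : Pt → A →ₐ[ℂ] ℂ) (EV : Pt → Ω →+* Λ)
    (hEV : ∀ x f, e x f = 0 → EV x (algebraMap A Ω f) = 0)
    (hunit : ∀ f, (∀ x, e x f ≠ 0) → IsUnit f) (hu : ∀ x, ∃ t : ℝ, e x T.u = t)
    {η : Aˣ} (hη : ∀ b, T.sl b η = η) (i : ℕ) {H : (Matrix P P A)ˣ} (h1 : ∀ b, T.slM b H = H)
    (h2 : ∀ x, H.val.map (e x) ∈ unitary (Matrix P P ℂ)) {μ : ℂ} (hμ : ‖μ‖ = 1) {χ : A}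
    (c1 : ∀ b, T.sl b χ = χ) (c2 : ∀ x, ∃ t : ℝ, e x χ = t)
    (c3 : ∀ x, (H.val.map (e x) - μ • 1).det = 0 → e x χ = 0) :
    ∃ y, T.Z0 y ∧ T.Eqv (T.ν η * T.om i H) y ∧ ∀ x, e x χ = 1 → EV x y = 0 := by
  have hm : ∀ {A' : Type} [CommRing A'] [Algebra ℂ A'] (f : A →ₐ[ℂ] A') (c : A),
      ((1 - c) • H.val - (c * algebraMap ℂ A μ) • (1 : Matrix P P A)).map f =
      (1 - f c) • H.val.map f - (f c * algebraMap ℂ A' μ) • 1 := fun f c => by
    ext p q
    by_cases h : p = q <;> simp [h]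
  obtain ⟨K, hK⟩ : IsUnit ((1 - T.u * (1 - (1 - χ) ^ 2)) • H.val -
      (T.u * (1 - (1 - χ) ^ 2) * algebraMap ℂ A μ) • (1 : Matrix P P A)) := by
    refine (isUnit_iff_isUnit_det _).2 (hunit _ fun x => ?_)
    obtain ⟨t, ht⟩ := hu x
    obtain ⟨t', ht'⟩ := c2 x
    have : e x (T.u * (1 - (1 - χ) ^ 2)) = (t * (1 - (1 - t') ^ 2) : ℝ) := by simp [ht, ht']
    rw [AlgHom.map_det, AlgHom.mapMatrix_apply, hm, this]
    refine det_ne_zero_of_unitary (h2 x) hμ fun h => ?_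
    have := c3 x h
    rw [ht', Complex.ofReal_eq_zero] at this
    simp [this]
  have e0 : ∀ b, (T.slM b K).val = (1 - T.sl b T.u * (1 - (1 - χ) ^ 2)) • H.val -
      (T.sl b T.u * (1 - (1 - χ) ^ 2) * algebraMap ℂ A μ) • 1 := fun b => by
    have : H.val.map (T.sl b) = H := congrArg Units.val (h1 b)
    change K.val.map (T.sl b) = _
    rw [hK, hm, this]
    simp [c1]
  have e1 : T.slM false K = H := Units.ext (by simp [e0, T.u0])
  refine ⟨_, Cyc.Z0.slot hη i fun b => Cyc.slM_slM b true K, e1 ▸ Cyc.eqv_homotopy hη i K,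
    fun x hx => ?_⟩
  rw [map_mul, T.om_ev (EV x), mul_zero]
  intro p q
  have : (T.slM true K).val p q = (1 - χ) * ((1 - χ) * (H.val p q +
      algebraMap ℂ A (μ * (1 : Matrix P P ℂ) p q))) +
      algebraMap ℂ A (-μ * (1 : Matrix P P ℂ) p q) := by
    rw [e0, T.u1]
    by_cases h : p = q <;> simp [h, one_apply] <;> ring
  rw [this, T.D1_add, T.D1_mul, show T.D1 (algebraMap ℂ A _) = 0 from T.dc _, add_zero, map_add,
    map_mul, map_mul (EV x), hEV, hEV] <;> simp [hx]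

theorem exists_eigen_abs (e : Pt → A →ₐ[ℂ] ℂ) (EV : Pt → Ω →+* Λ)
    (hEV : ∀ x f, e x f = 0 → EV x (algebraMap A Ω f) = 0)
    (hJ : ∀ α, (∀ x, EV x α = 0) → T.J α = 0)
    (hunit : ∀ f, (∀ x, e x f ≠ 0) → IsUnit f) (hu : ∀ x, ∃ t : ℝ, e x T.u = t)
    (hcut : ∀ q : Fin n × J → A, (∀ c b, T.sl b (q c) = q c) → (∀ x, ∃ c, e x (q c) ≠ 0) →
      ∃ χ : Fin n × J → A, (∀ c b, T.sl b (χ c) = χ c) ∧ (∀ c x, ∃ t : ℝ, e x (χ c) = t) ∧
        (∀ c x, e x (q c) = 0 → e x (χ c) = 0) ∧ ∀ x, ∃ c, e x (χ c) = 1)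
    (l η : Fin n × J → Aˣ) (hl : ∀ c b, T.sl b (l c) = l c) (hη : ∀ c b, T.sl b (η c) = η c)
    (p : Fin n × J → Matrix (Fin n) (Fin n) A) (hp : ∀ c, p c * p c = p c)
    (hp' : ∀ c b, (p c).map (T.sl b) = p c) (hl' : ∀ c x, ‖e x (l c)‖ = 1)
    (hp'' : ∀ c x, star ((p c).map (e x)) = (p c).map (e x)) (g : Fin n × J → A)
    (F : Fin n × J → Ω) (hF : ∀ c, T.Z0 (F c)) (hF' : ∀ c, F c ^ n = 0)
    (hom : ∀ c i (Q : Type) [Fintype Q] [DecidableEq Q] (M : Matrix Q (Fin n) ℂ)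
      (N : Matrix (Fin n) Q ℂ) (H : (Matrix Q Q A)ˣ), N * M = 1 → H.val = 1 + ((l c : A) - 1) •
        (M.map (algebraMap ℂ A) * p c * N.map (algebraMap ℂ A)) →
      T.om i H = (2 * i + 1) • (T.ν (l c) * (algebraMap A Ω (g c) * F c) ^ i))
    (hne : ∀ z : Fin n × J → Subring.center Ω, (∀ c, (z c : Ω) = T.ν (η c) * T.ν (l c) *
      algebraMap A Ω (g c ^ c.1.val) * F c ^ (n - 1)) →
      T.J (∏ c, z c : Subring.center Ω) ≠ 0)
    (a : Matrix J J ℤ) (ha : a.det ≠ 0) (B : J → (J → Matrix (Fin n) (Fin n) ℂ) → Matrix P P ℂ)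
    (hB : ∀ l, Adm n (a l) (B l)) (μ : Fin n → ℂ) (hμ : ∀ i, ‖μ i‖ = 1) :
    ∃ r : J → Matrix (Fin n) (Fin n) ℂ, (∀ j, r j ∈ unitary (Matrix (Fin n) (Fin n) ℂ)) ∧
      ∀ l i, (B l r - μ i • 1).det = 0 := by
  by_contra hcon
  push Not at hcon
  let r : J → (Matrix (Fin n) (Fin n) A)ˣ := fun j =>
    (List.ofFn fun k => rotU (l (k, j)) (p (k, j)) (hp _)).prod
  have r1 : ∀ c b, T.slM b (rotU (l c) (p c) (hp c)) = rotU (l c) (p c) (hp c) := fun c b =>
    Units.ext (by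
      have := hp' c b
      change (1 + ((l c : A) - 1) • p c).map (T.sl b) = 1 + ((l c : A) - 1) • p c
      conv_rhs => rw [← this]
      ext s t
      by_cases h : s = t <;> simp [h, hl])
  have r2 : ∀ x j, (r j).val.map (e x) ∈ unitary (Matrix (Fin n) (Fin n) ℂ) := fun x j => by
    change (e x).mapMatrix (Units.coeHom _ (r j)) ∈ _
    rw [map_list_prod, map_list_prod]
    refine list_prod_mem fun y hy => ?_
    simp only [List.map_ofFn, List.mem_ofFn] at hy
    obtain ⟨k, rfl⟩ := hy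
    have h1 : (p (k, j)).map (e x) * (p (k, j)).map (e x) = (p (k, j)).map (e x) := by
      rw [← Matrix.map_mul, hp]
    have h2 : e x (l (k, j)) * star (e x (l (k, j))) = 1 := by
      rw [Complex.star_def, Complex.mul_conj, Complex.normSq_eq_norm_sq, hl']; simp
    have h3 : (e x).mapMatrix (1 + ((l (k, j) : A) - 1) • p (k, j)) =
        1 + (e x (l (k, j)) - 1) • (p (k, j)).map (e x) := by
      ext s t
      by_cases h : s = t <;> simp [h]
    change (e x).mapMatrix (1 + ((l (k, j) : A) - 1) • p (k, j)) ∈ _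
    rw [h3]
    constructor <;> rw [star_add, star_one, star_smul, hp'', star_sub, star_one, rot_mul _ _ h1]
    · rw [mul_comm (star _), h2, sub_self, zero_smul, add_zero]
    · rw [h2, sub_self, zero_smul, add_zero]
  have r3 : ∀ j b, T.slM b (r j) = r j := fun j b => by
    rw [map_list_prod, List.map_ofFn]
    exact congrArg (fun f => (List.ofFn f).prod) (funext fun k => r1 _ _)
  let β : Fin n × J → Fin n × J → Ω := fun s c => T.ν (η s) *
    (2 * s.1.val + 1) • (T.ν (l c) * (algebraMap A Ω (g c) * F c) ^ s.1.val)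
  have b1 : ∀ s c, T.Z0 (β s c) := fun s c => by
    have := Cyc.Z0.slot (hη s) s.1.val (r1 c)
    rwa [hom c _ _ 1 1 _ (by simp) (by simp [rotU])] at this
  choose H h1 h2 h3 using fun s : Fin n × J => Adm.lift e r r2 r3 (hη s) s.1.val
    (fun j => ∑ k, β s (k, j)) (fun j M N h h' => by
      have := (Cyc.eqv_list (hη s) s.1.val (List.ofFn fun k => Units.map (extH _ _ h)
        (rotU (l (k, j)) (p (k, j)) (hp _))) ?_).2
      · rw [map_list_prod, List.map_ofFn]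
        rw [List.map_ofFn, List.sum_ofFn] at this
        refine this.trans ?_
        rw [Finset.sum_congr rfl fun k _ => ?_]
        · exact Cyc.Eqv.refl _
        · exact congrArg _ (hom (k, j) _ _ M N _ h' (by simp [extH, rotU]))
      · intro y hy b
        obtain ⟨k, rfl⟩ := List.mem_ofFn.1 hy
        exact Cyc.slM_ext _ _ _ (r1 _ b)) (hB s.2)
  have hd : ∀ {A' : Type} [CommRing A'] [Algebra ℂ A'] (f : A →ₐ[ℂ] A') s,
      f ((H s).val - algebraMap ℂ A (μ s.1) • 1).det =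
        ((H s).val.map f - algebraMap ℂ A' (μ s.1) • 1).det := fun f s => by
    rw [AlgHom.map_det]
    congr 1
    ext p q
    by_cases h : p = q <;> simp [h]
  obtain ⟨χ, c1, c2, c3, c4⟩ := hcut (fun s => ((H s).val - algebraMap ℂ A (μ s.1) • 1).det)
    (fun s b => by rw [hd, show (H s).val.map (T.sl b) = H s from congrArg Units.val (h1 s b)])
    fun x => by
      obtain ⟨j, i, h⟩ := hcon _ (r2 x)
      exact ⟨(i, j), by rwa [hd, h2]⟩
  choose y y1 y2 y3 using fun s => Cyc.kill e EV hEV hunit hu (hη s) s.1.val (h1 s)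
    (fun x => h2 s x ▸ (hB s.2).mem (r2 x)) (hμ s.1) (c1 s) (c2 s) fun x hx => c3 s x ((hd _ _).trans hx)
  let Y : Fin n × J → Subring.center Ω := fun s => ⟨y s, T.Ev_le_center (y1 s).ev⟩
  let U : Fin n × J → Fin n × J → Subring.center Ω := fun s c =>
    ⟨T.ν (η s) * T.ν (l c), T.Ev_le_center (T.ν_mul_ν_mem _ _)⟩
  let F' : Fin n × J → Subring.center Ω := fun s => ⟨F s, T.Ev_le_center (hF s).ev⟩
  let G' : Fin n × J → Subring.center Ω := fun s =>
    ⟨algebraMap A Ω (g s), Subring.mem_center_iff.2 fun x => (Algebra.commutes _ _).symm⟩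
  let M : Matrix (Fin n × J) (Fin n × J) (Subring.center Ω) := Matrix.of fun s c =>
    (((2 * s.1.val + 1 : ℤ) * a s.2 c.2 : ℤ) : Subring.center Ω) * (G' c * F' c) ^ s.1.val
  have m1 : ∀ s, ((∑ c, M s c * U s c : Subring.center Ω) : Ω) =
      ∑ j, a s.2 j • ∑ k, β s (k, j) := fun s => by
    rw [AddSubmonoidClass.coe_finsetSum, Fintype.sum_prod_type_right]
    refine Finset.sum_congr rfl fun j _ => ?_
    rw [Finset.smul_sum]
    refine Finset.sum_congr rfl fun k _ => ?_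
    rw [show M s (k, j) * U s (k, j) = a s.2 j • (2 * s.1.val + 1) •
      (U s (k, j) * (G' (k, j) * F' (k, j)) ^ s.1.val) by simp [M]; ring]
    simp [β, U, G', F', mul_assoc, -nsmul_eq_mul, -zsmul_eq_mul]
  have zs : ∀ {K : Type} (t : Finset K) (f : K → Ω), (∀ k, T.Z0 (f k)) → T.Z0 (∑ k ∈ t, f k) :=
    fun t f h => Finset.sum_induction _ _ (fun _ _ => Cyc.Z0.add) Cyc.Z0.zero fun k _ => h k
  have zp : ∀ c k, T.Z0 (F c ^ k) := fun c k => by
    induction k with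
    | zero => exact pow_zero (F c) ▸ Cyc.Z0.one
    | succ k ih => exact pow_succ (F c) k ▸ ih.mul (hF c)
  have u1 : ∀ s s' c c', U s c * U s' c' = -(U s c' * U s' c) := fun s s' c c' => Subtype.ext (by
    change T.ν _ * T.ν _ * (T.ν _ * T.ν _) = -(T.ν _ * T.ν _ * (T.ν _ * T.ν _))
    rw [mul_assoc, mul_assoc, ← mul_assoc (T.ν (l c)), ← mul_assoc (T.ν (l c')),
      T.ν_anti (l c), T.ν_anti (l c') (η s'), neg_mul, neg_mul, mul_assoc, mul_assoc,
      T.ν_anti (l c) (l c')]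
    simp)
  have u2 : ∀ s s' c, U s c * U s' c = 0 := fun s s' c => Subtype.ext (by
    change T.ν _ * T.ν _ * (T.ν _ * T.ν _) = 0
    rw [mul_assoc, ← mul_assoc (T.ν (l c)), T.ν_anti (l c), neg_mul, mul_assoc, T.ν_sq]
    simp)
  have u3 : ∀ c : Fin n × J, (∏ c : Fin n × J, F' c ^ (n - 1 - c.1.val)) *
      (G' c * F' c) ^ (c.1.val + 1) = 0 := fun c => by
    have : F' c ^ (n - 1 - c.1.val) * F' c ^ (c.1.val + 1) = 0 := Subtype.ext (by
      rw [← pow_add, show n - 1 - c.1.val + (c.1.val + 1) = n by have := c.1.2; omega]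
      exact hF' c)
    rw [← Finset.mul_prod_erase _ _ (Finset.mem_univ c), mul_pow]
    linear_combination (G' c ^ (c.1.val + 1) * ∏ c ∈ Finset.univ.erase c,
      F' c ^ (n - 1 - c.1.val)) * this
  have m2 := Cyc.eqv_prod (T := T) Finset.univ Y (fun s => ∑ c, M s c * U s c) (fun s _ => y1 s)
    (fun s _ => m1 s ▸ zs _ _ fun j => (zs _ _ fun k => b1 _ _).zsmul _) (fun s _ => m1 s ▸ (y2 s).symm.trans (h3 s))
    _ (Cyc.z0_prod Finset.univ (fun c => F' c ^ (n - 1 - c.1.val)) fun c _ => zp c _)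
  rw [hJ, prod_alt U u1 u2, ← Subring.coe_mul, mul_right_comm, mul_comm M.det,
    tau_det a (fun i => 2 * i.val + 1) _ _ u3, smul_mul_assoc, ← Finset.prod_mul_distrib,
    ← Finset.prod_mul_distrib, AddSubgroupClass.coe_zsmul, map_zsmul, eq_comm, smul_eq_zero] at m2
  · refine m2.elim ?_ (hne _ fun c => ?_)
    · exact mul_ne_zero (pow_ne_zero _ (Finset.prod_ne_zero_iff.2 fun i _ => by omega))
        (pow_ne_zero _ ha)
    · rw [show F' c ^ (n - 1 - c.1.val) * (G' c * F' c) ^ c.1.val * U c c =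
        U c c * G' c ^ c.1.val * (F' c ^ (n - 1 - c.1.val) * F' c ^ c.1.val) by ring, ← pow_add,
        show n - 1 - c.1.val + c.1.val = n - 1 by have := c.1.2; omega, map_pow]
      rfl
  · intro x
    obtain ⟨s, hs⟩ := c4 x
    rw [← Finset.mul_prod_erase _ _ (Finset.mem_univ s), Subring.coe_mul, map_mul, map_mul,
      show EV x (Y s) = 0 from y3 s x hs, zero_mul, zero_mul]
end

theorem exists_eigen {J P : Type} [Fintype J] [DecidableEq J] [Fintype P] [DecidableEq P] {n : ℕ}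
    (a : Matrix J J ℤ) (ha : a.det ≠ 0)
    (B : J → (J → Matrix (Fin (n + 1)) (Fin (n + 1)) ℂ) → Matrix P P ℂ)
    (hB : ∀ l, Adm (n + 1) (a l) (B l)) (μ : Fin (n + 1) → ℂ) (hμ : ∀ i, ‖μ i‖ = 1) :
    ∃ r : J → Matrix (Fin (n + 1)) (Fin (n + 1)) ℂ,
      (∀ j, r j ∈ unitary (Matrix (Fin (n + 1)) (Fin (n + 1)) ℂ)) ∧
      ∀ l i, (B l r - μ i • 1).det = 0 := by
  obtain ⟨D, Y, π, hπ, l, η, v, w, p1, p2, p3, p4, p5, p6, p7, p8, p9⟩ :=
    exists_param (Fin (n + 1) × J) n fun c => c.1.val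
  obtain ⟨T, t1, t2, t3, t4⟩ := exists_cyc hπ
  let e : (Fin (D + 1) → ℝ) → AdmF π →ₐ[ℂ] ℂ := fun x =>
    (Pi.evalAlgHom ℂ _ x).comp ((Sm D).val.comp (AdmF π).val)
  have inv : ∀ f : AdmF π, (∀ x t, f.1.1 (Function.update x 0 t) = f.1.1 x) → ∀ b, T.sl b f = f :=
    fun f h b => Subtype.ext (Subtype.ext (funext fun x => (t3 b f x).trans (h _ _)))
  let p : Fin (n + 1) × J → Matrix (Fin (n + 1)) (Fin (n + 1)) (AdmF π) := fun c =>
    Matrix.of fun a b => ⟨v c a * w c b, p7 c a b⟩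
  have q1 : ∀ c, (p c).map (AdmF π).val = vecMulVec (v c) (w c) := fun c => rfl
  have q2 : ∀ c a a' b, T.sl b (p c a a') = p c a a' := fun c a a' => inv _ fun x t => by
    change (v c a).1 _ * (w c a').1 _ = (v c a).1 _ * (w c a').1 _
    rw [p5, p5, p3, p3]
  have q3 : ∀ f : AdmF π, T.D1 f = (sd D).D1 f := fun f => by rw [t1]; rfl
  refine exists_eigen_abs (T := T) e ev (fun x f h => ?_) (fun α h => ?_) (fun f => isUnit_admF)
    (fun x => (t4 x).imp fun t h => h.2.2) (fun q h1 h2 => ?_) l η (fun c => inv _ (p1 c))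
    (fun c => inv _ (p2 c)) p (fun c => ?_) (fun c b => Matrix.ext fun a a' => q2 c a a' b) p4
    (fun c x => ?_) (fun c => ((l c : AdmF π) - 1) ^ 2 * ((l c)⁻¹ : (AdmF π)ˣ))
    (fun c => ∑ a, (sd D).D1 (w c a) * (sd D).D1 (v c a)) (fun c => ?_) p8
    (fun c i Q _ _ M N H h1 h2 => ?_) (fun z hz => ?_) a ha B hB μ hμ
  · exact (ev_alg x f.1).trans (by rw [show f.1.1 x = 0 from h, map_zero])
  · rw [t2]; exact Jf_eq_zero h
  · obtain ⟨χ, c1, c2, c3, c4⟩ := exists_cutoff q h2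
    refine ⟨χ, fun c b => Subtype.ext (Subtype.ext (funext fun x => (t3 b _ x).trans
      (c1 c _ _ fun k => ?_))), fun c x => (c2 c x).imp fun t h => h.2.2, c3, c4⟩
    rw [← t3, h1]
  · refine Matrix.map_injective (f := (AdmF π).val) Subtype.val_injective ?_
    change (p c * p c).map (AdmF π).val = (p c).map (AdmF π).val
    rw [Matrix.map_mul, q1, vecMulVec_mul_vecMulVec, p6, one_smul]
  · ext a b
    change star ((v c b).1 x * (w c a).1 x) = (v c a).1 x * (w c b).1 x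
    rw [p5, p5, star_mul, star_star]
  · have h1 : ∑ a, (sd D).D1 (w c a) * (sd D).D1 (v c a) = ∑ a, ∑ a', ∑ a'',
        algebraMap _ (Om D) (p c a a'') * (T.D1 (p c a'' a') * T.D1 (p c a' a)) := by
      rw [(sd D).sum_D1_eq_trace _ _ (p6 c)]
      simp only [trace, diag, mul_apply, Finset.sum_mul, mul_assoc, q3]
      rfl
    refine ⟨?_, ?_, fun b => ?_⟩
    · rw [h1]
      exact sum_mem fun a _ => sum_mem fun a' _ => sum_mem fun a'' _ => mul_mem
        (Subring.subset_closure (Or.inl ⟨_, rfl⟩)) (Subring.subset_closure (Or.inr ⟨_, _, rfl⟩))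
    · rw [show T.d = (sd D).d by rw [t1]; rfl, map_sum]
      exact Finset.sum_eq_zero fun a _ => (sd D).d_D1_mul_D1 _ _
    · rw [h1]
      simp only [map_sum, map_mul, SD.D1, T.SL_d, T.SL_alg, q2]
  · have hc : ∀ {m k : Type} (M : Matrix m k ℂ), (M.map (algebraMap ℂ (AdmF π))).map (AdmF π).val =
        M.map (algebraMap ℂ (Sm D)) := fun M => rfl
    rw [t1, SD.restrict_om, (sd D).om_rank_one i (M.map (algebraMap ℂ _) *ᵥ v c)
      (w c ᵥ* N.map (algebraMap ℂ _)) ?_ (Units.map (AdmF π).val.toRingHom.toMonoidHom (l c)),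
      (sd D).sum_D1_const M N h1]
    · rfl
    · change H.val.map (AdmF π).val = _
      rw [h2, Matrix.map_add _ (map_add _), Matrix.map_one _ (map_zero _) (map_one _),
        Matrix.map_smul' _ _ _ (map_mul _), Matrix.map_mul, Matrix.map_mul, hc, hc, q1,
        mul_vecMulVec, vecMulVec_mul]
      rfl
    · rw [dotProduct_mulVec, vecMul_vecMul, ← Matrix.map_mul, h1,
        Matrix.map_one _ (map_zero _) (map_one _), vecMul_one, p6]
  · rw [t2]
    exact p9 z (t1 ▸ hz)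

end Vale.Agent.P174
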