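import Vale.Agent.P174.Defs

/-! P174 module C1: a word whose value lies in `G` freely reduces to it. -/

namespace Vale.Agent.P174

namespace RedAux

variable {G X : Type*} [Group G]

/-- Reduced stacks. -/
def Rd : List (G × X × Bool) → Prop
  | a :: b :: r => ¬ (a.1 = 1 ∧ b.2 = (a.2.1, !a.2.2)) ∧ Rd (b :: r)
  | _ => True

theorem Rd.tail {a : G × X × Bool} {r : List (G × X × Bool)} (h : Rd (a :: r)) : Rd r := by
  cases r with
  | nil => trivial
  | cons b r => exact h.2

open Classical in
/-- Reading an unknown letter. -/
noncomputable def stepv (x : X) (b : Bool) : List (G × X × Bool) × G → List (G × X × Bool) × G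
  | ([], t) => ([(t, x, b)], 1)
  | (a :: r, t) => if t = 1 ∧ a.2 = (x, !b) then (r, a.1) else ((t, x, b) :: a :: r, 1)

theorem stepv_rd (x : X) (b : Bool) {s : List (G × X × Bool) × G} (h : Rd s.1) :
    Rd (stepv x b s).1 := by
  obtain ⟨st, t⟩ := s
  cases st with
  | nil => trivial
  | cons a r =>
    simp only [stepv]
    split_ifs with hc
    · exact h.tail
    · exact ⟨hc, h⟩

theorem stepv_stepv (x : X) (b : Bool) {s : List (G × X × Bool) × G} (h : Rd s.1) :
    stepv x (!b) (stepv x b s) = s := by
  obtain ⟨st, t⟩ := s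
  cases st with
  | nil => simp [stepv]
  | cons a r =>
    by_cases hc : t = 1 ∧ a.2 = (x, !b)
    · have e : stepv x b (a :: r, t) = (r, a.1) := by simp only [stepv, if_pos hc]
      rw [e]
      obtain ⟨g, l⟩ := a
      obtain ⟨rfl, rfl⟩ := hc
      cases r with
      | nil => rfl
      | cons c r => simp only [stepv, if_neg h.1]
    · have e : stepv x b (a :: r, t) = ((t, x, b) :: a :: r, 1) := by
        simp only [stepv, if_neg hc]
      rw [e]
      simp [stepv]

/-- States of the machine. -/
abbrev St (G X : Type*) [Group G] := {s : List (G × X × Bool) × G // Rd s.1}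

/-- The permutation of an unknown. -/
noncomputable def pv (x : X) : Equiv.Perm (St G X) where
  toFun s := ⟨stepv x false s.1, stepv_rd x false s.2⟩
  invFun s := ⟨stepv x true s.1, stepv_rd x true s.2⟩
  left_inv s := Subtype.ext (stepv_stepv x false s.2)
  right_inv s := Subtype.ext (stepv_stepv x true s.2)

/-- The permutation of a group element. -/
def pg : G →* Equiv.Perm (St G X) where
  toFun h :=
    { toFun := fun s => ⟨(s.1.1, s.1.2 * h⁻¹), s.2⟩
      invFun := fun s => ⟨(s.1.1, s.1.2 * h), s.2⟩
      left_inv := fun s => by simp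
      right_inv := fun s => by simp }
  map_one' := by ext s <;> simp
  map_mul' a b := by ext s <;> simp [mul_assoc]

/-- The action of the free product. -/
noncomputable def act : Monoid.Coprod G (FreeGroup X) →* Equiv.Perm (St G X) :=
  Monoid.Coprod.lift pg (FreeGroup.lift pv)

theorem act_inl (h : G) (s : St G X) :
    ((act (Monoid.Coprod.inl h))⁻¹ s).1 = (s.1.1, s.1.2 * h) := by
  rw [act, Monoid.Coprod.lift_apply_inl]
  rfl

theorem act_inr (x : X) (b : Bool) (s : St G X) :
    ((act (lev (.inr (x, b))))⁻¹ s).1 = stepv x b s.1 := by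
  cases b
  · rw [lev, map_inv, inv_inv, act, Monoid.Coprod.lift_apply_inr, FreeGroup.lift_apply_of]
    rfl
  · rw [lev, act, Monoid.Coprod.lift_apply_inr, FreeGroup.lift_apply_of]
    rfl

/-- The invariant. -/
inductive Inv : List (G × X × Bool) → G → List (Letter G X) → Prop
  | base {g : G} {W : List (Letter G X)} : Red g W → Inv [] g W
  | cons {st : List (G × X × Bool)} {g t : G} {A B : List (Letter G X)} (l : X × Bool) :
      Inv st g A → Red t B → Inv ((g, l) :: st) t (A ++ .inr l :: B)

theorem Inv.grp {st : List (G × X × Bool)} {g : G} {W : List (Letter G X)} (h : Inv st g W)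
    (a : G) : Inv st (g * a) (W ++ [.inl a]) := by
  cases h with
  | base h => exact Inv.base (h.grp a)
  | cons l h1 h2 =>
    rw [List.append_assoc, List.cons_append]
    exact Inv.cons l h1 (h2.grp a)

theorem Inv.can {st : List (G × X × Bool)} {g : G} {A B : List (Letter G X)} (h : Inv st g A)
    (x : X) (b : Bool) (hB : Red 1 B) :
    Inv st g (A ++ .inr (x, b) :: (B ++ [.inr (x, !b)])) := by
  cases h with
  | base h => exact Inv.base (h.can x b hB)
  | cons l h1 h2 =>
    rw [List.append_assoc, List.cons_append]
    exact Inv.cons l h1 (h2.can x b hB)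

theorem Inv.step {s : List (G × X × Bool) × G} {W : List (Letter G X)} (h : Inv s.1 s.2 W)
    (x : X) (b : Bool) : Inv (stepv x b s).1 (stepv x b s).2 (W ++ [.inr (x, b)]) := by
  obtain ⟨st, t⟩ := s
  cases st with
  | nil => exact Inv.cons (x, b) h Red.nil
  | cons a r =>
    simp only [stepv]
    split_ifs with hc
    · obtain ⟨g, l⟩ := a
      obtain ⟨rfl, rfl⟩ := hc
      cases h with
      | cons l h1 h2 =>
        have := h1.can x (!b) h2
        rwa [Bool.not_not, ← List.cons_append, ← List.append_assoc] at this
    · exact Inv.cons (x, b) h Red.nil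

/-- The initial state. -/
def s0 : St G X := ⟨([], 1), trivial⟩

theorem inv_run (W : List (Letter G X)) :
    Inv ((act (evalW W))⁻¹ s0).1.1 ((act (evalW W))⁻¹ s0).1.2 W := by
  induction W using List.reverseRecOn with
  | nil =>
    simp only [evalW, List.map_nil, List.prod_nil, map_one, inv_one]
    exact Inv.base Red.nil
  | append_singleton W l ih =>
    have e : (act (evalW (W ++ [l])))⁻¹ s0 = (act (lev l))⁻¹ ((act (evalW W))⁻¹ s0) := by
      simp [evalW]
    rw [e]
    rcases l with h | ⟨x, b⟩
    · rw [lev, act_inl]
      exact ih.grp h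
    · rw [act_inr]
      exact ih.step x b

end RedAux

open RedAux in
theorem red_of_eval {G X : Type*} [Group G] (W : List (Letter G X)) (g : G)
    (h : evalW W = Monoid.Coprod.inl g) : Red g W := by
  have h1 := inv_run W
  rw [h, act_inl] at h1
  simp only [s0, one_mul] at h1
  cases h1 with
  | base h2 => exact h2

end Vale.Agent.P174
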