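import Vale.Agent.P174.Chain1
import Vale.Agent.P174.Chain2
import Vale.Agent.P174.Faces
import Vale.Agent.P174.Red

/-! P174: assembly. -/

namespace Vale.Agent.P174

theorem exists_cols {m n : ℕ} (a : Matrix (Fin m) (Fin n) ℤ)
    (h : (a.map (Int.cast : ℤ → ℚ)).rank = m) :
    LinearIndependent ℤ (fun j => a j) ∧
      ∃ s : Fin m → Fin n, (Matrix.of fun l j => a j (s l)).det ≠ 0 := by
  obtain ⟨κ, c, hc, h1, h2⟩ := exists_linearIndependent' ℚ (a.map (Int.cast : ℤ → ℚ)).col
  have : Finite κ := Finite.of_injective c hc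
  have := Fintype.ofFinite κ
  have h3 := linearIndependent_iff_card_eq_finrank_span.1 h2
  rw [Set.finrank, h1, ← Matrix.rank_eq_finrank_span_cols, h] at h3
  let e := (Fintype.equivFinOfCardEq h3).symm
  have h4 : (Matrix.of fun l j => a j (c (e l))).det ≠ 0 := by
    intro h5
    have h6 : IsUnit ((Matrix.of fun l j => a j (c (e l))).map (Int.cast : ℤ → ℚ)) :=
      Matrix.linearIndependent_rows_iff_isUnit.1 (h2.comp e e.injective)
    rw [Matrix.isUnit_iff_isUnit_det, ← Int.cast_det, h5] at h6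
    simp at h6
  refine ⟨?_, _, h4⟩
  rw [← Matrix.det_transpose] at h4
  exact LinearIndependent.of_comp (LinearMap.funLeft ℤ ℤ fun l => c (e l))
    (Matrix.linearIndependent_rows_of_det_ne_zero h4)

theorem howie {G : Type*} [Group G] {m n : ℕ} (w : Fin m → Monoid.Coprod G (FreeGroup (Fin n)))
    (h : (Matrix.of fun i j => (((expSum (w i)).toAdd j : ℤ) : ℚ)).rank = m) :
    Function.Injective ((QuotientGroup.mk' (Subgroup.normalClosure (Set.range w))).comp
      Monoid.Coprod.inl) := by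
  rw [injective_iff_map_eq_one]
  intro g hg
  by_contra hg1
  obtain ⟨h1, s, hs⟩ := exists_cols (Matrix.of fun i j => (expSum (w i)).toAdd j) h
  obtain ⟨k, P, K, _, _, _, _, ⟨F⟩⟩ := exists_faceData w h1 g ((QuotientGroup.eq_one_iff _).1 hg)
  obtain ⟨B, _, _, _, _, ⟨T⟩⟩ := exists_base G
  have hpi := Real.pi_pos
  have hN : (0 : ℝ) < 2 * F.L.length + 1 := by positivity
  obtain ⟨M, δ, hψ⟩ := exists_psi_le (η := Real.pi / 8 / (2 * F.L.length + 1)) (by positivity)
  obtain ⟨E, hE, ω, c, hc, hT⟩ := chain2 F.lab (Circle.exp (2 * δ)) (red_of_eval _ g F.eval)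
    F.p0 F.L rfl F.nodup
  have c1 := chain1 T F s hs hE M (ε := Real.pi / 8) (by positivity)
  have c2 := T.cost_tr M hT
  set V := pm (F.p0 :: F.L).formPerm * dg (lam F.lab F.L) * E
  have hcard : Fintype.card P = F.L.length + 1 := by
    rw [← List.length_cons, ← List.toFinset_card_of_nodup F.nodup, ← Finset.card_univ]
    congr 1
    exact (Finset.eq_univ_of_forall fun q => List.mem_toFinset.2 (F.all q)).symm
  have e1 : rep T.gam (dg fun _ : P => ((Circle.exp δ, 1) : Circle × G)) =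
      Complex.exp (δ * Complex.I) • (1 : Matrix P P B) := by
    ext q p
    by_cases h : q = p <;> simp [rep, Base.gam, h]
  have e2 : ((T.mat P).τ 1).re = F.L.length + 1 := by
    have := T.mat_sc (1 : Matrix P P ℂ)
    rw [map_one, Matrix.trace_one, hcard] at this
    rw [this]; simp
  have d1 := c1.2 _ (T.rep_mem (dg fun _ : P => ((Circle.exp δ, 1) : Circle × G)))
  have d2 := c2.2 _ (T.rep_mem (dg (tgt F.p0 F.L (Circle.exp (2 * δ)) ω g *
    (fun _ : P => ((Circle.exp δ, 1) : Circle × G))⁻¹)))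
  have e3 : dg (tgt F.p0 F.L (Circle.exp (2 * δ)) ω g *
      (fun _ : P => ((Circle.exp δ, 1) : Circle × G))⁻¹) *
      ((dg (tgt F.p0 F.L (Circle.exp (2 * δ)) ω g))⁻¹ * V⁻¹) =
      (dg (fun _ : P => ((Circle.exp δ, 1) : Circle × G)) * V)⁻¹ := by
    have hc : ∀ u : Mon P (Circle × G),
        Commute (dg (fun _ : P => ((Circle.exp δ, 1) : Circle × G))) u := fun u =>
      SemidirectProduct.ext (funext fun q => by
        rw [mon_mul_left, mon_mul_left]; ext <;> simp [mul_comm]) (by simp)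
    clear_value V
    rw [map_mul, map_inv, (hc V).eq, ← (hc _).inv_left.eq]
    group
  rw [← map_mul, e3, ← T.star_rep, Trc.Φ_star, T.Φ_dg, map_mul] at d2
  rw [e1, Trc.Φ_scalar, e2] at d1
  rw [e1] at d2
  have e4 : ∑ q, T.Φ M (T.gam ((tgt F.p0 F.L (Circle.exp (2 * δ)) ω g *
      (fun _ : P => ((Circle.exp δ, 1) : Circle × G))⁻¹) q)) ≤
      Real.pi / 2 + F.L.length * psi M δ := by
    rw [← Finset.add_sum_erase _ _ (Finset.mem_univ F.p0), Finset.sum_congr rfl
      (g := fun _ => psi M δ), Finset.sum_const, Finset.card_erase_of_mem (Finset.mem_univ _),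
      Finset.card_univ, hcard, Nat.add_sub_cancel, nsmul_eq_mul]
    · refine add_le_add ((le_of_eq ?_).trans (T.Φ_gam_le M (ω * (Circle.exp δ)⁻¹) hg1)) le_rfl
      simp [tgt]
    · intro q hq
      have h1 := Finset.ne_of_mem_erase hq
      have h2 := (List.mem_cons.1 (F.all q)).resolve_left h1
      rw [← T.Φ_gam_one]
      congr 2
      simp [tgt, h1, h2, two_mul]
  have e5 : (2 * c + nx (F.L.map F.lab) : ℝ) = 2 * F.L.length := by exact_mod_cast hc
  have e6 := mul_le_mul_of_nonneg_left hψ hN.le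
  rw [mul_add, mul_div_cancel₀ _ hN.ne'] at e6
  nlinarith

end Vale.Agent.P174
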