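import Vale.Agent.P174.ParamAux2

/-! P174 module F4: the cycle `(S¹ × S¹ × CP^n)^C` parametrised by a box. -/

namespace Vale.Agent.P174

open Matrix

section

open Real

variable {D n : ℕ} {C Y : Type}

/-- A unit among the admissible functions. -/
noncomputable def exU {π' : (Fin D → ℝ) → Y} (κ : ℂ) (a : Fin (D + 1)) (h : ex κ a ∈ AdmF π') :
    (AdmF π')ˣ where
  val := ⟨ex κ a, h⟩
  inv := ⟨ex (-κ) a, fun x y h0 hπ => by
    have h1 := h x y h0 hπ
    rw [ex_val, ex_val] at h1
    rw [ex_val, ex_val, neg_mul, neg_mul, Complex.exp_neg, Complex.exp_neg, h1]⟩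
  val_inv := Subtype.ext ((mul_comm _ _).trans (ex_mul κ a))
  inv_val := Subtype.ext (ex_mul κ a)

theorem ν_exU {π' : (Fin D → ℝ) → Y} (κ : ℂ) (a : Fin (D + 1)) (h : ex κ a ∈ AdmF π') :
    ((sd D).restrict (AdmF π')).ν (exU κ a h) =
      algebraMap _ (Om D) (cn D κ) * (sd D).D1 (coord a) := by
  show algebraMap _ (Om D) (ex (-κ) a) * (sd D).D1 (ex κ a) = _
  rw [D1_ex, ← mul_assoc, ← map_mul, mul_left_comm, ex_mul, mul_one]

theorem vv_star (φ ψ : Fin n → Fin (D + 1)) (a : Fin (n + 1)) (x : Fin (D + 1) → ℝ) :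
    (vv (-(2 * π * Complex.I)) φ ψ a).1 x = star ((vv (2 * π * Complex.I) φ ψ a).1 x) := by
  refine Fin.cases ?_ (fun k => ?_) a
  · simp only [vv, Fin.cons_zero, prod_val, cs_val, star_prod, Complex.star_def,
      Complex.conj_ofReal]
  · simp only [vv, rho, Fin.cons_succ, mul_val, prod_val, cs_val, sn_val, ex_val, map_mul,
      map_prod, Complex.star_def, Complex.conj_ofReal, ← Complex.exp_conj, Complex.conj_I,
      map_ofNat, mul_neg]

theorem vv_phase (κ : ℂ) (φ ψ : Fin n → Fin (D + 1)) (x y : Fin (D + 1) → ℝ) (u : ℂ)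
    (hφ : ∀ k, y (φ k) = x (φ k)) (h0 : u = 1 ∨ ∃ k, x (φ k) = 1)
    (hψ : ∀ k, x (φ k) = 0 ∨ Complex.exp (κ * y (ψ k)) = u * Complex.exp (κ * x (ψ k)))
    (a : Fin (n + 1)) : (vv κ φ ψ a).1 y = u * (vv κ φ ψ a).1 x := by
  refine Fin.cases ?_ (fun k => ?_) a
  · simp only [vv, Fin.cons_zero, prod_val, cs_val, hφ]
    rcases h0 with h | ⟨k, h⟩
    · rw [h, one_mul]
    · rw [Finset.prod_eq_zero (Finset.mem_univ k) (by simp [h]), mul_zero]
  · simp only [vv, rho, Fin.cons_succ, mul_val, prod_val, cs_val, sn_val, ex_val, hφ]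
    rcases hψ k with h | h
    · simp [h]
    · rw [h]
      ring

variable (e : (C × Option (Fin n)) × Bool ≃ Fin D)

/-- The section of the tautological bundle on a cell. -/
noncomputable def vc (κ : ℂ) (c : C) : Fin (n + 1) → Sm D :=
  vv κ (fun k => (e ((c, some k), false)).succ) (fun k => (e ((c, some k), true)).succ)

/-- The parametrisation. -/
noncomputable def par (x : Fin D → ℝ) (c : C) : (Bool → ℂ) × (Fin (n + 1) → Fin (n + 1) → ℂ) :=
  (fun b => Complex.exp (2 * π * Complex.I * x (e ((c, none), b))), fun a b =>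
    (vc e (2 * π * Complex.I) c a * vc e (-(2 * π * Complex.I)) c b).1 (Fin.cons 0 x))

theorem vc_tail (κ : ℂ) (c : C) (a : Fin (n + 1)) (x y : Fin (D + 1) → ℝ)
    (h : ∀ i : Fin D, y i.succ = x i.succ) : (vc e κ c a).1 y = (vc e κ c a).1 x := by
  rw [vc, vv_phase κ _ _ x y 1 (fun k => h _) (Or.inl rfl)
    (fun k => Or.inr (by rw [h, one_mul])), one_mul]

theorem ex_adm (c : C) (b : Bool) :
    ex (2 * π * Complex.I) (e ((c, none), b)).succ ∈ AdmF (par e) :=
  fun _ _ _ h => congrFun (congrArg Prod.fst (congrFun h c)) b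

theorem vc_adm (c : C) (a b : Fin (n + 1)) :
    vc e (2 * π * Complex.I) c a * vc e (-(2 * π * Complex.I)) c b ∈ AdmF (par e) := by
  intro x y _ h
  have h1 := congrFun (congrFun (congrArg Prod.snd (congrFun h c)) a) b
  simp only [par, mul_val] at h1
  rw [mul_val, mul_val, vc_tail e _ c a (Fin.cons 0 (Fin.tail x)) x fun _ => rfl,
    vc_tail e _ c b (Fin.cons 0 (Fin.tail x)) x fun _ => rfl, h1,
    vc_tail e _ c a (Fin.cons 0 (Fin.tail y)) y fun _ => rfl,
    vc_tail e _ c b (Fin.cons 0 (Fin.tail y)) y fun _ => rfl]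

theorem par_eq (x y : Fin D → ℝ) (s : C → ℝ)
    (h : ∀ c b, Complex.exp (2 * π * Complex.I * y (e ((c, none), b))) =
      Complex.exp (2 * π * Complex.I * x (e ((c, none), b))))
    (hφ : ∀ c k, y (e ((c, some k), false)) = x (e ((c, some k), false)))
    (h0 : ∀ c, s c = 0 ∨ ∃ k, x (e ((c, some k), false)) = 1)
    (hψ : ∀ c k, x (e ((c, some k), false)) = 0 ∨
      Complex.exp (2 * π * Complex.I * y (e ((c, some k), true))) =
        Complex.exp (2 * π * Complex.I * (x (e ((c, some k), true)) + s c : ℝ))) :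
    par e y = par e x := by
  funext c
  refine Prod.ext (funext (h c)) (funext fun a => funext fun b => ?_)
  have h1 := fun a => vv_phase (2 * π * Complex.I) (fun k => (e ((c, some k), false)).succ)
    (fun k => (e ((c, some k), true)).succ) (Fin.cons 0 x) (Fin.cons 0 y)
    (Complex.exp (2 * π * Complex.I * s c)) (hφ c)
    ((h0 c).imp_left fun h => by simp [h])
    (fun k => (hψ c k).imp_right fun h => by
      rw [Fin.cons_succ, Fin.cons_succ, h, ← Complex.exp_add]
      congr 1
      push_cast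
      ring) a
  have h2 : Complex.exp (2 * π * Complex.I * s c) *
      star (Complex.exp (2 * π * Complex.I * s c)) = 1 := by
    rw [Complex.star_def, ← Complex.exp_conj, ← Complex.exp_add]
    simp [map_ofNat]
  simp only [par, mul_val, vc, vv_star, h1, star_mul']
  linear_combination ((vv (2 * π * Complex.I) (fun k => (e ((c, some k), false)).succ)
    (fun k => (e ((c, some k), true)).succ) a).1 (Fin.cons 0 x) *
    star ((vv (2 * π * Complex.I) (fun k => (e ((c, some k), false)).succ)
    (fun k => (e ((c, some k), true)).succ) b).1 (Fin.cons 0 x))) * h2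

theorem exp_single (x : Fin D → ℝ) (a b : Fin D) :
    Complex.exp (2 * π * Complex.I * (x + Pi.single a 1 : Fin D → ℝ) b) =
      Complex.exp (2 * π * Complex.I * x b) := by
  by_cases h : b = a
  · subst h
    simp [mul_add, Complex.exp_add]
  · simp [h]

theorem good_par [DecidableEq C] : Good (par e) := by
  intro a
  obtain ⟨i, rfl⟩ := e.surjective a
  by_cases hi : ∃ c k, i = ((c, some k), false)
  · obtain ⟨c, k, rfl⟩ := hi
    refine Or.inr fun t ht => ?_
    rcases ht with rfl | rfl
    · refine ⟨Pi.single (e ((c, some k), true)) 1, by simp, by simp, fun x hx t => ?_⟩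
      refine par_eq e _ _ 0 (by simp) (by simp) (by simp) fun c' k' => ?_
      by_cases h : (c', k') = (c, k)
      · obtain ⟨rfl, rfl⟩ := Prod.mk.inj h
        exact Or.inl hx
      · right
        rw [Pi.add_apply, Pi.smul_apply, Pi.single_eq_of_ne (by simpa using h)]
        simp
    · refine ⟨fun j => if (e.symm j).1.1 = c ∧ (e.symm j).1.2 ≠ none ∧ (e.symm j).2 = true
        then 1 else 0, fun h => ?_, by simp, fun x hx t => ?_⟩
      · simpa using congrFun h (e ((c, some k), true))
      · refine par_eq e _ _ (fun c' => if c' = c then t else 0) (by simp) (by simp)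
          (fun c' => ?_) fun c' k' => Or.inr (by simp)
        by_cases h : c' = c
        · exact Or.inr ⟨k, h ▸ hx⟩
        · exact Or.inl (if_neg h)
  · refine Or.inl fun x => par_eq e _ _ 0 (fun _ _ => exp_single _ _ _) (fun c k => ?_)
      (by simp) fun c k => Or.inr (by simpa using exp_single x (e i) (e ((c, some k), true)))
    rw [Pi.add_apply, Pi.single_eq_of_ne, add_zero]
    exact fun h => hi ⟨c, k, (e.injective h).symm⟩

theorem Jf_ne_zero [Fintype C] {W : Sm D} (hW : W ∈ Ps D) :
    Jf D (algebraMap _ (Om D) W * (∏ p : C × Option (Fin n),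
      (sd D).uu (coord (e (p, false)).succ) (coord (e (p, true)).succ) :
        Subring.center (Om D))) ≠ 0 := by
  have h1 : ((0 : Fin (D + 1)) ::
      (Finset.univ.toList.product [false, true]).map fun i => (e i).succ).Nodup := by
    refine List.nodup_cons.2 ⟨by simp [Fin.succ_ne_zero], ?_⟩
    exact ((Finset.nodup_toList _).product (by simp)).map
      ((Fin.succ_injective _).comp e.injective)
  have h2 : ∀ a, a ∈ (0 : Fin (D + 1)) ::
      (Finset.univ.toList.product [false, true]).map fun i => (e i).succ := by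
    intro a
    refine Fin.cases List.mem_cons_self (fun j => List.mem_cons_of_mem _ ?_) a
    obtain ⟨⟨p, b⟩, rfl⟩ := e.surjective j
    exact List.mem_map.2 ⟨(p, b), List.mem_product.2 ⟨by simp, by cases b <;> simp⟩, rfl⟩
  obtain ⟨κ, hκ, h⟩ := Jf_top _ h1 h2
  rw [← Finset.prod_map_toList, (sd D).prod_pairs _ fun i => coord (e i).succ]
  rw [List.map_map] at h
  exact (h W).trans_ne (mul_ne_zero hκ (integral_ne_zero hW))

end

theorem exists_param (C : Type) [Fintype C] [DecidableEq C] (n : ℕ) (k : C → ℕ) :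
    ∃ (D : ℕ) (Y : Type) (π : (Fin D → ℝ) → Y) (_ : Good π) (l η : C → (AdmF π)ˣ)
      (v w : C → Fin (n + 1) → Sm D),
      (∀ c x t, (l c).1.1.1 (Function.update x 0 t) = (l c).1.1.1 x) ∧
      (∀ c x t, (η c).1.1.1 (Function.update x 0 t) = (η c).1.1.1 x) ∧
      (∀ c a x t, (v c a).1 (Function.update x 0 t) = (v c a).1 x) ∧
      (∀ c x, ‖(l c).1.1.1 x‖ = 1) ∧
      (∀ c a x, (w c a).1 x = star ((v c a).1 x)) ∧
      (∀ c, w c ⬝ᵥ v c = 1) ∧ (∀ c a b, v c a * w c b ∈ AdmF π) ∧
      (∀ c, (∑ a, (sd D).D1 (w c a) * (sd D).D1 (v c a)) ^ (n + 1) = 0) ∧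
      ∀ z : C → Subring.center (Om D), (∀ c, (z c : Om D) =
          ((sd D).restrict (AdmF π)).ν (η c) * ((sd D).restrict (AdmF π)).ν (l c) *
          algebraMap (AdmF π) (Om D) ((((l c : AdmF π) - 1) ^ 2 * ((l c)⁻¹ : (AdmF π)ˣ)) ^ k c) *
          (∑ a, (sd D).D1 (w c a) * (sd D).D1 (v c a)) ^ n) →
        Jf D (∏ c, z c : Subring.center (Om D)) ≠ 0 := by
  have e := Fintype.equivFin ((C × Option (Fin n)) × Bool)
  generalize Fintype.card ((C × Option (Fin n)) × Bool) = D at e
  have hκ : (2 * Real.pi * Complex.I : ℂ) ≠ 0 := Complex.two_pi_I_ne_zero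
  have hv := fun c => vv_pow _ hκ (fun j => e ((c, some j), false))
    (fun j => e ((c, some j), true)) _ rfl
  refine ⟨D, _, par e, good_par e, fun c => exU _ _ (ex_adm e c true),
    fun c => exU _ _ (ex_adm e c false), vc e (2 * Real.pi * Complex.I),
    vc e (-(2 * Real.pi * Complex.I)), fun c x t => ?_, fun c x t => ?_, fun c a x t => ?_,
    fun c x => ?_, fun c a x => vv_star _ _ a x, fun c => vv_dot _ _ _, vc_adm e,
    fun c => (hv c).1, fun z hz => ?_⟩
  · show (ex _ _).1 _ = (ex _ _).1 _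
    rw [ex_val, ex_val, Function.update_of_ne (Fin.succ_ne_zero _)]
  · show (ex _ _).1 _ = (ex _ _).1 _
    rw [ex_val, ex_val, Function.update_of_ne (Fin.succ_ne_zero _)]
  · exact vc_tail e _ c a _ _ fun i => Function.update_of_ne (Fin.succ_ne_zero _) _ _
  · show ‖(ex _ _).1 _‖ = 1
    rw [ex_val, Complex.norm_exp]
    simp
  · choose W hW hF using fun c => (hv c).2
    have hz' : ∀ c, ∃ V ∈ Ps D, z c = SD.ce _ _ V * ∏ o : Option (Fin n),
        (sd D).uu (coord (e ((c, o), false)).succ) (coord (e ((c, o), true)).succ) := by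
      intro c
      refine ⟨_, mul_mem (mul_mem (mul_mem (cn_mem hκ) (cn_mem hκ))
        (pow_mem (ex_mem (e ((c, none), true))) (k c))) (hW c), Subtype.ext ?_⟩
      rw [hz c, ν_exU, ν_exU, Fintype.prod_option, Subring.coe_mul, Subring.coe_mul, SD.ce_val,
        SD.uu_val]
      have h1 := hF c
      simp only [vc]
      rw [h1]
      show _ * algebraMap (Sm D) (Om D) (((ex (2 * Real.pi * Complex.I) _ - 1) ^ 2 *
        ex (-(2 * Real.pi * Complex.I)) _) ^ k c) * _ = _
      simp only [← Algebra.smul_def, ← Algebra.commutes, smul_mul_assoc, mul_smul_comm, smul_smul]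
      congr 1
      ring
    choose V hV hz'' using hz'
    rw [Finset.prod_congr rfl fun c _ => hz'' c, Finset.prod_mul_distrib, ← map_prod,
      ← Fintype.prod_prod_type' fun c o =>
        (sd D).uu (coord (e ((c, o), false)).succ) (coord (e ((c, o), true)).succ),
      Subring.coe_mul, SD.ce_val]
    exact Jf_ne_zero e (prod_mem fun c _ => hV c)

end Vale.Agent.P174
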