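import Vale.Agent.P174.DGA

/-! P174 module F4, auxiliary part: top powers of a triangular two-form. -/

namespace Vale.Agent.P174

open Matrix

namespace SD

variable {S Ω : Type*} [CommRing S] [Algebra ℂ S] [Ring Ω] [Algebra S Ω] (T : SD S Ω)

/-- Functions as central elements. -/
def ce (S Ω : Type*) [CommRing S] [Ring Ω] [Algebra S Ω] : S →+* Subring.center Ω :=
  RingHom.codRestrict (algebraMap S Ω) (Subring.center Ω)
    fun f => Subring.mem_center_iff.2 fun y => (Algebra.commutes f y).symm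

omit [Algebra ℂ S] in
theorem ce_val (f : S) : (ce S Ω f : Ω) = algebraMap S Ω f := rfl

/-- Products of two differentials as central elements. -/
def uu (f g : S) : Subring.center Ω :=
  ⟨T.D1 f * T.D1 g, T.Ev_le_center (Subring.subset_closure (Or.inr ⟨f, g, rfl⟩))⟩

theorem uu_val (f g : S) : (T.uu f g : Ω) = T.D1 f * T.D1 g := rfl

theorem uu_swap (f g f' g' : S) : T.uu f g * T.uu f' g' = -(T.uu f' g * T.uu f g') := by
  apply Subtype.ext
  show T.D1 f * T.D1 g * (T.D1 f' * T.D1 g') = -(T.D1 f' * T.D1 g * (T.D1 f * T.D1 g'))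
  have h : T.D1 f * T.D1 g * T.D1 f' = -(T.D1 f' * T.D1 g * T.D1 f) := by
    have h1 : T.D1 f * T.D1 g * T.D1 f' = T.D1 f' * (T.D1 f * T.D1 g) :=
      (Subring.mem_center_iff.1 (T.uu f g).2 (T.D1 f')).symm
    rw [h1, T.D1_anti f g, mul_neg, mul_assoc]
  rw [← mul_assoc, h, neg_mul, ← mul_assoc]

theorem uu_same (f g g' : S) : T.uu f g * T.uu f g' = 0 := by
  apply Subtype.ext
  show T.D1 f * T.D1 g * (T.D1 f * T.D1 g') = 0
  rw [T.D1_anti f g, neg_mul, mul_assoc, ← mul_assoc (T.D1 f), T.D1_sq, zero_mul, mul_zero,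
    neg_zero]

theorem D1_prod {K : Type*} [Fintype K] [DecidableEq K] (φ f f' : K → S)
    (h : ∀ j, T.D1 (f j) = algebraMap S Ω (f' j) * T.D1 (φ j)) (s : Finset K) :
    ∃ N : K → S, (∀ c, c ∉ s → N c = 0) ∧
      T.D1 (∏ j ∈ s, f j) = ∑ c, algebraMap S Ω (N c) * T.D1 (φ c) := by
  induction s using Finset.induction_on with
  | empty => exact ⟨0, fun _ _ => rfl, by simp [T.D1_one]⟩
  | insert a s ha ih =>
    obtain ⟨N, hN, hD⟩ := ih
    refine ⟨fun c => (if c = a then (∏ j ∈ s, f j) * f' a else 0) + f a * N c, ?_, ?_⟩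
    · intro c hc
      rw [Finset.mem_insert, not_or] at hc
      simp [hc.1, hN c hc.2]
    · rw [Finset.prod_insert ha, T.D1_mul, hD, h a, Finset.mul_sum]
      simp only [map_add, add_mul, Finset.sum_add_distrib, map_mul, mul_assoc]
      congr 1
      rw [Finset.sum_eq_single a]
      · simp [mul_assoc]
      · intro b _ hb
        simp [hb]
      · intro hb
        exact absurd (Finset.mem_univ a) hb

theorem pow_tri {n : ℕ} (ρ φ ψ a : Fin n → S) (M : Matrix (Fin n) (Fin n) S)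
    (hM : ∀ k c, k < c → M k c = 0)
    (hρ : ∀ k, T.D1 (ρ k) = ∑ c, algebraMap S Ω (M k c) * T.D1 (φ c)) (F : Ω)
    (hF : F = ∑ k, algebraMap S Ω (a k) * (T.D1 (ρ k) * T.D1 (ψ k))) :
    F ^ (n + 1) = 0 ∧ F ^ n = algebraMap S Ω (n.factorial * ∏ k, a k * M k k) *
      (∏ k, T.uu (φ k) (ψ k) : Subring.center Ω) := by
  have hF' : F = (∑ k, ce S Ω (a k) * T.uu (ρ k) (ψ k) : Subring.center Ω) := by
    rw [hF]
    simp only [AddSubmonoidClass.coe_finsetSum, Subring.coe_mul, ce_val, uu_val]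
  have h0 : ∀ k, ce S Ω (a k) * T.uu (ρ k) (ψ k) * (ce S Ω (a k) * T.uu (ρ k) (ψ k)) = 0 := by
    intro k
    rw [mul_mul_mul_comm, T.uu_same, mul_zero]
  have hs := sum_pow_card Finset.univ _ h0
  rw [Finset.card_univ, Fintype.card_fin] at hs
  have hu : ∀ k, ce S Ω (a k) * T.uu (ρ k) (ψ k) =
      ∑ c, (Matrix.of fun k c => ce S Ω (a k * M k c)) k c * T.uu (φ c) (ψ k) := by
    intro k
    apply Subtype.ext
    simp only [AddSubmonoidClass.coe_finsetSum, Subring.coe_mul, ce_val, uu_val, hρ,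
      Matrix.of_apply, Finset.sum_mul, Finset.mul_sum, map_mul, mul_assoc]
  have hp := prod_alt (fun k c => T.uu (φ c) (ψ k))
    (fun s s' c c' => T.uu_swap _ _ _ _) (fun s s' c => T.uu_same _ _ _)
    (Matrix.of fun k c => ce S Ω (a k * M k c))
  have hd : (Matrix.of fun k c => ce S Ω (a k * M k c)).det = ∏ k, ce S Ω (a k * M k k) := by
    rw [Matrix.det_of_isLowerTriangular]
    · rfl
    · intro i j hij
      have : i < j := hij
      simp [hM i j this]
  refine ⟨?_, ?_⟩
  · rw [hF', ← Subring.coe_pow, hs.2]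
    rfl
  · rw [hF', ← Subring.coe_pow, hs.1, Finset.prod_congr rfl fun k _ => hu k, hp, hd, ← map_prod,
      ← mul_assoc, ← map_natCast (ce S Ω), ← map_mul, Subring.coe_mul, ce_val]

theorem D1_polar (ρ e e' ψ κ : S) (he : e' * e = 1)
    (h : T.D1 e = algebraMap S Ω (κ * e) * T.D1 ψ)
    (h' : T.D1 e' = algebraMap S Ω (-κ * e') * T.D1 ψ) :
    T.D1 (ρ * e') * T.D1 (ρ * e) = algebraMap S Ω (2 * κ * ρ) * (T.D1 ρ * T.D1 ψ) := by
  rw [T.D1_mul, T.D1_mul, h, h']
  simp only [← Algebra.smul_def, smul_smul, add_mul, mul_add, smul_mul_assoc, mul_smul_comm,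
    T.D1_sq, smul_zero, T.D1_anti ψ ρ, smul_neg, add_zero, zero_add]
  rw [← neg_smul, ← add_smul]
  congr 1
  linear_combination (2 * κ * ρ) * he

theorem prod_pairs {P : Type*} (L : List P) (g : P × Bool → S) :
    ((L.map fun p => T.uu (g (p, false)) (g (p, true))).prod : Subring.center Ω) =
      ((L.product [false, true]).map fun i => T.D1 (g i)).prod := by
  induction L with
  | nil => rfl
  | cons p L ih =>
    rw [List.map_cons, List.prod_cons, Subring.coe_mul, ih, uu_val]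
    simp [List.product, mul_assoc]

end SD

end Vale.Agent.P174
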