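import Vale.Agent.P174.Forms
import Vale.Agent.P174.ParamAux

/-! P174 module F4, auxiliary part: coordinate functions, positivity, one projective space. -/

namespace Vale.Agent.P174

open Matrix MeasureTheory Real
open scoped ContDiff

variable {D : ℕ}

theorem D1_of_deriv (f f' : Sm D) (a : Fin (D + 1)) (g : ℝ → ℂ) (hf : ∀ x, f.1 x = g (x a))
    (hg : ∀ x, HasDerivAt g (f'.1 x) (x a)) :
    (sd D).D1 f = algebraMap _ (Om D) f' * (sd D).D1 (coord a) := by
  have h : ∀ b, pd b f = if b = a then f' else 0 := by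
    intro b
    apply Subtype.ext
    funext x
    have h1 : HasFDerivAt f.1 ((ContinuousLinearMap.toSpanSingleton ℝ (f'.1 x)).comp
        (ContinuousLinearMap.proj a)) x := by
      rw [show f.1 = g ∘ fun y : Fin (D + 1) → ℝ => y a from funext hf]
      exact (hg x).hasFDerivAt.comp x (hasFDerivAt_apply a x)
    show fderiv ℝ f.1 x (Pi.single b 1) = _
    rw [h1.fderiv]
    by_cases hb : b = a
    · simp [hb]
    · simp [hb]
  rw [D1_eq, Finset.sum_eq_single a]
  · rw [h, if_pos rfl]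
  · intro b _ hb
    rw [h, if_neg hb, map_zero, zero_mul]
  · intro hb
    exact absurd (Finset.mem_univ a) hb

/-- Exponential of a coordinate. -/
noncomputable def ex (κ : ℂ) (a : Fin (D + 1)) : Sm D :=
  ⟨fun x => Complex.exp (κ * x a), by
    show ContDiff ℝ ∞ fun x : Fin (D + 1) → ℝ => Complex.exp (κ * x a)
    exact (contDiff_const.mul (Complex.ofRealCLM.contDiff.comp (contDiff_apply ℝ ℝ a))).cexp⟩

/-- Sine of a coordinate. -/
noncomputable def sn (a : Fin (D + 1)) : Sm D :=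
  ⟨fun x => (sin (π / 2 * x a) : ℝ), by
    show ContDiff ℝ ∞ fun x : Fin (D + 1) → ℝ => ((sin (π / 2 * x a) : ℝ) : ℂ)
    exact Complex.ofRealCLM.contDiff.comp (contDiff_const.mul (contDiff_apply ℝ ℝ a)).sin⟩

/-- Cosine of a coordinate. -/
noncomputable def cs (a : Fin (D + 1)) : Sm D :=
  ⟨fun x => (cos (π / 2 * x a) : ℝ), by
    show ContDiff ℝ ∞ fun x : Fin (D + 1) → ℝ => ((cos (π / 2 * x a) : ℝ) : ℂ)
    exact Complex.ofRealCLM.contDiff.comp (contDiff_const.mul (contDiff_apply ℝ ℝ a)).cos⟩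

/-- Constant function. -/
noncomputable def cn (D : ℕ) : ℂ →+* Sm D := algebraMap ℂ (Sm D)

theorem ex_val (κ : ℂ) (a : Fin (D + 1)) (x) : (ex κ a).1 x = Complex.exp (κ * x a) := rfl
theorem sn_val (a : Fin (D + 1)) (x) : (sn a).1 x = (sin (π / 2 * x a) : ℝ) := rfl
theorem cs_val (a : Fin (D + 1)) (x) : (cs a).1 x = (cos (π / 2 * x a) : ℝ) := rfl
theorem cn_val (κ : ℂ) (x) : (cn D κ).1 x = κ := rfl
theorem mul_val (f g : Sm D) (x) : (f * g).1 x = f.1 x * g.1 x := rfl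

theorem prod_val {K : Type*} (s : Finset K) (f : K → Sm D) (x) :
    (∏ j ∈ s, f j).1 x = ∏ j ∈ s, (f j).1 x := by
  rw [SubmonoidClass.coe_finsetProd, Finset.prod_apply]

theorem ex_mul (κ : ℂ) (a : Fin (D + 1)) : ex (-κ) a * ex κ a = 1 := by
  apply Subtype.ext
  funext x
  show Complex.exp _ * Complex.exp _ = 1
  rw [← Complex.exp_add, neg_mul, neg_add_cancel, Complex.exp_zero]

theorem sn_sq (a : Fin (D + 1)) : cs a * cs a = 1 - sn a * sn a := by
  apply Subtype.ext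
  funext x
  show (cs a).1 x * (cs a).1 x = 1 - (sn a).1 x * (sn a).1 x
  rw [cs_val, sn_val]
  have := sin_sq_add_cos_sq (π / 2 * x a)
  exact_mod_cast (by linarith : cos (π / 2 * x a) * cos (π / 2 * x a) =
    1 - sin (π / 2 * x a) * sin (π / 2 * x a))

theorem D1_ex (κ : ℂ) (a : Fin (D + 1)) :
    (sd D).D1 (ex κ a) = algebraMap _ (Om D) (cn D κ * ex κ a) * (sd D).D1 (coord a) := by
  refine D1_of_deriv _ _ a (fun t => Complex.exp (κ * t)) (fun _ => rfl) fun x => ?_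
  have h := ((Complex.ofRealCLM.hasDerivAt (x := x a)).const_mul κ).cexp
  refine h.congr_deriv ?_
  rw [mul_val, cn_val, ex_val]
  simp [mul_comm]

theorem D1_sn (a : Fin (D + 1)) :
    (sd D).D1 (sn a) = algebraMap _ (Om D) (cn D (π / 2) * cs a) * (sd D).D1 (coord a) := by
  refine D1_of_deriv _ _ a (fun t => (sin (π / 2 * t) : ℝ)) (fun _ => rfl) fun x => ?_
  have h := ((hasDerivAt_id (x a)).const_mul (π / 2)).sin.ofReal_comp
  refine h.congr_deriv ?_
  rw [mul_val, cn_val, cs_val]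
  simp [mul_comm]

theorem D1_cs (a : Fin (D + 1)) :
    (sd D).D1 (cs a) = algebraMap _ (Om D) (cn D (-(π / 2)) * sn a) * (sd D).D1 (coord a) := by
  refine D1_of_deriv _ _ a (fun t => (cos (π / 2 * t) : ℝ)) (fun _ => rfl) fun x => ?_
  have h := ((hasDerivAt_id (x a)).const_mul (π / 2)).cos.ofReal_comp
  refine h.congr_deriv ?_
  rw [mul_val, cn_val, sn_val]
  simp [mul_comm]

/-- Functions that are a nonzero constant times a positive function inside the box. -/
def Ps (D : ℕ) : Submonoid (Sm D) where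
  carrier := {f | ∃ κ : ℂ, κ ≠ 0 ∧ ∀ x : Fin (D + 1) → ℝ,
    (∀ a : Fin D, 0 < x a.succ ∧ x a.succ < 1) → ∃ r : ℝ, 0 < r ∧ f.1 x = κ * r}
  mul_mem' := by
    rintro f g ⟨κ, hκ, hf⟩ ⟨κ', hκ', hg⟩
    refine ⟨κ * κ', mul_ne_zero hκ hκ', fun x hx => ?_⟩
    obtain ⟨r, hr, h⟩ := hf x hx
    obtain ⟨r', hr', h'⟩ := hg x hx
    refine ⟨r * r', mul_pos hr hr', ?_⟩
    rw [mul_val, h, h']
    push_cast
    ring
  one_mem' := ⟨1, one_ne_zero, fun x _ => ⟨1, one_pos, by simp⟩⟩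

theorem cn_mem {κ : ℂ} (h : κ ≠ 0) : cn D κ ∈ Ps D :=
  ⟨κ, h, fun x _ => ⟨1, one_pos, by simp [cn_val]⟩⟩

theorem sn_mem (a : Fin D) : sn a.succ ∈ Ps D :=
  ⟨1, one_ne_zero, fun x hx => ⟨sin (π / 2 * x a.succ),
    sin_pos_of_pos_of_lt_pi (by have := (hx a).1; positivity)
      (by nlinarith [(hx a).2, pi_pos]), by rw [sn_val, one_mul]⟩⟩

theorem cs_mem (a : Fin D) : cs a.succ ∈ Ps D :=
  ⟨1, one_ne_zero, fun x hx => ⟨cos (π / 2 * x a.succ),
    cos_pos_of_mem_Ioo ⟨by nlinarith [(hx a).1, pi_pos], by nlinarith [(hx a).2, pi_pos]⟩,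
      by rw [cs_val, one_mul]⟩⟩

theorem ex_mem (a : Fin D) :
    (ex (2 * π * Complex.I) a.succ - 1) ^ 2 * ex (-(2 * π * Complex.I)) a.succ ∈ Ps D := by
  refine ⟨-1, by simp, fun x hx => ⟨2 - 2 * cos (2 * π * x a.succ), ?_, ?_⟩⟩
  · have h : cos (2 * π * x a.succ) ≠ 1 := by
      rw [Ne, cos_eq_one_iff_of_lt_of_lt (by nlinarith [(hx a).1, pi_pos])
        (by nlinarith [(hx a).2, pi_pos])]
      have := (hx a).1
      positivity
    have := lt_of_le_of_ne (cos_le_one _) h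
    linarith
  · have h : (ex (2 * π * Complex.I) a.succ - 1) ^ 2 * ex (-(2 * π * Complex.I)) a.succ =
        ex (2 * π * Complex.I) a.succ + ex (-(2 * π * Complex.I)) a.succ - 2 := by
      linear_combination (ex (2 * π * Complex.I) a.succ - 2) * ex_mul (2 * π * Complex.I) a.succ
    rw [h]
    show (ex _ _).1 x + (ex _ _).1 x - 2 = _
    rw [ex_val, ex_val]
    push_cast
    rw [Complex.two_cos]
    ring_nf

theorem integral_ne_zero {f : Sm D} (hf : f ∈ Ps D) :
    ∫ x in Set.Icc (0 : Fin D → ℝ) 1, f.1 (Fin.cons 0 x) ≠ 0 := by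
  obtain ⟨κ, hκ, h⟩ := hf
  have hc : Continuous fun x : Fin D → ℝ => f.1 (Fin.cons 0 x) :=
    (show ContDiff ℝ ∞ f.1 from f.2).continuous.comp (by fun_prop)
  have hi : IntegrableOn (fun x : Fin D → ℝ => f.1 (Fin.cons 0 x)) (Set.Icc 0 1) :=
    hc.continuousOn.integrableOn_compact isCompact_Icc
  have hU : IsOpen (Set.univ.pi fun _ : Fin D => Set.Ioo (0 : ℝ) 1) :=
    isOpen_set_pi Set.finite_univ fun _ _ => isOpen_Ioo
  have hae : (Set.univ.pi fun _ : Fin D => Set.Ioo (0 : ℝ) 1) =ᵐ[volume] Set.Icc 0 1 :=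
    Measure.univ_pi_Ioo_ae_eq_Icc
  have hpos : ∀ x ∈ Set.univ.pi fun _ : Fin D => Set.Ioo (0 : ℝ) 1,
      0 < (κ⁻¹ * f.1 (Fin.cons 0 x)).re := by
    intro x hx
    obtain ⟨r, hr, h'⟩ := h (Fin.cons 0 x) fun a => hx a (Set.mem_univ a)
    rw [h', inv_mul_cancel_left₀ hκ]
    exact hr
  have hi' := (hi.congr_set_ae hae).const_mul κ⁻¹
  intro h0
  rw [← setIntegral_congr_set hae] at h0
  have h1 : 0 < ∫ x in Set.univ.pi fun _ : Fin D => Set.Ioo (0 : ℝ) 1,
      (κ⁻¹ * f.1 (Fin.cons 0 x)).re := by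
    rw [setIntegral_pos_iff_support_of_nonneg_ae
      (ae_restrict_of_forall_mem hU.measurableSet fun x hx => (hpos x hx).le) hi'.re]
    refine lt_of_lt_of_le (hU.measure_pos volume ⟨fun _ => 1 / 2, fun _ _ => by norm_num⟩)
      (measure_mono fun x hx => ⟨(hpos x hx).ne', hx⟩)
  have h2 := integral_re hi'
  simp only [RCLike.re_to_complex] at h2
  rw [h2, integral_const_mul, h0] at h1
  simp at h1

variable {n : ℕ}

/-- Moduli of the homogeneous coordinates. -/
noncomputable def rho (φ : Fin n → Fin (D + 1)) (k : Fin n) : Sm D :=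
  sn (φ k) * ∏ j ∈ Finset.univ.filter (· < k), cs (φ j)

/-- Homogeneous coordinates. -/
noncomputable def vv (κ : ℂ) (φ ψ : Fin n → Fin (D + 1)) : Fin (n + 1) → Sm D :=
  Fin.cons (∏ j, cs (φ j)) fun k => rho φ k * ex κ (ψ k)

theorem vv_dot (κ : ℂ) (φ ψ : Fin n → Fin (D + 1)) : vv (-κ) φ ψ ⬝ᵥ vv κ φ ψ = 1 := by
  have h := Finset.prod_one_sub_ordered Finset.univ fun j => sn (φ j) * sn (φ j)
  simp only [← sn_sq, Finset.prod_mul_distrib] at h
  simp only [dotProduct, Fin.sum_univ_succ, vv, Fin.cons_zero, Fin.cons_succ]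
  rw [h, sub_add_eq_add_sub, sub_eq_iff_eq_add]
  congr 1
  refine Finset.sum_congr rfl fun k _ => ?_
  rw [mul_mul_mul_comm, ex_mul, mul_one, rho, mul_mul_mul_comm]

theorem vv_pow (κ : ℂ) (hκ : κ ≠ 0) (φ ψ : Fin n → Fin D) (F : Om D)
    (hF : F = ∑ a, (sd D).D1 (vv (-κ) (fun k => (φ k).succ) (fun k => (ψ k).succ) a) *
      (sd D).D1 (vv κ (fun k => (φ k).succ) (fun k => (ψ k).succ) a)) :
    F ^ (n + 1) = 0 ∧ ∃ W ∈ Ps D, F ^ n = algebraMap _ (Om D) W *
      (∏ k, (sd D).uu (coord (φ k).succ) (coord (ψ k).succ) : Subring.center (Om D)) := by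
  choose N hN hD using fun k : Fin n => (sd D).D1_prod (fun j => coord (φ j).succ)
    (fun j => cs (φ j).succ) _ (fun j => D1_cs (φ j).succ) (Finset.univ.filter (· < k))
  have h := (sd D).pow_tri (rho fun k => (φ k).succ) (fun k => coord (φ k).succ)
    (fun k => coord (ψ k).succ) (fun k => 2 * cn D κ * rho (fun k => (φ k).succ) k)
    (Matrix.of fun k c => (if c = k then (∏ j ∈ Finset.univ.filter (· < k), cs (φ j).succ) *
      (cn D (π / 2) * cs (φ k).succ) else 0) + sn (φ k).succ * N k c) ?_ ?_ F ?_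
  · refine ⟨h.1, _, ?_, h.2⟩
    refine mul_mem ?_ (prod_mem fun k _ => ?_)
    · rw [← map_natCast (cn D)]
      exact cn_mem (Nat.cast_ne_zero.2 n.factorial_ne_zero)
    · rw [Matrix.of_apply, if_pos rfl, hN k k (by simp), mul_zero, add_zero,
        ← map_ofNat (cn D) 2]
      have hc : ∏ j ∈ Finset.univ.filter (· < k), cs (φ j).succ ∈ Ps D :=
        prod_mem fun j _ => cs_mem _
      exact mul_mem (mul_mem (mul_mem (cn_mem two_ne_zero) (cn_mem hκ)) (mul_mem (sn_mem _) hc))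
        (mul_mem hc (mul_mem (cn_mem (by simp)) (cs_mem _)))
  · intro k c hkc
    rw [Matrix.of_apply, if_neg hkc.ne', hN k c (by simpa using hkc.le), mul_zero, add_zero]
  · intro k
    rw [rho, SD.D1_mul, hD, D1_sn, Finset.mul_sum]
    simp only [Matrix.of_apply, map_add, add_mul, Finset.sum_add_distrib, map_mul, mul_assoc]
    congr 1
    rw [Finset.sum_eq_single k]
    · simp [mul_assoc]
    · intro b _ hb
      simp [hb]
    · intro hb
      exact absurd (Finset.mem_univ k) hb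
  · rw [hF]
    simp only [Fin.sum_univ_succ, vv, Fin.cons_zero, Fin.cons_succ, SD.D1_sq, zero_add]
    refine Finset.sum_congr rfl fun k _ => ?_
    refine (sd D).D1_polar _ _ _ _ _ (ex_mul _ _) (D1_ex _ _) ?_
    rw [D1_ex, map_neg]

end Vale.Agent.P174
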